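import Crest.Agent.R086.E.Scale

open MeasureTheory Set Filter Topology
open scoped ContDiff ComplexConjugate ENNReal
open Crest.AnalysisR.PDE.NLS

namespace Crest.Agent.R086.E

noncomputable section

/-! # Algebra of the class `Ck` -/

variable {k : ℕ} {J : Set ℝ} {z w : ℝ → R12 → ℂ}

section Aux
variable {F G : Type} [NormedAddCommGroup F] [NormedSpace ℝ F] [NormedAddCommGroup G]
  [NormedSpace ℝ G]

/-- `Ck` for an arbitrary codomain -/
def CkA_G (k : ℕ) (J : Set ℝ) (z : ℝ → R12 → F) : Prop :=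
  (∀ t ∈ J, ContDiff ℝ k (z t)) ∧ ∀ j : ℕ, j ≤ k →
    ContinuousOn (fun p : ℝ × R12 => iteratedFDeriv ℝ j (z p.1) p.2) (J ×ˢ univ)

theorem CkA_iff : Ck k J z ↔ CkA_G k J z := ⟨fun h => ⟨h.1, h.2⟩, fun h => ⟨h.1, h.2⟩⟩

theorem CkA_clm {z : ℝ → R12 → F} (L : F →L[ℝ] G) (h : CkA_G k J z) :
    CkA_G k J fun t y => L (z t y) := by
  refine ⟨fun t ht => L.contDiff.comp (h.1 t ht), fun j hj => ?_⟩
  refine ((ContinuousLinearMap.compContinuousMultilinearMapL ℝ (fun _ : Fin j => R12) F G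
    L).continuous.comp_continuousOn (h.2 j hj)).congr fun p hp => ?_
  exact L.iteratedFDeriv_comp_left (h.1 _ hp.1).contDiffAt (by exact_mod_cast hj)

theorem CkA_sum {α : Type} (s : Finset α) {z : α → ℝ → R12 → F} (h : ∀ a ∈ s, CkA_G k J (z a)) :
    CkA_G k J fun t y => ∑ a ∈ s, z a t y := by
  refine ⟨fun t ht => ContDiff.sum fun a ha => (h a ha).1 t ht, fun j hj => ?_⟩
  refine (continuousOn_finsetSum s fun a ha => (h a ha).2 j hj).congr fun p hp => ?_
  exact iteratedFDeriv_fun_sum_apply fun a ha =>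
    (((h a ha).1 _ hp.1).of_le (by exact_mod_cast hj)).contDiffAt

theorem CkA_fderiv {z : ℝ → R12 → F} (h : CkA_G (k + 1) J z) :
    CkA_G k J fun t => fderiv ℝ (z t) := by
  refine ⟨fun t ht => (h.1 t ht).fderiv_right (by norm_cast), fun j hj => ?_⟩
  refine ((continuousMultilinearCurryRightEquiv' ℝ j R12 F).continuous.comp_continuousOn
    (h.2 (j + 1) (by omega))).congr fun p _ => ?_
  simp [iteratedFDeriv_succ_eq_comp_right]

theorem CkA_succ {z : ℝ → R12 → F}
    (h0 : ContinuousOn (fun p : ℝ × R12 => z p.1 p.2) (J ×ˢ univ))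
    (hd : ∀ t ∈ J, Differentiable ℝ (z t)) (h : CkA_G k J fun t => fderiv ℝ (z t)) :
    CkA_G (k + 1) J z := by
  refine ⟨fun t ht => ?_, fun j hj => ?_⟩
  · rw [Nat.cast_succ, contDiff_succ_iff_fderiv]
    exact ⟨hd t ht, by simp, h.1 t ht⟩
  rcases j with _ | j
  · exact (continuousMultilinearCurryFin0 ℝ R12 F).symm.continuous.comp_continuousOn h0
  · refine ((continuousMultilinearCurryRightEquiv' ℝ j R12 F).symm.continuous.comp_continuousOn
      (h.2 j (by omega))).congr fun p _ => ?_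
    exact iteratedFDeriv_succ_eq_comp_right

end Aux

theorem ck_mono {k' : ℕ} (h : Ck k J z) (hk : k' ≤ k) : Ck k' J z := by
  exact ⟨fun t ht => (h.diff t ht).of_le (by exact_mod_cast hk), fun j hj => h.cont j (hj.trans hk)⟩

theorem ck_subset {J' : Set ℝ} (h : Ck k J z) (hJ : J' ⊆ J) : Ck k J' z := by
  exact ⟨fun t ht => h.diff t (hJ ht), fun j hj => (h.cont j hj).mono (prod_mono hJ Subset.rfl)⟩

theorem ck_congr (h : Ck k J z) (hzw : ∀ t ∈ J, ∀ y, z t y = w t y) : Ck k J w := by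
  refine ⟨fun t ht => ?_, fun j hj => (h.cont j hj).congr fun p hp => ?_⟩
  · rw [← funext (hzw t ht)]
    exact h.diff t ht
  · simp only [← funext (hzw _ hp.1)]

theorem ck_continuousOn (h : Ck k J z) : ContinuousOn (fun p : ℝ × R12 => z p.1 p.2) (J ×ˢ univ) := by
  exact (continuousMultilinearCurryFin0 ℝ R12 ℂ).continuous.comp_continuousOn (h.cont 0 k.zero_le)

theorem ck_zero_iff : Ck 0 J z ↔ ContinuousOn (fun p : ℝ × R12 => z p.1 p.2) (J ×ˢ univ) := by
  refine ⟨ck_continuousOn, fun h => ⟨fun t ht => contDiff_zero.2 ?_, fun j hj => ?_⟩⟩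
  · exact h.comp_continuous (f := fun y => (t, y)) (by fun_prop) fun y => ⟨ht, trivial⟩
  · obtain rfl : j = 0 := by omega
    exact (continuousMultilinearCurryFin0 ℝ R12 ℂ).symm.continuous.comp_continuousOn h

theorem ck_pd (h : Ck (k + 1) J z) (i : Fin 12) : Ck k J (fun t => pd i (z t)) := by
  exact CkA_iff.2 (CkA_clm (ContinuousLinearMap.apply ℝ ℂ (ee i)) (CkA_fderiv (CkA_iff.1 h)))

/-- the recursive description: D^{j+1} f = curry⁻¹ (D^j (fderiv f)) (`iteratedFDeriv_succ_eq_comp_right`),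
`fderiv f = Σ_i (pd i f) • proj i` -/
theorem ck_succ_of_pd (h0 : ContinuousOn (fun p : ℝ × R12 => z p.1 p.2) (J ×ˢ univ))
    (hd : ∀ t ∈ J, Differentiable ℝ (z t)) (h : ∀ i : Fin 12, Ck k J (fun t => pd i (z t))) :
    Ck (k + 1) J z := by
  refine CkA_iff.2 (CkA_succ h0 hd ?_)
  convert CkA_sum Finset.univ fun i _ => CkA_clm
    (ContinuousLinearMap.smulRightL ℝ R12 ℂ (EuclideanSpace.proj i)) (CkA_iff.1 (h i)) with t y
  ext v
  conv_lhs => rw [← (EuclideanSpace.basisFun (Fin 12) ℝ).sum_repr v]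
  simp [pd, ee]

theorem ck_add (h : Ck k J z) (h' : Ck k J w) : Ck k J (fun t y => z t y + w t y) := by
  simpa using CkA_iff.2 (CkA_sum (z := ![z, w]) Finset.univ fun a _ => by
    fin_cases a
    exacts [CkA_iff.1 h, CkA_iff.1 h'])

theorem ck_sub (h : Ck k J z) (h' : Ck k J w) : Ck k J (fun t y => z t y - w t y) := by
  simpa [sub_eq_add_neg] using
    ck_add h (CkA_iff.2 (CkA_clm (-ContinuousLinearMap.id ℝ ℂ) (CkA_iff.1 h')))

theorem ck_sum {α : Type} (s : Finset α) {z : α → ℝ → R12 → ℂ} (h : ∀ a ∈ s, Ck k J (z a)) :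
    Ck k J (fun t y => ∑ a ∈ s, z a t y) := by
  exact CkA_iff.2 (CkA_sum s fun a ha => CkA_iff.1 (h a ha))

/-- induction on k (generalising z, w) with `ck_succ_of_pd`, `pd_mul` -/
theorem ck_mul (h : Ck k J z) (h' : Ck k J w) : Ck k J (fun t y => z t y * w t y) := by
  induction k generalizing z w with
  | zero => exact ck_zero_iff.2 ((ck_continuousOn h).mul (ck_continuousOn h'))
  | succ k ih =>
    have d := fun t ht => (h.diff t ht).differentiable (by simp)
    have d' := fun t ht => (h'.diff t ht).differentiable (by simp)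
    refine ck_succ_of_pd ((ck_continuousOn h).mul (ck_continuousOn h'))
      (fun t ht => (d t ht).mul (d' t ht)) fun i => ck_congr (ck_add
        (ih (ck_pd h i) (ck_mono h' k.le_succ)) (ih (ck_mono h k.le_succ) (ck_pd h' i)))
        fun t ht y => ?_
    rw [pd_mul (d t ht) (d' t ht)]

theorem ck_conj (h : Ck k J z) : Ck k J (fun t y => conj (z t y)) := by
  exact CkA_iff.2 (CkA_clm (Complex.conjCLE : ℂ →L[ℝ] ℂ) (CkA_iff.1 h))

theorem CkA_space {f : R12 → ℂ} (hf : ContDiff ℝ k f) : Ck k J (fun _ => f) :=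
  ⟨fun _ _ => hf, fun _ hj => ((hf.continuous_iteratedFDeriv (by exact_mod_cast hj)).comp
    continuous_snd).continuousOn⟩

theorem ck_pow (h : Ck k J z) (N : ℕ) : Ck k J (fun t y => z t y ^ N) := by
  induction N with
  | zero => simpa using CkA_space (k := k) (J := J) (f := fun _ => 1) contDiff_const
  | succ N ih => simpa only [pow_succ] using ck_mul ih h

theorem ck_time {c : ℝ → ℂ} (hc : ContinuousOn c J) : Ck k J (fun t _ => c t) := by
  have h0 : ContinuousOn (fun p : ℝ × R12 => c p.1) (J ×ˢ univ) :=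
    hc.comp continuousOn_fst fun _ hp => hp.1
  rcases k with _ | k
  · exact ck_zero_iff.2 h0
  · refine ck_succ_of_pd h0 (fun _ _ => differentiable_const _) fun i =>
      ck_congr (CkA_space (f := fun _ => 0) contDiff_const) fun t _ y => by simp [pd]

theorem ck_space {f : R12 → ℂ} (hf : ContDiff ℝ k f) : Ck k J (fun _ => f) := by
  exact CkA_space hf

theorem ck_const_mul (c : ℂ) (h : Ck k J z) : Ck k J (fun t y => c * z t y) := by
  exact ck_mul (ck_time continuousOn_const) h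

theorem ck_lap (h : Ck (k + 2) J z) : Ck k J (fun t => lap (z t)) := by
  refine ck_congr (ck_sum Finset.univ fun i _ => ck_pd (ck_pd h i) i) fun t ht y => ?_
  exact (lap_eq ((h.diff t ht).of_le (by exact_mod_cast Nat.le_add_left 2 k)) y).symm

/-- induction on k with `ck_succ_of_pd`: the partial derivative of a jointly smooth function is jointly smooth -/
theorem ck_of_contDiffOn {O : Set ℝ} (hO : IsOpen O) (hJ : J ⊆ O)
    (h : ContDiffOn ℝ ∞ (fun p : ℝ × R12 => z p.1 p.2) (O ×ˢ univ)) : Ck k J z := by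
  have hm := prod_mono hJ (Subset.refl (univ : Set R12))
  induction k generalizing z with
  | zero => exact ck_zero_iff.2 (h.continuousOn.mono hm)
  | succ k ih =>
    have hO' := hO.prod (isOpen_univ (X := R12))
    have d : ∀ t ∈ O, ∀ y, HasFDerivAt (z t) ((fderiv ℝ (fun p : ℝ × R12 => z p.1 p.2) (t, y)).comp
        (.inr ℝ ℝ R12)) y := fun t ht y =>
      HasFDerivAt.comp (f := fun y => (t, y)) y ((h.contDiffAt (hO'.mem_nhds
        ⟨ht, trivial⟩)).differentiableAt (by simp)).hasFDerivAt (hasFDerivAt_prodMk_right t y)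
    refine ck_succ_of_pd (h.continuousOn.mono hm) (fun t ht y => (d t (hJ ht) y).differentiableAt)
      fun i => ih (((h.fderiv_of_isOpen hO' (m := ∞) (by simp)).clm_apply
        (contDiffOn_const (c := ((0, ee i) : ℝ × R12)))).congr fun p hp => ?_)
    rw [pd, (d _ hp.1 _).fderiv]
    rfl

theorem ck_V1 (n : ℕ) (h : Ck k J z) : Ck k J (fun t y => V1 n (z t y)) := by
  exact ck_const_mul _ (ck_mul (ck_pow h _) (ck_pow (ck_conj h) _))

theorem ck_V2 (n : ℕ) (h : Ck k J z) : Ck k J (fun t y => V2 n (z t y)) := by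
  exact ck_const_mul _ (ck_mul (ck_pow h _) (ck_pow (ck_conj h) _))

theorem ck_NL (n : ℕ) (h : Ck k J z) : Ck k J (fun t y => NL n (z t y)) := by
  exact ck_mul (ck_pow h _) (ck_pow (ck_conj h) _)

end

end Crest.Agent.R086.E
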