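import Crest.Agent.R086.E.Scale

open MeasureTheory Set Filter Topology
open scoped ContDiff ComplexConjugate ENNReal
open Crest.AnalysisR.PDE.NLS

namespace Crest.Agent.R086.E

noncomputable section

/-! # Elementary properties of `nrm`; multipliers -/

theorem nrm_rho_one (h : ℝ) (y : R12) : 1 ≤ 1 + PP h y := by linarith [PP_nonneg h y]

theorem nrm_rho_pos (h : ℝ) (y : R12) : 0 < 1 + PP h y := by linarith [PP_nonneg h y]

theorem nrm_cont_w (h θ : ℝ) : Continuous (fun y => (1 + PP h y) ^ θ) :=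
  (continuous_const.add (contDiff_PP h).continuous).rpow_const fun y => Or.inl (nrm_rho_pos h y).ne'

theorem nrm_norm_smul {E : Type} [NormedAddCommGroup E] [NormedSpace ℝ E] (h θ : ℝ) (y : R12)
    (v : E) : ‖(1 + PP h y) ^ θ • v‖ = (1 + PP h y) ^ θ * ‖v‖ := by
  rw [norm_smul, Real.norm_of_nonneg (Real.rpow_nonneg (nrm_rho_pos h y).le _)]

theorem continuous_term {k j : ℕ} (hj : j ≤ k) {f : R12 → ℂ} (hf : ContDiff ℝ k f) (h θ : ℝ) :
    Continuous (fun y => (1 + PP h y) ^ θ • iteratedFDeriv ℝ j f y) := by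
  exact (nrm_cont_w h θ).smul (hf.continuous_iteratedFDeriv (by exact_mod_cast hj))

theorem term_le_nrm {k j : ℕ} (hj : j ≤ k) (h : ℝ) (f : R12 → ℂ) :
    eLpNorm (fun y => (1 + PP h y) ^ (ew j / 2) • iteratedFDeriv ℝ j f y) 2 (volume.restrict (cell h))
      ≤ nrm k h f := by
  unfold nrm
  exact Finset.single_le_sum (f := fun j => eLpNorm (fun y => (1 + PP h y) ^ (ew j / 2) •
    iteratedFDeriv ℝ j f y) 2 (volume.restrict (cell h))) (fun _ _ => zero_le)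
    (Finset.mem_range.2 (Nat.lt_succ_of_le hj))

theorem nrm_cont_sum {k : ℕ} (h : ℝ) {f : R12 → ℂ} (hf : ContDiff ℝ k f) :
    Continuous fun y => ∑ i ∈ Finset.range (k + 1),
      (1 + PP h y) ^ (ew i / 2) * ‖iteratedFDeriv ℝ i f y‖ :=
  continuous_finsetSum _ fun i hi => (nrm_cont_w h _).mul (hf.continuous_iteratedFDeriv
    (by exact_mod_cast Nat.lt_succ_iff.1 (Finset.mem_range.1 hi))).norm

theorem nrm_sum_W {k : ℕ} (h : ℝ) {f : R12 → ℂ} (hf : ContDiff ℝ k f) {M : ℝ} (hM : 0 ≤ M) :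
    eLpNorm (fun y => M * ∑ i ∈ Finset.range (k + 1),
      (1 + PP h y) ^ (ew i / 2) * ‖iteratedFDeriv ℝ i f y‖) 2 (volume.restrict (cell h)) ≤
      ENNReal.ofReal M * nrm k h f := by
  have h1 := eLpNorm_const_smul M (∑ i ∈ Finset.range (k + 1),
    fun y => (1 + PP h y) ^ (ew i / 2) * ‖iteratedFDeriv ℝ i f y‖) 2 (volume.restrict (cell h))
  have h2 : (fun y => M * ∑ i ∈ Finset.range (k + 1),
      (1 + PP h y) ^ (ew i / 2) * ‖iteratedFDeriv ℝ i f y‖) = M • ∑ i ∈ Finset.range (k + 1),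
      fun y => (1 + PP h y) ^ (ew i / 2) * ‖iteratedFDeriv ℝ i f y‖ := by
    funext y
    simp only [Pi.smul_apply, Finset.sum_apply, smul_eq_mul]
  rw [h2, h1, Real.enorm_eq_ofReal hM]
  refine mul_le_mul_right ?_ _
  refine (eLpNorm_sum_le (fun i hi => ((nrm_cont_w h _).mul (hf.continuous_iteratedFDeriv
    (by exact_mod_cast Nat.lt_succ_iff.1 (Finset.mem_range.1 hi))).norm).aestronglyMeasurable)
    (by norm_num)).trans ?_
  unfold nrm
  refine Finset.sum_le_sum fun i _ => ?_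
  rw [← eLpNorm_norm (fun y => (1 + PP h y) ^ (ew i / 2) • iteratedFDeriv ℝ i f y)]
  simp only [nrm_norm_smul]
  exact le_rfl

/-- from pointwise bounds to norm bounds (`eLpNorm_mono`, triangle inequality `eLpNorm_sum_le`) -/
theorem nrm_le_of_pointwise {k k₁ k₂ : ℕ} {h : ℝ} {g f₁ f₂ : R12 → ℂ} (h1 : ContDiff ℝ k₁ f₁)
    (h2 : ContDiff ℝ k₂ f₂) {M₁ M₂ : ℝ} (hM₁ : 0 ≤ M₁) (hM₂ : 0 ≤ M₂)
    (H : ∀ j : ℕ, j ≤ k → ∀ y, (1 + PP h y) ^ (ew j / 2) * ‖iteratedFDeriv ℝ j g y‖ ≤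
      M₁ * (∑ i ∈ Finset.range (k₁ + 1), (1 + PP h y) ^ (ew i / 2) * ‖iteratedFDeriv ℝ i f₁ y‖) +
      M₂ * (∑ i ∈ Finset.range (k₂ + 1), (1 + PP h y) ^ (ew i / 2) * ‖iteratedFDeriv ℝ i f₂ y‖)) :
    nrm k h g ≤ ENNReal.ofReal ((k + 1) * M₁) * nrm k₁ h f₁ + ENNReal.ofReal ((k + 1) * M₂) * nrm k₂ h f₂ := by
  have key : ∀ j ∈ Finset.range (k + 1),
      eLpNorm (fun y => (1 + PP h y) ^ (ew j / 2) • iteratedFDeriv ℝ j g y) 2
        (volume.restrict (cell h)) ≤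
        ENNReal.ofReal M₁ * nrm k₁ h f₁ + ENNReal.ofReal M₂ * nrm k₂ h f₂ := by
    intro j hj
    refine le_trans (eLpNorm_mono_real (g := (fun y => M₁ * ∑ i ∈ Finset.range (k₁ + 1),
      (1 + PP h y) ^ (ew i / 2) * ‖iteratedFDeriv ℝ i f₁ y‖) + fun y => M₂ *
        ∑ i ∈ Finset.range (k₂ + 1), (1 + PP h y) ^ (ew i / 2) * ‖iteratedFDeriv ℝ i f₂ y‖)
      fun y => ?_) ?_
    · rw [nrm_norm_smul]
      exact H j (Nat.lt_succ_iff.1 (Finset.mem_range.1 hj)) y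
    · exact (eLpNorm_add_le (continuous_const.mul (nrm_cont_sum h h1)).aestronglyMeasurable
        (continuous_const.mul (nrm_cont_sum h h2)).aestronglyMeasurable (by norm_num)).trans
        (add_le_add (nrm_sum_W h h1 hM₁) (nrm_sum_W h h2 hM₂))
  refine (Finset.sum_le_card_nsmul _ _ _ key).trans (le_of_eq ?_)
  have e : ENNReal.ofReal ((k : ℝ) + 1) = ((k + 1 : ℕ) : ℝ≥0∞) := by
    rw [← ENNReal.ofReal_natCast]; push_cast; rfl
  rw [Finset.card_range, nsmul_eq_mul, ENNReal.ofReal_mul (by positivity),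
    ENNReal.ofReal_mul (by positivity), e]
  ring

theorem nrm_add_le {k : ℕ} (h : ℝ) {f g : R12 → ℂ} (hf : ContDiff ℝ k f) (hg : ContDiff ℝ k g) :
    nrm k h (fun y => f y + g y) ≤ nrm k h f + nrm k h g := by
  unfold nrm
  rw [← Finset.sum_add_distrib]
  refine Finset.sum_le_sum fun j hj => ?_
  have hj' := Nat.lt_succ_iff.1 (Finset.mem_range.1 hj)
  have hjk : (j : WithTop ℕ∞) ≤ k := by exact_mod_cast hj'
  refine le_trans (le_of_eq ?_) (eLpNorm_add_le (continuous_term hj' hf h _).aestronglyMeasurable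
    (continuous_term hj' hg h _).aestronglyMeasurable (by norm_num))
  congr 1
  funext y
  rw [Pi.add_apply, ← smul_add,
    ← iteratedFDeriv_add_apply (hf.of_le hjk).contDiffAt (hg.of_le hjk).contDiffAt]
  rfl

theorem nrm_congr_norm {k : ℕ} (h : ℝ) {f g : R12 → ℂ}
    (H : ∀ j ≤ k, ∀ y, ‖iteratedFDeriv ℝ j f y‖ = ‖iteratedFDeriv ℝ j g y‖) :
    nrm k h f = nrm k h g := by
  unfold nrm
  refine Finset.sum_congr rfl fun j hj => ?_
  refine eLpNorm_congr_norm_ae (Eventually.of_forall fun y => ?_)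
  rw [norm_smul, norm_smul, H j (Nat.lt_succ_iff.1 (Finset.mem_range.1 hj))]

theorem nrm_zero' (k : ℕ) (h : ℝ) : nrm k h (fun _ => 0) = 0 := by
  unfold nrm
  refine Finset.sum_eq_zero fun j _ => ?_
  simp

theorem nrm_sub_le {k : ℕ} (h : ℝ) {f g : R12 → ℂ} (hf : ContDiff ℝ k f) (hg : ContDiff ℝ k g) :
    nrm k h (fun y => f y - g y) ≤ nrm k h f + nrm k h g := by
  have h1 := nrm_add_le h hf hg.neg
  have h2 : nrm k h (fun y => -g y) = nrm k h g := nrm_congr_norm h fun j _ y => by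
    have := iteratedFDeriv_neg_apply (𝕜 := ℝ) (i := j) (f := g) (x := y)
    exact (congrArg norm this).trans (norm_neg _)
  rw [h2] at h1
  simpa only [sub_eq_add_neg] using h1

theorem nrm_sum_le {k : ℕ} (h : ℝ) {α : Type} (s : Finset α) {f : α → R12 → ℂ}
    (hf : ∀ a ∈ s, ContDiff ℝ k (f a)) :
    nrm k h (fun y => ∑ a ∈ s, f a y) ≤ ∑ a ∈ s, nrm k h (f a) := by
  classical
  induction s using Finset.induction_on with
  | empty => simp only [Finset.sum_empty, nrm_zero', le_refl]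
  | insert a s ha ih =>
    simp only [Finset.sum_insert ha]
    have h1 : ∀ b ∈ s, ContDiff ℝ k (f b) := fun b hb => hf b (Finset.mem_insert_of_mem hb)
    exact (nrm_add_le h (hf a (Finset.mem_insert_self _ _)) (ContDiff.sum h1)).trans
      (add_le_add le_rfl (ih h1))

theorem nrm_const_mul {k : ℕ} (h : ℝ) (c : ℂ) {f : R12 → ℂ} (hf : ContDiff ℝ k f) :
    nrm k h (fun y => c * f y) = ENNReal.ofReal ‖c‖ * nrm k h f := by
  unfold nrm
  rw [Finset.mul_sum]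
  refine Finset.sum_congr rfl fun j hj => ?_
  have hjk : (j : WithTop ℕ∞) ≤ k := by
    exact_mod_cast Nat.lt_succ_iff.1 (Finset.mem_range.1 hj)
  rw [← Real.enorm_eq_ofReal (norm_nonneg c), ← eLpNorm_const_smul]
  refine eLpNorm_congr_norm_ae (Eventually.of_forall fun y => ?_)
  rw [Pi.smul_apply, norm_smul, norm_smul, norm_smul, norm_norm,
    norm_iteratedFDeriv_const_mul (hf.of_le hjk)]
  ring

theorem nrm_conj (k : ℕ) (h : ℝ) (f : R12 → ℂ) : nrm k h (fun y => conj (f y)) = nrm k h f := by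
  exact nrm_congr_norm h fun j _ y => norm_iteratedFDeriv_conj j f y

theorem nrm_zero (k : ℕ) (h : ℝ) : nrm k h (fun _ => 0) = 0 := by
  exact nrm_zero' k h

theorem nrm_mono {k k' : ℕ} (hk : k ≤ k') (h : ℝ) (f : R12 → ℂ) : nrm k h f ≤ nrm k' h f := by
  unfold nrm
  exact Finset.sum_le_sum_of_subset (Finset.range_mono (Nat.succ_le_succ hk))

theorem low_le_nrm (k : ℕ) (h : ℝ) (f : R12 → ℂ) : low h f ≤ nrm k h f := by
  refine le_trans ?_ (term_le_nrm (Nat.zero_le k) h f)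
  refine eLpNorm_mono fun y => ?_
  rw [nrm_norm_smul, nrm_norm_smul, norm_iteratedFDeriv_zero]
  refine mul_le_mul_of_nonneg_right ?_ (norm_nonneg _)
  refine Real.rpow_le_rpow_of_exponent_le (nrm_rho_one h y) ?_
  linarith [(ew_bounds 0).1]

theorem low_mono (h : ℝ) {f g : R12 → ℂ} (hfg : ∀ y, ‖f y‖ ≤ ‖g y‖) : low h f ≤ low h g := by
  refine eLpNorm_mono fun y => ?_
  rw [norm_smul, norm_smul]
  exact mul_le_mul_of_nonneg_left (hfg y) (norm_nonneg _)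

theorem low_add_le (h : ℝ) {f g : R12 → ℂ} (hf : Continuous f) (hg : Continuous g) :
    low h (fun y => f y + g y) ≤ low h f + low h g := by
  unfold low
  refine le_trans (le_of_eq ?_) (eLpNorm_add_le ((nrm_cont_w h _).smul hf).aestronglyMeasurable
    ((nrm_cont_w h _).smul hg).aestronglyMeasurable (by norm_num))
  congr 1
  funext y
  rw [smul_add]
  rfl

theorem nrm_leibniz {k j : ℕ} (hj : j ≤ k) {A g : R12 → ℂ} (hA : ContDiff ℝ k A)
    (hg : ContDiff ℝ k g) (y : R12) {w S : ℝ} (hw : 0 ≤ w) (hS : 0 ≤ S)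
    (H : ∀ i ≤ j, w * (‖iteratedFDeriv ℝ i A y‖ * ‖iteratedFDeriv ℝ (j - i) g y‖) ≤ S) :
    w * ‖iteratedFDeriv ℝ j (fun y => A y * g y) y‖ ≤ 2 ^ k * S := by
  have h1 := norm_iteratedFDeriv_mul_le hA hg y (n := j) (by exact_mod_cast hj)
  refine (mul_le_mul_of_nonneg_left h1 hw).trans ?_
  rw [Finset.mul_sum]
  calc _ ≤ ∑ i ∈ Finset.range (j + 1), (j.choose i : ℝ) * S := by
        refine Finset.sum_le_sum fun i hi => ?_
        have := mul_le_mul_of_nonneg_left (H i (Nat.lt_succ_iff.1 (Finset.mem_range.1 hi)))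
          (Nat.cast_nonneg (α := ℝ) (j.choose i))
        linarith
    _ = 2 ^ j * S := by
        rw [← Finset.sum_mul, ← Nat.cast_sum, Nat.sum_range_choose]; push_cast; rfl
    _ ≤ 2 ^ k * S := mul_le_mul_of_nonneg_right (pow_le_pow_right₀ (by norm_num) hj) hS

theorem nrm_W_le {k i : ℕ} (hi : i ≤ k) (h : ℝ) (f : R12 → ℂ) (y : R12) {θ : ℝ}
    (hθ : θ ≤ ew i / 2) : (1 + PP h y) ^ θ * ‖iteratedFDeriv ℝ i f y‖ ≤
      ∑ i ∈ Finset.range (k + 1), (1 + PP h y) ^ (ew i / 2) * ‖iteratedFDeriv ℝ i f y‖ := by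
  refine le_trans (mul_le_mul_of_nonneg_right
    (Real.rpow_le_rpow_of_exponent_le (nrm_rho_one h y) hθ) (norm_nonneg _)) ?_
  exact Finset.single_le_sum
    (f := fun i => (1 + PP h y) ^ (ew i / 2) * ‖iteratedFDeriv ℝ i f y‖)
    (fun i _ => mul_nonneg (Real.rpow_nonneg (nrm_rho_pos h y).le _) (norm_nonneg _))
    (Finset.mem_range.2 (Nat.lt_succ_of_le hi))

theorem nrm_of_pointwise₁ {k k₁ : ℕ} {h : ℝ} {g f : R12 → ℂ} (hf : ContDiff ℝ k₁ f) {M B : ℝ}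
    (hM : 0 ≤ M) (H : ∀ j : ℕ, j ≤ k → ∀ y, (1 + PP h y) ^ (ew j / 2) * ‖iteratedFDeriv ℝ j g y‖ ≤
      2 ^ k * (M * ∑ i ∈ Finset.range (k₁ + 1),
        (1 + PP h y) ^ (ew i / 2) * ‖iteratedFDeriv ℝ i f y‖))
    (hB : nrm k₁ h f ≤ ENNReal.ofReal B) :
    nrm k h g ≤ ENNReal.ofReal ((k + 1) * 2 ^ k * M * B) := by
  have h1 := nrm_le_of_pointwise (k := k) (h := h) (g := g) hf hf (M₁ := 2 ^ k * M) (M₂ := 0)
    (by positivity) le_rfl fun j hj y => by
      rw [zero_mul, add_zero, mul_assoc]; exact H j hj y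
  rw [mul_zero, ENNReal.ofReal_zero, zero_mul, add_zero] at h1
  refine h1.trans ?_
  rw [ENNReal.ofReal_mul (p := (k + 1) * 2 ^ k * M) (by positivity), mul_assoc ((k : ℝ) + 1)]
  exact mul_le_mul_right hB _

/-- **M1**: symbols of order 0 are multipliers (`norm_iteratedFDeriv_mul_le`, `ew_le_add`) -/
theorem nrm_mul_le (k : ℕ) : ∃ C : ℝ, 0 < C ∧ ∀ (h : ℝ) (A f : R12 → ℂ) (M B : ℝ), 0 ≤ M → 0 ≤ B →
    ContDiff ℝ k A → ContDiff ℝ k f →
    (∀ j : ℕ, j ≤ k → ∀ y, ‖iteratedFDeriv ℝ j A y‖ ≤ M * (1 + PP h y) ^ (-(j : ℝ) / 2)) →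
    nrm k h f ≤ ENNReal.ofReal B → nrm k h (fun y => A y * f y) ≤ ENNReal.ofReal (C * M * B) := by
  refine ⟨(k + 1) * 2 ^ k, by positivity, fun h A f M B hM hB hA hf HA Hf => ?_⟩
  refine nrm_of_pointwise₁ hf hM (fun j hj y => ?_) Hf
  have hρ := nrm_rho_pos h y
  have hw := Real.rpow_nonneg hρ.le (ew j / 2)
  refine nrm_leibniz hj hA hf y hw (mul_nonneg hM (Finset.sum_nonneg fun i _ =>
    mul_nonneg (Real.rpow_nonneg hρ.le _) (norm_nonneg _))) fun i hi => ?_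
  have h1 := ew_le_add (Nat.sub_le j i)
  rw [Nat.cast_sub hi] at h1
  have h2 := nrm_W_le ((Nat.sub_le j i).trans hj) h f y (θ := ew j / 2 + -(i : ℝ) / 2)
    (by linarith)
  rw [Real.rpow_add hρ] at h2
  have h3 := mul_le_mul_of_nonneg_left (mul_le_mul_of_nonneg_right (HA i (hi.trans hj) y)
    (norm_nonneg (iteratedFDeriv ℝ (j - i) f y))) hw
  have h4 := mul_le_mul_of_nonneg_left h2 hM
  linarith

/-- **M2** (`norm_iteratedFDeriv_pd_le`, `ew_le_add`, `ew_succ_ge`) -/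
theorem nrm_mul_pd_le (k : ℕ) : ∃ C : ℝ, 0 < C ∧ ∀ (h : ℝ) (A f : R12 → ℂ) (l : Fin 12) (M B : ℝ),
    0 ≤ M → 0 ≤ B → ContDiff ℝ k A → ContDiff ℝ (k + 1 : ℕ) f →
    (∀ j : ℕ, j ≤ k → ∀ y, ‖iteratedFDeriv ℝ j A y‖ ≤ M * (1 + PP h y) ^ (-((j : ℝ) + 1) / 2)) →
    nrm (k + 1) h f ≤ ENNReal.ofReal B →
    nrm k h (fun y => A y * pd l f y) ≤ ENNReal.ofReal (C * M * B) := by
  refine ⟨(k + 1) * 2 ^ k, by positivity, fun h A f l M B hM hB hA hf HA Hf => ?_⟩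
  refine nrm_of_pointwise₁ hf hM (fun j hj y => ?_) Hf
  have hρ := nrm_rho_pos h y
  have hw := Real.rpow_nonneg hρ.le (ew j / 2)
  refine nrm_leibniz hj hA (contDiff_pd hf l) y hw (mul_nonneg hM (Finset.sum_nonneg fun i _ =>
    mul_nonneg (Real.rpow_nonneg hρ.le _) (norm_nonneg _))) fun i hi => ?_
  have h1 := ew_le_add (Nat.sub_le j i)
  rw [Nat.cast_sub hi] at h1
  have h0 := ew_succ_ge (j - i)
  have hle : j - i + 1 ≤ k + 1 := Nat.succ_le_succ ((Nat.sub_le j i).trans hj)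
  have h2 := nrm_W_le hle h f y (θ := ew j / 2 + -((i : ℝ) + 1) / 2) (by linarith)
  rw [Real.rpow_add hρ] at h2
  have h5 := norm_iteratedFDeriv_pd_le (j := j - i) (hf.of_le (by exact_mod_cast hle)) l y
  have h3 := mul_le_mul_of_nonneg_left (mul_le_mul (HA i (hi.trans hj) y) h5 (norm_nonneg _)
    (mul_nonneg hM (Real.rpow_nonneg hρ.le _))) hw
  have h4 := mul_le_mul_of_nonneg_left h2 hM
  linarith

end

end Crest.Agent.R086.E
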