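import Crest.Agent.R086.E.SymA

open MeasureTheory Set Filter Topology
open scoped ContDiff ComplexConjugate ENNReal
open Crest.AnalysisR.PDE.NLS

namespace Crest.Agent.R086.E

noncomputable section

/-! # E2 and E7 -/

/-- on the cell 1 + PP ≥ (4/π²)(1 + ‖y‖²) (`PP_ge`); `integrable_rpow_neg_one_add_norm_sq` -/
theorem eLpNorm_weight_le {σ : ℝ} (hσ : 0 < σ) : ∃ K : ℝ, 0 < K ∧ ∀ h : ℝ, 0 ≤ h →
    eLpNorm (fun y : R12 => (1 + PP h y) ^ (-3 - σ)) 2 (volume.restrict (cell h)) ≤ ENNReal.ofReal K := by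
  have hc : 0 < 4 / Real.pi ^ 2 := by positivity
  have hc1 : 4 / Real.pi ^ 2 ≤ 1 := by
    rw [div_le_one (by positivity)]
    nlinarith [Real.two_le_pi]
  have hg : MemLp (fun y : R12 => (1 + ‖y‖ ^ 2) ^ (-3 - σ)) 2 volume := by
    have hcont : Continuous fun y : R12 => (1 + ‖y‖ ^ 2) ^ (-3 - σ) :=
      Continuous.rpow_const (by fun_prop) fun y => Or.inl (by positivity)
    rw [memLp_two_iff_integrable_sq hcont.aestronglyMeasurable]
    have h1 := integrable_rpow_neg_one_add_norm_sq (E := R12) (μ := volume) (r := 12 + 4 * σ)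
      (by simp; linarith)
    refine h1.congr (Eventually.of_forall fun y => ?_)
    have h2 : (0 : ℝ) ≤ 1 + ‖y‖ ^ 2 := by positivity
    simp only
    rw [← Real.rpow_mul_natCast h2]
    congr 1
    push_cast
    ring
  obtain ⟨N, hN⟩ : ∃ N : ℝ≥0∞,
    N = eLpNorm (fun y : R12 => (1 + ‖y‖ ^ 2) ^ (-3 - σ)) 2 volume := ⟨_, rfl⟩
  have hN' : N ≠ ⊤ := hN ▸ hg.eLpNorm_ne_top
  have hcp : 0 < (4 / Real.pi ^ 2) ^ (-3 - σ) := Real.rpow_pos_of_pos hc _
  refine ⟨(4 / Real.pi ^ 2) ^ (-3 - σ) * (N.toReal + 1), by positivity, fun h hh => ?_⟩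
  refine (eLpNorm_le_mul_eLpNorm_of_ae_le_mul (c := (4 / Real.pi ^ 2) ^ (-3 - σ))
    (g := fun y : R12 => (1 + ‖y‖ ^ 2) ^ (-3 - σ)) ?_ 2).trans ?_
  · refine (ae_restrict_iff' (measurableSet_cell h)).2 (Eventually.of_forall fun y hy => ?_)
    have h1 := PP_ge hh hy
    have h2 := PP_nonneg h y
    have h3 : (0 : ℝ) < 1 + ‖y‖ ^ 2 := by positivity
    rw [Real.norm_of_nonneg (Real.rpow_nonneg (by linarith) _),
      Real.norm_of_nonneg (Real.rpow_nonneg h3.le _), ← Real.mul_rpow hc.le h3.le]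
    exact Real.rpow_le_rpow_of_nonpos (mul_pos hc h3) (by linarith) (by linarith)
  · rw [ENNReal.ofReal_mul hcp.le]
    refine mul_le_mul_right ((eLpNorm_mono_measure _ Measure.restrict_le_self).trans ?_) _
    rw [← hN]
    calc N = ENNReal.ofReal N.toReal := (ENNReal.ofReal_toReal hN').symm
      _ ≤ _ := ENNReal.ofReal_le_ofReal (by linarith)

/-- pointwise ρ^{e_j/2} ρ^{-σ-j/2} ≤ ρ^{-3-σ} (`ew_le`), `eLpNorm_mono`, `eLpNorm_const_smul` -/
theorem symNrm : SymNrmStmt := by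
  intro k σ hσ
  obtain ⟨K, hK, H⟩ := eLpNorm_weight_le hσ
  refine ⟨(k + 1) * K, by positivity, fun h hh f B hB hf => ?_⟩
  have h1 : ∀ j ∈ Finset.range (k + 1),
      eLpNorm (fun y => (1 + PP h y) ^ (ew j / 2) • iteratedFDeriv ℝ j f y) 2
        (volume.restrict (cell h)) ≤ ENNReal.ofReal (K * B) := fun j hj => by
    refine (eLpNorm_le_mul_eLpNorm_of_ae_le_mul (c := B)
      (g := fun y : R12 => (1 + PP h y) ^ (-3 - σ)) (Eventually.of_forall fun y => ?_) 2).trans ?_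
    · have h2 : 1 ≤ 1 + PP h y := le_add_of_nonneg_right (PP_nonneg h y)
      have h3 : 0 < 1 + PP h y := by linarith
      rw [norm_smul, Real.norm_of_nonneg (Real.rpow_nonneg h3.le _),
        Real.norm_of_nonneg (Real.rpow_nonneg h3.le _)]
      calc _ ≤ (1 + PP h y) ^ (ew j / 2) * (B * (1 + PP h y) ^ (-σ - (j : ℝ) / 2)) :=
            mul_le_mul_of_nonneg_left (hf j (Nat.lt_succ_iff.1 (Finset.mem_range.1 hj)) y)
              (Real.rpow_nonneg h3.le _)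
        _ = B * (1 + PP h y) ^ (ew j / 2 + (-σ - (j : ℝ) / 2)) := by
            rw [Real.rpow_add h3]; ring
        _ ≤ _ := mul_le_mul_of_nonneg_left
            (Real.rpow_le_rpow_of_exponent_le h2 (by linarith [ew_le j])) hB
    · rw [mul_comm K, ENNReal.ofReal_mul hB]
      exact mul_le_mul_right (H h hh.1) _
  refine (Finset.sum_le_card_nsmul _ _ _ h1).trans (le_of_eq ?_)
  rw [Finset.card_range, nsmul_eq_mul, mul_assoc, ENNReal.ofReal_mul (by positivity)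
    (q := K * B), ← Nat.cast_succ, ENNReal.ofReal_natCast]

theorem Sy.nrm_le {ι : Type} {hh κ : ι → ℝ} {m : ℝ} {F : ι → R12 → ℂ} (h : Sy hh κ m F) (hm : m < 0)
    (k : ℕ) : ∃ C : ℝ, 0 < C ∧ ∀ i, nrm k (hh i) (F i) ≤ ENNReal.ofReal (C * κ i) := by
  obtain ⟨C, hC, H⟩ := symNrm k (-m) (by linarith)
  obtain ⟨C', hC', H'⟩ := h.bound_le k
  refine ⟨C * C', mul_pos hC hC', fun i => ?_⟩
  rw [mul_assoc]
  exact H _ (h.hmem i) _ _ (mul_nonneg hC'.le (h.knn i)) fun j hj y => by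
    rw [neg_neg]
    exact H' i j hj y

/-- on the cell ρ^{-7}‖f‖ ≤ (D + ε' B) ρ^{-13/2}, because ρ^{-1/2} ≤ ε' for ‖y‖ > ϱ -/
theorem lowS : LowStmt := by
  obtain ⟨K, hK, H⟩ := eLpNorm_weight_le (σ := 3) (by norm_num)
  refine ⟨K, hK, fun ε hε => ⟨√(Real.pi ^ 2 / 4 * (K / ε)), fun h hh f B D hB hD hfB hfD => ?_⟩⟩
  have hc : 0 ≤ ε / K * B + D := by positivity
  refine (eLpNorm_le_mul_eLpNorm_of_ae_le_mul (c := ε / K * B + D)
    (g := fun y : R12 => (1 + PP h y) ^ (-3 - 3 : ℝ)) ?_ 2).trans ?_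
  · refine (ae_restrict_iff' (measurableSet_cell h)).2 (Eventually.of_forall fun y hy => ?_)
    have h2 : 1 ≤ 1 + PP h y := le_add_of_nonneg_right (PP_nonneg h y)
    have h3 : 0 < 1 + PP h y := by linarith
    have h4 : (1 + PP h y) ^ (-(7 : ℝ)) = (1 + PP h y)⁻¹ * (1 + PP h y) ^ (-3 - 3 : ℝ) := by
      rw [← Real.rpow_neg_one, ← Real.rpow_add h3]
      norm_num
    rw [norm_smul, Real.norm_of_nonneg (Real.rpow_nonneg h3.le _),
      Real.norm_of_nonneg (Real.rpow_nonneg h3.le _), h4, mul_right_comm]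
    refine mul_le_mul_of_nonneg_right ?_ (Real.rpow_nonneg h3.le _)
    by_cases hy' : ‖y‖ ≤ √(Real.pi ^ 2 / 4 * (K / ε))
    · have h5 : (1 + PP h y)⁻¹ * ‖f y‖ ≤ 1 * D :=
        mul_le_mul (inv_le_one_of_one_le₀ h2) (hfD y hy') (norm_nonneg _) zero_le_one
      have h6 : 0 ≤ ε / K * B := by positivity
      linarith
    · have h5 := (Real.sqrt_le_iff.1 (not_le.1 hy').le).2
      have h6 := PP_ge hh.1 hy
      have h7 : K / ε ≤ 4 / Real.pi ^ 2 * ‖y‖ ^ 2 := by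
        calc K / ε = 4 / Real.pi ^ 2 * (Real.pi ^ 2 / 4 * (K / ε)) := by field_simp
          _ ≤ _ := mul_le_mul_of_nonneg_left h5 (by positivity)
      have h8 : (1 + PP h y)⁻¹ ≤ ε / K := by
        rw [← inv_div]
        exact inv_anti₀ (by positivity) (by linarith)
      have h9 : (1 + PP h y)⁻¹ * ‖f y‖ ≤ ε / K * B :=
        mul_le_mul h8 (hfB y) (norm_nonneg _) (by positivity)
      linarith
  · refine (mul_le_mul_right (H h hh.1) _).trans (le_of_eq ?_)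
    rw [← ENNReal.ofReal_mul hc]
    congr 1
    field_simp

end

end Crest.Agent.R086.E
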