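import Crest.Agent.R086.E.UUa
import Crest.Agent.R086.E.SymNrm
import Crest.Agent.R086.E.Nrm

open MeasureTheory Set Filter Topology
open scoped ContDiff ComplexConjugate ENNReal
open Crest.AnalysisR.PDE.NLS

namespace Crest.Agent.R086.E

noncomputable section

/-! # E3: the equation for `UU` -/

variable {n : ℕ} {b : ℝ} {q : ℝ → ℂ}

private theorem uub_diff_PP (h : ℝ) : Differentiable ℝ (PP h) :=
  (contDiff_PP h).differentiable (by simp)

private theorem uub_pd_comp {g : ℝ → ℂ} (hg : Differentiable ℝ g) (h c : ℝ) (i : Fin 12) (y : R12) :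
    pd i (fun y => g (PP h y * c)) y =
      deriv g (PP h y * c) * (c : ℂ) * ((dpsi h (y i) : ℝ) : ℂ) := by
  have h1 : HasFDerivAt (fun y => PP h y * c) (c • fderiv ℝ (PP h) y) y :=
    (uub_diff_PP h y).hasFDerivAt.mul_const c
  have h2 := (hg (PP h y * c)).hasDerivAt.hasFDerivAt.comp y h1
  unfold pd
  rw [show (fun y => g (PP h y * c)) = g ∘ (fun y => PP h y * c) from rfl, h2.fderiv]
  simp [fderiv_PP]
  ring

private theorem uub_hasF_dpsi (h : ℝ) (i : Fin 12) (y : R12) :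
    HasFDerivAt (fun y : R12 => ((dpsi h (y i) : ℝ) : ℂ))
      ((ContinuousLinearMap.toSpanSingleton ℝ (((2 - h ^ 2 * psi h (y i) : ℝ)) : ℂ)).comp
        (EuclideanSpace.proj i : R12 →L[ℝ] ℝ)) y := by
  have h1 : HasFDerivAt (fun y : R12 => y i) (EuclideanSpace.proj i : R12 →L[ℝ] ℝ) y :=
    (EuclideanSpace.proj i : R12 →L[ℝ] ℝ).hasFDerivAt
  have h2 := (hasDerivAt_dpsi h (y i)).ofReal_comp.hasFDerivAt
  exact h2.comp y h1

private theorem uub_pd_dpsi (h : ℝ) (i : Fin 12) (y : R12) :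
    pd i (fun y : R12 => ((dpsi h (y i) : ℝ) : ℂ)) y = ((2 - h ^ 2 * psi h (y i) : ℝ) : ℂ) := by
  unfold pd
  rw [(uub_hasF_dpsi h i y).fderiv]
  simp [ee]

/-- `lap_eq`, `fderiv_PP`, `hasDerivAt_dpsi`, `dpsi_sq` -/
theorem lap_comp_PP {g : ℝ → ℂ} (hg : ContDiff ℝ 2 g) (h c : ℝ) (y : R12) :
    lap (fun y => g (PP h y * c)) y =
      deriv (deriv g) (PP h y * c) * (c : ℂ) ^ 2 *
          ((4 * PP h y - h ^ 2 * ∑ i : Fin 12, psi h (y i) ^ 2 : ℝ) : ℂ)
        + deriv g (PP h y * c) * (c : ℂ) * ((24 - h ^ 2 * PP h y : ℝ) : ℂ) := by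
  have hgd : Differentiable ℝ g := hg.differentiable (by simp)
  have hg1 : ContDiff ℝ 1 (deriv g) := by
    have : ContDiff ℝ (1 + 1) g := hg
    exact this.deriv'
  have hgd' : Differentiable ℝ (deriv g) := hg1.differentiable (by simp)
  have hP : ContDiff ℝ 2 (fun y => PP h y * c) :=
    ((contDiff_PP h).of_le (by norm_cast)).mul contDiff_const
  have hc : ContDiff ℝ 2 (fun y => g (PP h y * c)) := hg.comp hP
  rw [lap_eq hc]
  have key : ∀ i : Fin 12, pd i (pd i (fun y => g (PP h y * c))) y =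
      deriv (deriv g) (PP h y * c) * (c : ℂ) ^ 2 *
          ((4 * psi h (y i) - h ^ 2 * psi h (y i) ^ 2 : ℝ) : ℂ)
        + deriv g (PP h y * c) * (c : ℂ) * ((2 - h ^ 2 * psi h (y i) : ℝ) : ℂ) := by
    intro i
    have e : pd i (fun y => g (PP h y * c)) =
        fun y => ((fun s => deriv g s * (c : ℂ)) (PP h y * c)) * ((dpsi h (y i) : ℝ) : ℂ) := by
      funext y
      exact uub_pd_comp hgd h c i y
    have hd1 : Differentiable ℝ (fun s => deriv g s * (c : ℂ)) := hgd'.mul_const _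
    have hd2 : Differentiable ℝ (fun y : R12 => (fun s => deriv g s * (c : ℂ)) (PP h y * c)) :=
      hd1.comp ((uub_diff_PP h).mul_const c)
    have hd3 : Differentiable ℝ (fun y : R12 => ((dpsi h (y i) : ℝ) : ℂ)) :=
      fun y => (uub_hasF_dpsi h i y).differentiableAt
    rw [e, pd_mul hd2 hd3 i]
    simp only []
    rw [uub_pd_comp hd1 h c i y, uub_pd_dpsi, deriv_mul_const (hgd' _), ← dpsi_sq]
    push_cast
    ring
  rw [Finset.sum_congr rfl (fun i _ => key i), Finset.sum_add_distrib, ← Finset.mul_sum,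
    ← Finset.mul_sum, ← Complex.ofReal_sum, ← Complex.ofReal_sum]
  congr 3
  · rw [Finset.sum_sub_distrib, ← Finset.mul_sum, ← Finset.mul_sum]
    rfl
  · rw [Finset.sum_sub_distrib, ← Finset.mul_sum]
    simp only [Finset.sum_const, Finset.card_univ, Fintype.card_fin, nsmul_eq_mul]
    unfold PP
    norm_num

theorem NL_cp_mul (hn : 1 ≤ n) (b : ℝ) {τ : ℝ} (hτ : 0 < τ) (u : ℂ) :
    NL n (cp τ (-(aa n : ℂ) + Complex.I * b) * u) = cp τ (-(aa n : ℂ) + Complex.I * b - 1) * NL n u := by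
  have hn' : (n : ℂ) ≠ 0 := by exact_mod_cast (by omega : n ≠ 0)
  have ha : (2 * (n : ℂ)) * (aa n : ℂ) = 1 := by
    unfold aa
    push_cast
    field_simp
  have hc : conj (cp τ (-(aa n : ℂ) + Complex.I * b)) = cp τ (-(aa n : ℂ) - Complex.I * b) := by
    unfold cp
    rw [← Complex.exp_conj]
    congr 1
    simp only [map_mul, map_add, map_neg, Complex.conj_ofReal, Complex.conj_I]
    ring
  have hp : cp τ (-(aa n : ℂ) + Complex.I * b) ^ (n + 1) * cp τ (-(aa n : ℂ) - Complex.I * b) ^ n =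
      cp τ (-(aa n : ℂ) + Complex.I * b - 1) := by
    unfold cp
    rw [← Complex.exp_nat_mul, ← Complex.exp_nat_mul, ← Complex.exp_add]
    congr 1
    push_cast
    linear_combination (-(Real.log τ : ℂ)) * ha
  unfold NL
  rw [map_mul, hc, mul_pow, mul_pow, ← hp]
  ring

/-- with τ = 1-t, ρ = P/(4τ), s = -a+ib:  ∂_t U = cp τ (s-1) (-s q + ρ q'),
ΔU = cp τ (s-1) (ρ q'' + 6 q' + Err), NL U = cp τ (s-1) NL q, and `Prof.ode` -/
theorem hasDerivAt_UU (hq : Prof n b q) {h t : ℝ} (hh : 0 ≤ h) (ht : t < 1) (y : R12) :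
    HasDerivAt (fun s => UU n b q h s y)
      (Complex.I * (lap (UU n b q h t) y - NL n (UU n b q h t y)
        - cp (1 - t) (-(aa n : ℂ) + Complex.I * b - 1)
          * Err q (h * Real.sqrt (1 - t)) ((Real.sqrt (1 - t))⁻¹ • y))) t := by
  have hτ : 0 < 1 - t := by linarith
  have hτ' : ((1 - t : ℝ) : ℂ) ≠ 0 := by exact_mod_cast hτ.ne'
  have hsq : 0 < Real.sqrt (1 - t) := Real.sqrt_pos.mpr hτ
  have hsq2 : Real.sqrt (1 - t) ^ 2 = 1 - t := Real.sq_sqrt hτ.le
  set σ : ℂ := -(aa n : ℂ) + Complex.I * b with hσ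
  have hq2 : ContDiff ℝ 2 q := hq.smooth.of_le (by norm_cast)
  have hqd : Differentiable ℝ q := hq2.differentiable (by simp)
  have hcp : cp (1 - t) σ = cp (1 - t) (σ - 1) * ((1 - t : ℝ) : ℂ) := by
    rw [← cp_one hτ, ← cp_add]
    congr 1
    ring
  -- time derivative
  have hl : HasDerivAt (fun s : ℝ => 1 - s) (-1) t := by
    simpa using (hasDerivAt_id t).const_sub 1
  have d1 : HasDerivAt (fun s : ℝ => cp (1 - s) σ) ((-1 : ℝ) • (σ * cp (1 - t) (σ - 1))) t :=
    HasDerivAt.scomp (h := fun s : ℝ => 1 - s) (g₁ := fun s => cp s σ) t (hasDerivAt_cp hτ σ) hl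
  have d2 : HasDerivAt (fun s : ℝ => PP h y / (4 * (1 - s))) (PP h y / (4 * (1 - t) ^ 2)) t := by
    have := (hasDerivAt_const t (PP h y)).div (hl.const_mul 4) (by positivity)
    refine this.congr_deriv ?_
    have := hτ.ne'
    field_simp
    ring
  have d3 : HasDerivAt (fun s : ℝ => q (PP h y / (4 * (1 - s))))
      ((PP h y / (4 * (1 - t) ^ 2)) • deriv q (PP h y / (4 * (1 - t)))) t :=
    HasDerivAt.scomp (h := fun s : ℝ => PP h y / (4 * (1 - s))) (g₁ := q) t
      (hqd _).hasDerivAt d2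
  have d4 := d1.mul d3
  -- Laplacian
  have hU : UU n b q h t = fun y => cp (1 - t) σ * (fun y => q (PP h y * (4 * (1 - t))⁻¹)) (0 + (1 : ℝ) • y) := by
    funext y
    simp only [zero_add, one_smul]
    rfl
  have hP : ContDiff ℝ 2 (fun y => PP h y * (4 * (1 - t))⁻¹) :=
    ((contDiff_PP h).of_le (by norm_cast)).mul contDiff_const
  have hlap : lap (UU n b q h t) y = cp (1 - t) σ * lap (fun y => q (PP h y * (4 * (1 - t))⁻¹)) y := by
    have hc : ContDiff ℝ 2 (fun y => q (PP h y * (4 * (1 - t))⁻¹)) := hq2.comp hP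
    rw [hU, lap_affine hc]
    simp
  rw [lap_comp_PP hq2] at hlap
  have hNL : NL n (UU n b q h t y) = cp (1 - t) (σ - 1) * NL n (q (PP h y / (4 * (1 - t)))) :=
    NL_cp_mul hq.npos b hτ _
  have hode := hq.ode (PP h y / (4 * (1 - t))) (by have := PP_nonneg h y; positivity)
  -- the error term
  have hPs : PP (h * Real.sqrt (1 - t)) ((Real.sqrt (1 - t))⁻¹ • y) = PP h y / (1 - t) := by
    rw [PP_scale h _ hsq.ne', smul_smul, mul_inv_cancel₀ hsq.ne', one_smul, hsq2]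
  have hψ : ∀ i : Fin 12, psi (h * Real.sqrt (1 - t)) (((Real.sqrt (1 - t))⁻¹ • y) i) =
      psi h (y i) / (1 - t) := by
    intro i
    rw [psi_scale h _ hsq.ne', PiLp.smul_apply, smul_eq_mul, ← mul_assoc, mul_inv_cancel₀ hsq.ne',
      one_mul, hsq2]
  have hErr : Err q (h * Real.sqrt (1 - t)) ((Real.sqrt (1 - t))⁻¹ • y) =
      -((h : ℂ) ^ 2 * ((1 - t : ℝ) : ℂ)) * (deriv (deriv q) (PP h y / (4 * (1 - t))) *
        (((∑ i : Fin 12, psi h (y i) ^ 2 : ℝ) : ℂ) / ((1 - t : ℝ) : ℂ) ^ 2) / 16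
        + deriv q (PP h y / (4 * (1 - t))) * ((PP h y : ℂ) / ((1 - t : ℝ) : ℂ)) / 4) := by
    unfold Err
    simp only [hψ, hPs]
    have e1 : PP h y / (1 - t) / 4 = PP h y / (4 * (1 - t)) := by
      rw [div_div, mul_comm]
    have e2 : (∑ i : Fin 12, (psi h (y i) / (1 - t)) ^ 2) =
        (∑ i : Fin 12, psi h (y i) ^ 2) / (1 - t) ^ 2 := by
      rw [Finset.sum_div]
      exact Finset.sum_congr rfl (fun i _ => div_pow _ _ _)
    have e3 : (((h * Real.sqrt (1 - t) : ℝ)) : ℂ) ^ 2 = (h : ℂ) ^ 2 * ((1 - t : ℝ) : ℂ) := by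
      rw [← Complex.ofReal_pow, mul_pow, hsq2, Complex.ofReal_mul, Complex.ofReal_pow]
    rw [e1, e2, e3, Complex.ofReal_div, Complex.ofReal_div, Complex.ofReal_pow]
  have eρ : PP h y * (4 * (1 - t))⁻¹ = PP h y / (4 * (1 - t)) := (div_eq_mul_inv _ _).symm
  rw [eρ] at hlap
  refine d4.congr_deriv ?_
  rw [hlap, hNL, hErr, ← hode, hcp]
  simp only [Complex.real_smul, Complex.ofReal_div, Complex.ofReal_mul, Complex.ofReal_inv,
    Complex.ofReal_pow, Complex.ofReal_neg, Complex.ofReal_one, Complex.ofReal_ofNat]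
  generalize ((1 - t : ℝ) : ℂ) = τ at hτ' ⊢
  generalize cp (1 - t) (σ - 1) = E
  generalize deriv (deriv q) (PP h y / (4 * (1 - t))) = q2
  generalize deriv q (PP h y / (4 * (1 - t))) = q1
  generalize q (PP h y / (4 * (1 - t))) = q0
  generalize (∑ i : Fin 12, psi h (y i) ^ 2 : ℝ) = Sψ
  rw [hσ]
  push_cast
  field_simp
  ring_nf
  simp only [Complex.I_sq]
  ring

/-- `sy_q_PP` (j₀ = 2, 1), `sy_psi`, `sy_PP`, `Sy.cmul` -/
theorem sy_Err (hq : Prof n b q) {ι : Type} {hh : ι → ℝ} (hmem : ∀ i, hh i ∈ Icc (0 : ℝ) 1) :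
    Sy hh (fun i => hh i ^ 2) (-(aa n)) (fun i => Err q (hh i)) := by
  have h2 := sy_q_PP hq 2 hmem
  have h1 := sy_q_PP hq 1 hmem
  have hs : Sy hh (fun _ => 1) (1 + 1) (fun i (y : R12) => ∑ l : Fin 12, psi (hh i) (y l) ^ 2) := by
    refine Sy.sum Finset.univ hmem (fun _ => zero_le_one)
      (F := fun l i (y : R12) => psi (hh i) (y l) ^ 2) (fun l _ => ?_)
    exact ((sy_psi hmem l).mul_real (sy_psi hmem l)).congr (fun i y => (sq _).symm)
  have A := ((h2.mul_one hs.ofReal).cmul_bdd (c := fun _ => (1 / 16 : ℂ)) (C := 1)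
    (fun _ => by norm_num)).mono_order (m' := -(aa n)) (by push_cast; linarith)
  have B := ((h1.mul_one (sy_PP hmem).ofReal).cmul_bdd (c := fun _ => (1 / 4 : ℂ)) (C := 1)
    (fun _ => by norm_num)).mono_order (m' := -(aa n)) (by push_cast; linarith)
  have D := (A.add B).cmul (κ' := fun i => hh i ^ 2) (c := fun i => -(hh i : ℂ) ^ 2) (C := 1)
    (fun i => sq_nonneg _) (fun i => by simp)
  refine (D.mono le_rfl (C := 1) (fun i => sq_nonneg _) (fun i => by simp)).congr (fun i y => ?_)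
  unfold Err
  have e : iteratedDeriv 2 q = deriv (deriv q) := by
    rw [show iteratedDeriv 2 q = iteratedDeriv (1 + 1) q from rfl, iteratedDeriv_succ,
      iteratedDeriv_one]
  rw [e, iteratedDeriv_one]
  ring

theorem contDiff_Err (hq : Prof n b q) (h : ℝ) : ContDiff ℝ ∞ (Err q h) := by
  have h1 : ContDiff ℝ ∞ (deriv q) := by
    have := hq.smooth.iterate_deriv 1
    simpa using this
  have h2 : ContDiff ℝ ∞ (deriv (deriv q)) := by
    have := h1.iterate_deriv 1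
    simpa using this
  have hP : ContDiff ℝ ∞ (fun y => PP h y / 4) := (contDiff_PP h).div_const 4
  have hψ : ContDiff ℝ ∞ (fun y : R12 => ∑ i : Fin 12, psi h (y i) ^ 2) := by
    refine ContDiff.sum (fun i _ => ?_)
    exact ((contDiff_psi h).comp (EuclideanSpace.proj i : R12 →L[ℝ] ℝ).contDiff).pow 2
  have hψ' : ContDiff ℝ ∞ (fun y : R12 => ((∑ i : Fin 12, psi h (y i) ^ 2 : ℝ) : ℂ)) :=
    Complex.ofRealCLM.contDiff.comp hψ
  have hP' : ContDiff ℝ ∞ (fun y : R12 => ((PP h y : ℝ) : ℂ)) :=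
    Complex.ofRealCLM.contDiff.comp (contDiff_PP h)
  unfold Err
  exact contDiff_const.mul ((((h2.comp hP).mul hψ').div_const 16).add
    (((h1.comp hP).mul hP').div_const 4))

theorem per_Err (q : ℝ → ℂ) (h : ℝ) : Per h (Err q h) := by
  intro hh y i
  have hP := perG_PP h hh y i
  have hψ : ∀ l : Fin 12, psi h ((y + EuclideanSpace.single i (2 * Real.pi / h) : R12) l) =
      psi h (y l) := by
    intro l
    by_cases hl : l = i
    · subst hl
      simp [psi_periodic hh]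
    · simp [hl]
  unfold Err
  simp only [hP, hψ]

theorem uu : UUStmt := by
  intro n b q hq
  refine ⟨fun h => contDiffOn_UU hq h, fun h t => per_UU n b q h t, fun j => ?_,
    fun h t hh ht y => hasDerivAt_UU hq hh ht y, fun k => ?_⟩
  · obtain ⟨C, -, hC⟩ := (sy_UU (b := b) hq (ι := Icc (0 : ℝ) 1) (hh := fun i => i.1)
      (fun i => i.2)).bound j
    refine ⟨C, fun h hh y => ?_⟩
    simpa using hC ⟨h, hh⟩ y
  · obtain ⟨C, hC0, hC⟩ := (sy_Err hq (ι := Icc (0 : ℝ) 1) (hh := fun i => i.1)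
      (fun i => i.2)).nrm_le (by have := aa_pos hq.npos; linarith) k
    exact ⟨C, hC0, fun h hh => hC ⟨h, hh⟩⟩

end

end Crest.Agent.R086.E
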