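import Crest.Agent.R086.E.Scale

open MeasureTheory Set Filter Topology
open scoped ContDiff ComplexConjugate ENNReal
open Crest.AnalysisR.PDE.NLS

namespace Crest.Agent.R086.E

noncomputable section

/-! # Symbol calculus: algebraic operations (Leibniz: `norm_iteratedFDeriv_mul_le`) -/

variable {ι : Type} {E : Type} [NormedAddCommGroup E] [NormedSpace ℝ E] {hh κ κ' : ι → ℝ} {m m' : ℝ}

private theorem symA_rho (h : ℝ) (y : R12) : 1 ≤ 1 + PP h y :=
  le_add_of_nonneg_right (PP_nonneg h y)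

private theorem symA_pos (h : ℝ) (y : R12) : 0 < 1 + PP h y :=
  one_pos.trans_le (symA_rho h y)

private theorem symA_le (j : ℕ) : (j : WithTop ℕ∞) ≤ ((⊤ : ℕ∞) : WithTop ℕ∞) := by
  exact_mod_cast le_top

theorem Sy.mono {F : ι → R12 → E} (h : Sy hh κ m F) (hm : m ≤ m') {C : ℝ} (hκ' : ∀ i, 0 ≤ κ' i)
    (hκ : ∀ i, κ i ≤ C * κ' i) : Sy hh κ' m' F := by
  refine ⟨h.hmem, hκ', h.smooth, fun j => ?_⟩
  obtain ⟨C₀, hC₀, hb⟩ := h.bound j
  refine ⟨C₀ * |C|, by positivity, fun i y => (hb i y).trans ?_⟩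
  have h1 : κ i ≤ |C| * κ' i := (hκ i).trans (mul_le_mul_of_nonneg_right (le_abs_self C) (hκ' i))
  have h2 : (1 + PP (hh i) y) ^ (m - (j : ℝ) / 2) ≤ (1 + PP (hh i) y) ^ (m' - (j : ℝ) / 2) :=
    Real.rpow_le_rpow_of_exponent_le (symA_rho _ _) (by linarith)
  have h3 := hκ' i
  have h4 := symA_pos (hh i) y
  rw [mul_assoc C₀ |C|]
  gcongr

theorem Sy.mono_order {F : ι → R12 → E} (h : Sy hh κ m F) (hm : m ≤ m') : Sy hh κ m' F := h.mono hm (C := 1) h.knn (fun i => by rw [one_mul])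

theorem Sy.congr {F G : ι → R12 → E} (h : Sy hh κ m F) (hFG : ∀ i y, F i y = G i y) : Sy hh κ m G := by
  have : F = G := funext fun i => funext fun y => hFG i y
  exact this ▸ h

theorem Sy.reindex {ι' : Type} {F : ι → R12 → E} (h : Sy hh κ m F) (φ : ι' → ι) :
    Sy (fun i => hh (φ i)) (fun i => κ (φ i)) m (fun i => F (φ i)) := by
  refine ⟨fun i => h.hmem _, fun i => h.knn _, fun i => h.smooth _, fun j => ?_⟩
  obtain ⟨C, hC, hb⟩ := h.bound j
  exact ⟨C, hC, fun i y => hb _ y⟩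

theorem Sy.add {F G : ι → R12 → E} (h : Sy hh κ m F) (h' : Sy hh κ m G) :
    Sy hh κ m (fun i y => F i y + G i y) := by
  refine ⟨h.hmem, h.knn, fun i => (h.smooth i).add (h'.smooth i), fun j => ?_⟩
  obtain ⟨C, hC, hb⟩ := h.bound j
  obtain ⟨C', hC', hb'⟩ := h'.bound j
  refine ⟨C + C', by positivity, fun i y => ?_⟩
  rw [fun_iteratedFDeriv_add_apply ((h.smooth i).of_le (symA_le j)).contDiffAt
    ((h'.smooth i).of_le (symA_le j)).contDiffAt]
  refine (norm_add_le _ _).trans ((add_le_add (hb i y) (hb' i y)).trans (le_of_eq ?_))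
  ring

private theorem symA_fam {E' : Type} [NormedAddCommGroup E'] [NormedSpace ℝ E'] {F : ι → R12 → E}
    (h : Sy hh κ m F) (L : ι → E →L[ℝ] E') {C : ℝ} (hκ' : ∀ i, 0 ≤ κ' i)
    (hL : ∀ i, ‖L i‖ ≤ C * κ' i) : Sy hh (fun i => κ' i * κ i) m (fun i y => L i (F i y)) := by
  refine ⟨h.hmem, fun i => mul_nonneg (hκ' i) (h.knn i),
    fun i => (L i).contDiff.comp (h.smooth i), fun j => ?_⟩
  obtain ⟨C₀, hC₀, hb⟩ := h.bound j
  refine ⟨|C| * C₀, by positivity, fun i y => ?_⟩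
  have h1 : ‖L i‖ ≤ |C| * κ' i :=
    (hL i).trans (mul_le_mul_of_nonneg_right (le_abs_self C) (hκ' i))
  have h2 := (L i).norm_iteratedFDeriv_comp_left (h.smooth i).contDiffAt (x := y) (symA_le j)
  have h3 := hκ' i
  refine h2.trans ((mul_le_mul h1 (hb i y) (norm_nonneg _) (by positivity)).trans (le_of_eq ?_))
  ring

private theorem symA_fam_bdd {E' : Type} [NormedAddCommGroup E'] [NormedSpace ℝ E']
    {F : ι → R12 → E} (h : Sy hh κ m F) (L : ι → E →L[ℝ] E') {C : ℝ} (hL : ∀ i, ‖L i‖ ≤ C) :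
    Sy hh κ m (fun i y => L i (F i y)) := by
  have := symA_fam (κ' := fun _ => 1) (C := C) h L (fun _ => zero_le_one)
    (fun i => by simpa using hL i)
  simpa using this

private theorem symA_clm {E' : Type} [NormedAddCommGroup E'] [NormedSpace ℝ E'] {F : ι → R12 → E}
    (h : Sy hh κ m F) (L : E →L[ℝ] E') : Sy hh κ m (fun i y => L (F i y)) :=
  symA_fam_bdd h (fun _ => L) (fun _ => le_rfl)

theorem Sy.sub {F G : ι → R12 → E} (h : Sy hh κ m F) (h' : Sy hh κ m G) :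
    Sy hh κ m (fun i y => F i y - G i y) := by
  refine (h.add (symA_clm h' (-ContinuousLinearMap.id ℝ E))).congr fun i y => ?_
  simp [sub_eq_add_neg]

theorem Sy.sum {α : Type} (s : Finset α) (hmem : ∀ i, hh i ∈ Icc (0 : ℝ) 1) (hκ : ∀ i, 0 ≤ κ i)
    {F : α → ι → R12 → E} (h : ∀ a ∈ s, Sy hh κ m (F a)) :
    Sy hh κ m (fun i y => ∑ a ∈ s, F a i y) := by
  classical
  induction s using Finset.induction_on with
  | empty =>
    refine ⟨hmem, hκ, fun i => by simpa using contDiff_const, fun j => ⟨0, le_rfl, fun i y => ?_⟩⟩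
    simp
  | insert a s ha ih =>
    refine ((h a (Finset.mem_insert_self a s)).add
      (ih fun b hb => h b (Finset.mem_insert_of_mem hb))).congr fun i y => ?_
    rw [Finset.sum_insert ha]

theorem Sy.clm {E' : Type} [NormedAddCommGroup E'] [NormedSpace ℝ E'] {F : ι → R12 → E}
    (h : Sy hh κ m F) (L : E →L[ℝ] E') : Sy hh κ m (fun i y => L (F i y)) := symA_clm h L

theorem Sy.smul {F : ι → R12 → E} (h : Sy hh κ m F) {c : ι → ℝ} {C : ℝ} (hκ' : ∀ i, 0 ≤ κ' i)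
    (hc : ∀ i, |c i| ≤ C * κ' i) : Sy hh (fun i => κ' i * κ i) m (fun i y => c i • F i y) := by
  refine symA_fam (C := C) h (fun i => c i • ContinuousLinearMap.id ℝ E) hκ' fun i => ?_
  refine le_trans ?_ (hc i)
  rw [norm_smul, Real.norm_eq_abs]
  exact mul_le_of_le_one_right (abs_nonneg _) ContinuousLinearMap.norm_id_le

theorem Sy.smul_bdd {F : ι → R12 → E} (h : Sy hh κ m F) {c : ι → ℝ} {C : ℝ} (hc : ∀ i, |c i| ≤ C) :
    Sy hh κ m (fun i y => c i • F i y) := by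
  have := h.smul (κ' := fun _ => 1) (c := c) (C := C) (fun _ => zero_le_one)
    (fun i => by simpa using hc i)
  simpa using this

theorem Sy.const (hmem : ∀ i, hh i ∈ Icc (0 : ℝ) 1) (hκ : ∀ i, 0 ≤ κ i) {c : ι → E} {C : ℝ}
    (hc : ∀ i, ‖c i‖ ≤ C * κ i) : Sy hh κ 0 (fun i _ => c i) := by
  refine ⟨hmem, hκ, fun i => contDiff_const, fun j => ⟨|C|, abs_nonneg _, fun i y => ?_⟩⟩
  have h1 := hκ i
  have h2 := symA_pos (hh i) y
  rcases eq_or_ne j 0 with rfl | hj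
  · simpa using (hc i).trans (mul_le_mul_of_nonneg_right (le_abs_self C) (hκ i))
  · rw [iteratedFDeriv_const_of_ne hj]
    simp only [Pi.zero_apply, norm_zero]
    positivity

private theorem symA_bil {E' E'' : Type} [NormedAddCommGroup E'] [NormedSpace ℝ E']
    [NormedAddCommGroup E''] [NormedSpace ℝ E''] {F : ι → R12 → E} {G : ι → R12 → E'}
    (h : Sy hh κ m F) (h' : Sy hh κ' m' G) (B : E →L[ℝ] E' →L[ℝ] E'') :
    Sy hh (fun i => κ i * κ' i) (m + m') (fun i y => B (F i y) (G i y)) := by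
  refine ⟨h.hmem, fun i => mul_nonneg (h.knn i) (h'.knn i),
    fun i => (B.contDiff.comp (h.smooth i)).clm_apply (h'.smooth i), fun j => ?_⟩
  choose C hC hb using h.bound
  choose C' hC' hb' using h'.bound
  refine ⟨‖B‖ * ∑ l ∈ Finset.range (j + 1), (j.choose l : ℝ) * C l * C' (j - l),
    mul_nonneg B.opNorm_nonneg (Finset.sum_nonneg fun l _ =>
      mul_nonneg (mul_nonneg (Nat.cast_nonneg _) (hC l)) (hC' _)), fun i y => ?_⟩
  refine (B.norm_iteratedFDeriv_le_of_bilinear (h.smooth i) (h'.smooth i) y (symA_le j)).trans ?_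
  rw [mul_assoc, mul_assoc]
  refine mul_le_mul_of_nonneg_left ?_ B.opNorm_nonneg
  rw [Finset.sum_mul]
  refine Finset.sum_le_sum fun l hl => ?_
  have hl' : l ≤ j := Nat.lt_succ_iff.1 (Finset.mem_range.1 hl)
  have h1 := symA_pos (hh i) y
  have h2 : (1 + PP (hh i) y) ^ (m + m' - (j : ℝ) / 2)
      = (1 + PP (hh i) y) ^ (m - (l : ℝ) / 2)
        * (1 + PP (hh i) y) ^ (m' - ((j - l : ℕ) : ℝ) / 2) := by
    rw [← Real.rpow_add h1, Nat.cast_sub hl']
    congr 1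
    ring
  have h3 := h.knn i
  have h4 := hC l
  have h5 := mul_le_mul (hb l i y) (hb' (j - l) i y) (norm_nonneg _) (by positivity)
  rw [h2, mul_assoc]
  refine (mul_le_mul_of_nonneg_left h5 (Nat.cast_nonneg _)).trans (le_of_eq ?_)
  ring

theorem Sy.mul {F G : ι → R12 → ℂ} (h : Sy hh κ m F) (h' : Sy hh κ' m' G) :
    Sy hh (fun i => κ i * κ' i) (m + m') (fun i y => F i y * G i y) := symA_bil h h' (ContinuousLinearMap.mul ℝ ℂ)

theorem Sy.mul_one {F G : ι → R12 → ℂ} (h : Sy hh κ m F) (h' : Sy hh (fun _ => 1) m' G) :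
    Sy hh κ (m + m') (fun i y => F i y * G i y) := by
  simpa using h.mul h'

theorem Sy.mul_real {F G : ι → R12 → ℝ} (h : Sy hh κ m F) (h' : Sy hh (fun _ => 1) m' G) :
    Sy hh κ (m + m') (fun i y => F i y * G i y) := by
  simpa using symA_bil h h' (ContinuousLinearMap.mul ℝ ℝ)

theorem Sy.cmul {F : ι → R12 → ℂ} (h : Sy hh κ m F) {c : ι → ℂ} {C : ℝ} (hκ' : ∀ i, 0 ≤ κ' i)
    (hc : ∀ i, ‖c i‖ ≤ C * κ' i) : Sy hh (fun i => κ' i * κ i) m (fun i y => c i * F i y) := by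
  refine symA_fam (C := C) h (fun i => ContinuousLinearMap.mul ℝ ℂ (c i)) hκ' fun i => ?_
  exact (ContinuousLinearMap.opNorm_mul_apply_le ℝ ℂ (c i)).trans (hc i)

theorem Sy.cmul_bdd {F : ι → R12 → ℂ} (h : Sy hh κ m F) {c : ι → ℂ} {C : ℝ} (hc : ∀ i, ‖c i‖ ≤ C) :
    Sy hh κ m (fun i y => c i * F i y) := by
  have := h.cmul (κ' := fun _ => 1) (c := c) (C := C) (fun _ => zero_le_one)
    (fun i => by simpa using hc i)
  simpa using this

theorem Sy.conj {F : ι → R12 → ℂ} (h : Sy hh κ m F) : Sy hh κ m (fun i y => conj (F i y)) := h.clm (Complex.conjCLE : ℂ →L[ℝ] ℂ)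

theorem Sy.ofReal {F : ι → R12 → ℝ} (h : Sy hh κ m F) : Sy hh κ m (fun i y => ((F i y : ℝ) : ℂ)) := h.clm Complex.ofRealCLM

theorem Sy.pow {F : ι → R12 → ℂ} (h : Sy hh (fun _ => 1) m F) (N : ℕ) :
    Sy hh (fun _ => 1) (N * m) (fun i y => F i y ^ N) := by
  induction N with
  | zero =>
    have := Sy.const (κ := fun _ => 1) h.hmem (fun _ => zero_le_one) (c := fun _ => (1 : ℂ))
      (C := 1) (fun _ => by simp)
    simpa using this
  | succ N ih =>
    have := ih.mul_one h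
    rw [Nat.cast_succ, add_mul, one_mul]
    exact this.congr fun i y => (pow_succ _ _).symm

theorem Sy.pd {F : ι → R12 → ℂ} (h : Sy hh κ m F) (l : Fin 12) :
    Sy hh κ (m - 1 / 2) (fun i => pd l (F i)) := by
  refine ⟨h.hmem, h.knn, fun i => contDiff_pd_infty (h.smooth i) l, fun j => ?_⟩
  obtain ⟨C, hC, hb⟩ := h.bound (j + 1)
  refine ⟨C, hC, fun i y => ?_⟩
  refine (norm_iteratedFDeriv_pd_le ((h.smooth i).of_le (symA_le _)) l y).trans
    ((hb i y).trans (le_of_eq ?_))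
  congr 2
  push_cast
  ring

/-- one constant for all derivatives of order ≤ k -/
theorem Sy.bound_le {F : ι → R12 → E} (h : Sy hh κ m F) (k : ℕ) : ∃ C : ℝ, 0 < C ∧ ∀ i, ∀ j : ℕ, j ≤ k →
    ∀ y, ‖iteratedFDeriv ℝ j (F i) y‖ ≤ C * κ i * (1 + PP (hh i) y) ^ (m - (j : ℝ) / 2) := by
  choose C hC hb using h.bound
  have hs : 0 ≤ ∑ j ∈ Finset.range (k + 1), C j := Finset.sum_nonneg fun j _ => hC j
  refine ⟨∑ j ∈ Finset.range (k + 1), C j + 1, by linarith, fun i j hj y => (hb j i y).trans ?_⟩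
  have h1 : C j ≤ ∑ j ∈ Finset.range (k + 1), C j :=
    Finset.single_le_sum (fun j _ => hC j) (Finset.mem_range.2 (Nat.lt_succ_of_le hj))
  have h2 := h.knn i
  have h3 := symA_pos (hh i) y
  gcongr
  linarith

end

end Crest.Agent.R086.E
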