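import Crest.Agent.R086.E.Scale

open MeasureTheory Set Filter Topology
open scoped ContDiff ComplexConjugate ENNReal
open Crest.AnalysisR.PDE.NLS

namespace Crest.Agent.R086.E

noncomputable section

/-! # A scaled Faà di Bruno bound -/

private theorem comp_scale {E : Type} [NormedAddCommGroup E] [NormedSpace ℝ E] (g : ℝ → E) (w : ℝ)
    (i : ℕ) : iteratedDeriv i (fun s => g (w * s)) = fun x => w ^ i • iteratedDeriv i g (w * x) := by
  induction i with
  | zero => simp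
  | succ i ih =>
    funext x
    rw [iteratedDeriv_succ, ih, deriv_fun_const_smul_field,
      deriv_comp_mul_left w (iteratedDeriv i g) x, smul_smul, iteratedDeriv_succ, pow_succ]

/-- Write `g ∘ Φ = g̃ ∘ Φ̃ + g (Φ y)` with `Φ̃ = Φ / w`, `g̃ s = g (w s) - g (Φ y)` and apply
`norm_iteratedFDeriv_comp_le'` on the open set `Ioi (c / w)` (`iteratedFDerivWithin_of_isOpen`,
`norm_iteratedFDeriv_eq_norm_iteratedDeriv`, `iteratedDeriv_comp_const_mul`-type scaling). -/
theorem norm_iteratedFDeriv_comp_scaled {E : Type} [NormedAddCommGroup E] [NormedSpace ℝ E]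
    {g : ℝ → E} {Φ : R12 → ℝ} {n : ℕ} (hn : 1 ≤ n) {c : ℝ}
    (hg : ContDiffOn ℝ n g (Ioi c)) (hΦ : ContDiff ℝ n Φ) (hc : ∀ y, c < Φ y) (y : R12)
    {A w d : ℝ} (hw : 0 < w) (hA : 0 ≤ A) (hd : 0 ≤ d)
    (h1 : ∀ i : ℕ, 1 ≤ i → i ≤ n → ‖iteratedDeriv i g (Φ y)‖ ≤ A * w⁻¹ ^ i)
    (h2 : ∀ i : ℕ, 1 ≤ i → i ≤ n → ‖iteratedFDeriv ℝ i Φ y‖ ≤ w * d ^ i) :
    ‖iteratedFDeriv ℝ n (fun y => g (Φ y)) y‖ ≤ (n.factorial : ℝ) * A * d ^ n := by
  have hw' : w ≠ 0 := hw.ne'
  have hg' : ContDiffOn ℝ n (fun s => -g (Φ y) + g (w * s)) (Ioi (c / w)) :=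
    contDiffOn_const.add (hg.comp (f := fun s => w * s) (by fun_prop) fun s hs => by
      rw [mem_Ioi, div_lt_iff₀ hw] at hs
      rw [mem_Ioi]
      linarith)
  have hmem : ∀ y', w⁻¹ • Φ y' ∈ Ioi (c / w) := fun y' => by
    rw [mem_Ioi, smul_eq_mul, inv_mul_eq_div]
    exact div_lt_div_of_pos_right (hc y') hw
  have e0 : ∀ y', w * (w⁻¹ • Φ y') = Φ y' := fun y' => by
    rw [smul_eq_mul, mul_inv_cancel_left₀ hw']
  have key := norm_iteratedFDeriv_comp_le' (𝕜 := ℝ) (g := fun s => -g (Φ y) + g (w * s))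
    (f := fun y' => w⁻¹ • Φ y') (n := n) (N := n) (t := Ioi (c / w))
    (range_subset_iff.2 hmem) (uniqueDiffOn_Ioi _) hg' (hΦ.const_smul _) le_rfl y (C := A) (D := d)
    (fun i hi => by
      rw [iteratedFDerivWithin_of_isOpen i isOpen_Ioi (hmem y),
        norm_iteratedFDeriv_eq_norm_iteratedDeriv]
      rcases Nat.eq_zero_or_pos i with rfl | h0
      · simp [mul_inv_cancel_left₀ hw', hA]
      · rw [iteratedDeriv_const_add h0, comp_scale]
        dsimp only
        rw [e0, norm_smul, Real.norm_of_nonneg (by positivity)]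
        calc w ^ i * ‖iteratedDeriv i g (Φ y)‖ ≤ w ^ i * (A * w⁻¹ ^ i) := by
              gcongr
              exact h1 i h0 hi
          _ = A := by rw [inv_pow]; field_simp)
    (fun i h0 hi => by
      rw [iteratedFDeriv_const_smul_apply' (hΦ.contDiffAt.of_le (by exact_mod_cast hi)), norm_smul,
        Real.norm_of_nonneg (by positivity)]
      calc w⁻¹ * ‖iteratedFDeriv ℝ i Φ y‖ ≤ w⁻¹ * (w * d ^ i) := by
            gcongr
            exact h2 i h0 hi
        _ = d ^ i := by field_simp)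
  obtain ⟨m, rfl⟩ : ∃ m, n = m + 1 := ⟨n - 1, by omega⟩
  have e1 : fderiv ℝ ((fun s => -g (Φ y) + g (w * s)) ∘ fun y' => w⁻¹ • Φ y') =
      fderiv ℝ fun y' => g (Φ y') := by
    funext z
    simp only [Function.comp_def, e0]
    exact fderiv_const_add _
  rwa [← norm_iteratedFDeriv_fderiv, e1, norm_iteratedFDeriv_fderiv] at key

end

end Crest.Agent.R086.E
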