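import Crest.Agent.R086.E.SymA
import Crest.Agent.R086.E.Comp

open MeasureTheory Set Filter Topology
open scoped ContDiff ComplexConjugate ENNReal
open Crest.AnalysisR.PDE.NLS

namespace Crest.Agent.R086.E

noncomputable section

/-! # Symbol calculus: the basic symbols, translation, composition -/

variable {ι : Type} {E : Type} [NormedAddCommGroup E] [NormedSpace ℝ E] {hh κ κ' : ι → ℝ} {m : ℝ}

theorem symB_w_pos (h : ℝ) (y : R12) : 0 < 1 + PP h y := by
  have := PP_nonneg h y; linarith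

theorem symB_comp_proj {f : ℝ → ℝ} (hf : ContDiff ℝ ∞ f) (l : Fin 12) (j : ℕ) (y : R12) :
    ‖iteratedFDeriv ℝ j (fun y : R12 => f (y l)) y‖ ≤ |iteratedDeriv j f (y l)| := by
  have h1 := (EuclideanSpace.proj (𝕜 := ℝ) l : R12 →L[ℝ] ℝ).iteratedFDeriv_comp_right hf y
    (i := j) (by exact_mod_cast le_top)
  have h2 : (fun y : R12 => f (y l)) = f ∘ (EuclideanSpace.proj (𝕜 := ℝ) l : R12 →L[ℝ] ℝ) := rfl
  have h3 : ‖(EuclideanSpace.proj (𝕜 := ℝ) l : R12 →L[ℝ] ℝ)‖ ≤ 1 :=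
    ContinuousLinearMap.opNorm_le_bound _ zero_le_one fun x => by
      simpa using PiLp.norm_apply_le x l
  rw [h2, h1]
  refine (ContinuousMultilinearMap.norm_compContinuousLinearMap_le _ _).trans ?_
  rw [norm_iteratedFDeriv_eq_norm_iteratedDeriv, Real.norm_eq_abs]
  refine mul_le_of_le_one_right (abs_nonneg _) ?_
  exact Finset.prod_le_one (fun _ _ => norm_nonneg _) fun _ _ => h3

theorem symB_h_le {h : ℝ} (hh : h ∈ Icc (0 : ℝ) 1) (y : R12) :
    |h| ≤ 7 * (1 + PP h y) ^ (-(1 / 2 : ℝ)) := by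
  have hw := symB_w_pos h y
  have h1 : h ^ 2 * (1 + PP h y) ≤ 7 ^ 2 := by
    have := sq_mul_PP_le h y
    nlinarith [hh.1, hh.2]
  rw [Real.rpow_neg hw.le, ← Real.sqrt_eq_rpow, ← div_eq_mul_inv,
    le_div_iff₀ (Real.sqrt_pos.2 hw)]
  refine (pow_le_pow_iff_left₀ (by positivity) (by norm_num) two_ne_zero).1 ?_
  rw [mul_pow, sq_abs, Real.sq_sqrt hw.le]
  exact h1

/-- `y ↦ y l` is a continuous linear map of norm ≤ 1; orders 0, 1 by `psi_le_PP`, `abs_dpsi_le`; order j+2 by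
`iteratedDeriv_psi_le` and h² (1 + PP) ≤ 49 (`sq_mul_PP_le`) -/
theorem sy_psi (hmem : ∀ i, hh i ∈ Icc (0 : ℝ) 1) (l : Fin 12) :
    Sy hh (fun _ => 1) 1 (fun i (y : R12) => psi (hh i) (y l)) := by
  refine ⟨hmem, fun _ => zero_le_one, fun i => (contDiff_psi _).comp
    (EuclideanSpace.proj (𝕜 := ℝ) l : R12 →L[ℝ] ℝ).contDiff, fun j => ?_⟩
  refine ⟨2 * 7 ^ j, by positivity, fun i y => (symB_comp_proj (contDiff_psi _) l j y).trans ?_⟩
  have hw := symB_w_pos (hh i) y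
  have hP := psi_le_PP (hh i) y l
  have h0 := psi_nonneg (hh i) (y l)
  rcases j with _ | _ | j
  · simp only [iteratedDeriv_zero, abs_of_nonneg h0, pow_zero, Nat.cast_zero, zero_div, sub_zero,
      Real.rpow_one]
    linarith
  · rw [zero_add, iteratedDeriv_one, (hasDerivAt_psi _ _).deriv]
    refine (abs_dpsi_le _ _).trans ?_
    have h1 : (1 : ℝ) - ((1 : ℕ) : ℝ) / 2 = 1 / 2 := by norm_num
    rw [h1, ← Real.sqrt_eq_rpow]
    have h2 : Real.sqrt (psi (hh i) (y l)) ≤ Real.sqrt (1 + PP (hh i) y) :=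
      Real.sqrt_le_sqrt (by linarith)
    have h3 := Real.sqrt_nonneg (1 + PP (hh i) y)
    nlinarith
  · refine (iteratedDeriv_psi_le _ _ j).trans ?_
    have h1 := pow_le_pow_left₀ (abs_nonneg _) (symB_h_le (hmem i) y) j
    have h2 : (1 : ℝ) - ((j + 1 + 1 : ℕ) : ℝ) / 2 = -(1 / 2) * (j : ℝ) := by push_cast; ring
    rw [h2, Real.rpow_mul hw.le, Real.rpow_natCast]
    rw [mul_pow] at h1
    have h3 : (0 : ℝ) ≤ 7 ^ j * ((1 + PP (hh i) y) ^ (-(1 / 2 : ℝ))) ^ j := by positivity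
    have h4 : (2 : ℝ) * 7 ^ (j + 1 + 1) * 1 * ((1 + PP (hh i) y) ^ (-(1 / 2 : ℝ))) ^ j
        = 98 * (7 ^ j * ((1 + PP (hh i) y) ^ (-(1 / 2 : ℝ))) ^ j) := by ring
    rw [h4]
    linarith

theorem sy_PP (hmem : ∀ i, hh i ∈ Icc (0 : ℝ) 1) : Sy hh (fun _ => 1) 1 (fun i => PP (hh i)) := by
  exact (Sy.sum Finset.univ hmem (fun _ => zero_le_one) fun l _ => sy_psi hmem l).congr
    fun i y => rfl

/-- the weights at `y` and `y + x` are comparable (`PP_add_le` in both directions) -/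
theorem rho_add_rpow_le (X m : ℝ) : ∃ C : ℝ, 0 < C ∧ ∀ (h : ℝ) (y x : R12), ‖x‖ ≤ X →
    (1 + PP h (y + x)) ^ m ≤ C * (1 + PP h y) ^ m := by
  have hK : (1 : ℝ) ≤ 2 + 2 * X ^ 2 := by nlinarith [sq_nonneg X]
  have key : ∀ (h : ℝ) (y x : R12), ‖x‖ ≤ X → 1 + PP h (y + x) ≤ (2 + 2 * X ^ 2) * (1 + PP h y) := by
    intro h y x hx
    have h1 := PP_add_le h y x
    have h2 : ‖x‖ ^ 2 ≤ X ^ 2 := pow_le_pow_left₀ (norm_nonneg _) hx 2
    have h3 := PP_nonneg h y
    nlinarith [mul_nonneg (sq_nonneg X) h3]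
  refine ⟨(2 + 2 * X ^ 2) ^ |m|, by positivity, fun h y x hx => ?_⟩
  have hw := symB_w_pos h y
  have hw' := symB_w_pos h (y + x)
  rcases le_total 0 m with hm | hm
  · rw [abs_of_nonneg hm, ← Real.mul_rpow (by positivity) hw.le]
    exact Real.rpow_le_rpow hw'.le (key h y x hx) hm
  · have h1 := key h (y + x) (-x) (by simpa using hx)
    rw [add_neg_cancel_right] at h1
    have h2 : (1 + PP h y) / (2 + 2 * X ^ 2) ≤ 1 + PP h (y + x) := by
      rw [div_le_iff₀ (by positivity)]; linarith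
    refine (Real.rpow_le_rpow_of_nonpos (by positivity) h2 hm).trans (le_of_eq ?_)
    rw [Real.div_rpow hw.le (by positivity), abs_of_nonpos hm, Real.rpow_neg (by positivity),
      div_eq_mul_inv, mul_comm]

theorem Sy.translate {F : ι → R12 → E} (h : Sy hh κ m F) {x : ι → R12} {X : ℝ} (hx : ∀ i, ‖x i‖ ≤ X) :
    Sy hh κ m (fun i y => F i (y + x i)) := by
  refine ⟨h.hmem, h.knn, fun i => (h.smooth i).comp (contDiff_id.add contDiff_const), fun j => ?_⟩
  obtain ⟨C, hC, hb⟩ := h.bound j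
  obtain ⟨C', hC', hr⟩ := rho_add_rpow_le X (m - (j : ℝ) / 2)
  refine ⟨C * C', by positivity, fun i y => ?_⟩
  rw [iteratedFDeriv_comp_add_right]
  refine (hb i _).trans ?_
  have := mul_le_mul_of_nonneg_left (hr (hh i) y (x i) (hx i)) (mul_nonneg hC (h.knn i))
  linarith

/-- mean value inequality for `s ↦ D^j F (y + s x)`, `norm_fderiv_iteratedFDeriv` -/
theorem Sy.translate_sub {F : ι → R12 → E} (h : Sy hh (fun _ => 1) m F) {x : ι → R12} {X C : ℝ}
    (hx : ∀ i, ‖x i‖ ≤ X) (hκ : ∀ i, 0 ≤ κ i) (hx' : ∀ i, ‖x i‖ ≤ C * κ i) :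
    Sy hh κ (m - 1 / 2) (fun i y => F i (y + x i) - F i y) := by
  have hs : ∀ i, ContDiff ℝ ∞ (fun y => F i (y + x i)) := fun i =>
    (h.smooth i).comp (contDiff_id.add contDiff_const)
  refine ⟨h.hmem, hκ, fun i => (hs i).sub (h.smooth i), fun j => ?_⟩
  obtain ⟨C₁, hC₁, hb⟩ := h.bound (j + 1)
  obtain ⟨C', hC', hr⟩ := rho_add_rpow_le X (m - ((j + 1 : ℕ) : ℝ) / 2)
  refine ⟨C₁ * C' * |C|, by positivity, fun i y => ?_⟩
  have hw := symB_w_pos (hh i) y
  have h1 : iteratedFDeriv ℝ j (fun y => F i (y + x i) - F i y) y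
      = iteratedFDeriv ℝ j (F i) (y + x i) - iteratedFDeriv ℝ j (F i) y := by
    rw [← iteratedFDeriv_comp_add_right]
    exact iteratedFDeriv_sub_apply (((hs i).of_le (by exact_mod_cast le_top)).contDiffAt)
      (((h.smooth i).of_le (by exact_mod_cast le_top)).contDiffAt)
  have hd : Differentiable ℝ (iteratedFDeriv ℝ j (F i)) :=
    (h.smooth i).differentiable_iteratedFDeriv (by exact_mod_cast WithTop.coe_lt_top (j : ℕ))
  have h2 := (convex_closedBall y ‖x i‖).norm_image_sub_le_of_norm_fderiv_le (𝕜 := ℝ)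
    (f := iteratedFDeriv ℝ j (F i))
    (C := C₁ * C' * (1 + PP (hh i) y) ^ (m - ((j + 1 : ℕ) : ℝ) / 2)) (fun z _ => hd z)
    (fun z hz => by
      rw [norm_fderiv_iteratedFDeriv]
      refine (hb i z).trans ?_
      have h3 := hr (hh i) y (z - y) ((mem_closedBall_iff_norm.1 hz).trans (hx i))
      rw [add_sub_cancel] at h3
      have := mul_le_mul_of_nonneg_left h3 hC₁
      linarith)
    (Metric.mem_closedBall_self (norm_nonneg _)) (y := y + x i) (by simp)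
  rw [h1]
  refine h2.trans ?_
  have h4 : m - 1 / 2 - (j : ℝ) / 2 = m - ((j + 1 : ℕ) : ℝ) / 2 := by push_cast; ring
  have h5 : ‖y + x i - y‖ ≤ |C| * κ i := by
    rw [add_sub_cancel_left]
    exact (hx' i).trans (mul_le_mul_of_nonneg_right (le_abs_self C) (hκ i))
  rw [h4]
  have := mul_le_mul_of_nonneg_left h5
    (by positivity : 0 ≤ C₁ * C' * (1 + PP (hh i) y) ^ (m - ((j + 1 : ℕ) : ℝ) / 2))
  linarith

/-- `norm_iteratedFDeriv_comp_scaled` with w = 1 + PP, d = C' w^{-1/2}, A = C w^m -/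
theorem Sy.comp {g : ℝ → E} (hg : ContDiff ℝ ∞ g) (hm : m ≤ 0)
    (hb : ∀ j : ℕ, ∃ C : ℝ, ∀ s : ℝ, 0 ≤ s → ‖iteratedDeriv j g s‖ ≤ C * (1 + s) ^ (m - j))
    {Φ : ι → R12 → ℝ} (hΦ : Sy hh (fun _ => 1) 1 Φ) (h0 : ∀ i y, 0 ≤ Φ i y) {c : ℝ} (hc : 0 < c)
    (hlow : ∀ i y, c * (1 + PP (hh i) y) ≤ 1 + Φ i y) :
    Sy hh (fun _ => 1) m (fun i y => g (Φ i y)) := by
  refine ⟨hΦ.hmem, hΦ.knn, fun i => hg.comp (hΦ.smooth i), fun n => ?_⟩
  choose Cg hCg using hb
  have hgb : ∀ (k : ℕ) i y, ‖iteratedDeriv k g (Φ i y)‖ ≤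
      |Cg k| * c ^ (m - k) * (1 + PP (hh i) y) ^ (m - k) := by
    intro k i y
    have hw := symB_w_pos (hh i) y
    have h1 : (1 + Φ i y) ^ (m - k) ≤ (c * (1 + PP (hh i) y)) ^ (m - k) :=
      Real.rpow_le_rpow_of_nonpos (by positivity) (hlow i y)
        (by have : (0 : ℝ) ≤ k := Nat.cast_nonneg k; linarith)
    rw [Real.mul_rpow hc.le hw.le] at h1
    have h2 : (0 : ℝ) ≤ (1 + Φ i y) ^ (m - k) := by have := h0 i y; positivity
    refine (hCg k _ (h0 i y)).trans ((mul_le_mul_of_nonneg_right (le_abs_self _) h2).trans ?_)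
    rw [mul_assoc]
    exact mul_le_mul_of_nonneg_left h1 (abs_nonneg _)
  rcases Nat.eq_zero_or_pos n with rfl | hn
  · refine ⟨|Cg 0| * c ^ (m - (0 : ℕ)), by positivity, fun i y => ?_⟩
    have := hgb 0 i y
    rw [norm_iteratedFDeriv_zero]
    simpa using this
  obtain ⟨D, hD, hDb⟩ := hΦ.bound_le n
  set A₀ : ℝ := ∑ k ∈ Finset.range (n + 1), |Cg k| * c ^ (m - k) with hA₀
  have hA₀0 : 0 ≤ A₀ := Finset.sum_nonneg fun k _ => by positivity
  refine ⟨n.factorial * A₀ * (D + 1) ^ n, by positivity, fun i y => ?_⟩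
  have hw := symB_w_pos (hh i) y
  have h1 := norm_iteratedFDeriv_comp_scaled (g := g) (Φ := Φ i) (n := n) hn (c := -1)
    ((hg.of_le (by exact_mod_cast le_top)).contDiffOn)
    ((hΦ.smooth i).of_le (by exact_mod_cast le_top))
    (fun y => by linarith [h0 i y]) y (A := A₀ * (1 + PP (hh i) y) ^ m) (w := 1 + PP (hh i) y)
    (d := (D + 1) * (1 + PP (hh i) y) ^ (-(1 / 2 : ℝ))) hw (by positivity) (by positivity)
    (fun k _ hk => by
      refine (hgb k i y).trans ?_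
      have h2 : |Cg k| * c ^ (m - k) ≤ A₀ :=
        Finset.single_le_sum (f := fun k : ℕ => |Cg k| * c ^ (m - k))
          (fun k _ => by positivity) (Finset.mem_range.2 (by omega))
      rw [Real.rpow_sub hw, Real.rpow_natCast, div_eq_mul_inv, inv_pow, mul_assoc A₀]
      exact mul_le_mul_of_nonneg_right h2 (by positivity))
    (fun k hk1 hk => by
      refine (hDb i k hk y).trans ?_
      have h2 : (1 : ℝ) - (k : ℝ) / 2 = 1 + -(1 / 2) * (k : ℝ) := by ring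
      have h3 : D ≤ (D + 1) ^ k := by
        have := le_self_pow₀ (by linarith : (1 : ℝ) ≤ D + 1) (by omega : k ≠ 0)
        linarith
      rw [h2, Real.rpow_add hw, Real.rpow_one, Real.rpow_mul hw.le, Real.rpow_natCast, mul_pow,
        _root_.mul_one]
      have h4 := mul_le_mul_of_nonneg_right h3 (by positivity :
        0 ≤ (1 + PP (hh i) y) * ((1 + PP (hh i) y) ^ (-(1 / 2 : ℝ))) ^ k)
      linarith)
  refine h1.trans (le_of_eq ?_)
  have h2 : m - (n : ℝ) / 2 = m + -(1 / 2) * (n : ℝ) := by ring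
  rw [h2, Real.rpow_add hw, Real.rpow_mul hw.le, Real.rpow_natCast, mul_pow]
  ring

end

end Crest.Agent.R086.E
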