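import Crest.Agent.R086.E.CkA

open MeasureTheory Set Filter Topology
open scoped ContDiff ComplexConjugate ENNReal
open Crest.AnalysisR.PDE.NLS

namespace Crest.Agent.R086.E

noncomputable section

/-! # The time derivative commutes with space derivatives -/

/-- z s y = z a y + ∫_a^s G σ y dσ (FTC 2); differentiate under the integral
(`intervalIntegral.hasFDerivAt_integral_of_dominated_of_fderiv_le`, bounds on compact sets);
then FTC 1 within `Icc a b` (extend by `projIcc`, or `intervalIntegral.integral_hasDerivWithinAt_right`).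
If a = b everything is trivial (`Icc a a` is a point). -/
theorem hasDerivWithinAt_fderiv {E : Type} [NormedAddCommGroup E] [NormedSpace ℝ E] [CompleteSpace E]
    {a b : ℝ} {z G : ℝ → R12 → E} (hz : ∀ t ∈ Icc a b, Differentiable ℝ (z t))
    (hG : ∀ t ∈ Icc a b, Differentiable ℝ (G t))
    (hc0 : ContinuousOn (fun p : ℝ × R12 => G p.1 p.2) (Icc a b ×ˢ univ))
    (hc1 : ContinuousOn (fun p : ℝ × R12 => fderiv ℝ (G p.1) p.2) (Icc a b ×ˢ univ))
    (h : ∀ t ∈ Icc a b, ∀ y, HasDerivWithinAt (fun s => z s y) (G t y) (Icc a b) t) :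
    ∀ t ∈ Icc a b, ∀ y, HasDerivWithinAt (fun s => fderiv ℝ (z s) y) (fderiv ℝ (G t) y) (Icc a b) t := by
  intro t ht y
  have hab : a ≤ b := ht.1.trans ht.2
  have c0 : ∀ y, ContinuousOn (fun σ => G σ y) (Icc a b) := fun y =>
    hc0.comp (f := fun σ : ℝ => (σ, y)) (continuous_id.prodMk continuous_const).continuousOn
      (fun σ hσ => ⟨hσ, trivial⟩)
  have c1 : ∀ y, ContinuousOn (fun σ => fderiv ℝ (G σ) y) (Icc a b) := fun y =>
    hc1.comp (f := fun σ : ℝ => (σ, y)) (continuous_id.prodMk continuous_const).continuousOn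
      (fun σ hσ => ⟨hσ, trivial⟩)
  have e0 : ∀ s ∈ Icc a b, ∀ y, z s y = z a y + ∫ σ in a..s, G σ y := by
    intro s hs y
    have hsub : Icc a s ⊆ Icc a b := Icc_subset_Icc_right hs.2
    rw [intervalIntegral.integral_eq_sub_of_hasDerivAt_of_le hs.1 (f := fun s => z s y)
      (fun σ hσ => (h σ (hsub hσ) y).continuousWithinAt.mono hsub)
      (fun σ hσ => (h σ (hsub (Ioo_subset_Icc_self hσ)) y).hasDerivAt
        (Icc_mem_nhds hσ.1 (hσ.2.trans_le hs.2)))
      (((c0 y).mono hsub).intervalIntegrable_of_Icc hs.1)]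
    abel
  obtain ⟨B, hB⟩ := (isCompact_Icc.prod (isCompact_closedBall y 1)).exists_bound_of_continuousOn
    (hc1.mono (prod_mono subset_rfl (subset_univ _)))
  have e1 : ∀ s ∈ Icc a b,
      fderiv ℝ (z s) y = fderiv ℝ (z a) y + ∫ σ in a..s, fderiv ℝ (G σ) y := by
    intro s hs
    have hsub : Icc a s ⊆ Icc a b := Icc_subset_Icc_right hs.2
    have hI : uIoc a s ⊆ Icc a b := by
      rw [uIoc_of_le hs.1]
      exact Ioc_subset_Icc_self.trans hsub
    have hd : HasFDerivAt (fun x => ∫ σ in a..s, G σ x) (∫ σ in a..s, fderiv ℝ (G σ) y) y :=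
      intervalIntegral.hasFDerivAt_integral_of_dominated_of_fderiv_le (F := fun x σ => G σ x)
        (F' := fun x σ => fderiv ℝ (G σ) x) (bound := fun _ => B)
        (Metric.closedBall_mem_nhds y one_pos)
        (Eventually.of_forall fun x => ((c0 x).mono hI).aestronglyMeasurable measurableSet_uIoc)
        (((c0 y).mono hsub).intervalIntegrable_of_Icc hs.1)
        (((c1 y).mono hI).aestronglyMeasurable measurableSet_uIoc)
        (ae_of_all _ fun σ hσ x hx => hB (σ, x) ⟨hI hσ, hx⟩)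
        intervalIntegrable_const
        (ae_of_all _ fun σ hσ x _ => (hG σ (hI hσ) x).hasFDerivAt)
    have e2 : z s = fun x => z a x + ∫ σ in a..s, G σ x := funext (e0 s hs)
    rw [e2]
    exact ((hz a (left_mem_Icc.2 hab) y).hasFDerivAt.add hd).fderiv
  have : Fact (t ∈ Icc a b) := ⟨ht⟩
  have hF : HasDerivWithinAt (fun s => ∫ σ in a..s, fderiv ℝ (G σ) y) (fderiv ℝ (G t) y)
      (Icc a b) t :=
    intervalIntegral.integral_hasDerivWithinAt_right
      (((c1 y).mono (Icc_subset_Icc_right ht.2)).intervalIntegrable_of_Icc ht.1)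
      ((c1 y).stronglyMeasurableAtFilter_nhdsWithin measurableSet_Icc t) (c1 y t ht)
  exact (hF.const_add _).congr e1 (e1 t ht)

theorem hasDerivWithinAt_pd {a b : ℝ} {z G : ℝ → R12 → ℂ} (hz : ∀ t ∈ Icc a b, Differentiable ℝ (z t))
    (hG : Ck 1 (Icc a b) G)
    (h : ∀ t ∈ Icc a b, ∀ y, HasDerivWithinAt (fun s => z s y) (G t y) (Icc a b) t) (i : Fin 12) :
    ∀ t ∈ Icc a b, ∀ y, HasDerivWithinAt (fun s => pd i (z s) y) (pd i (G t) y) (Icc a b) t := by
  intro t ht y
  have hc1 : ContinuousOn (fun p : ℝ × R12 => fderiv ℝ (G p.1) p.2) (Icc a b ×ˢ univ) := by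
    refine ((continuousMultilinearCurryFin1 ℝ R12 ℂ).continuous.comp_continuousOn
      (hG.cont 1 le_rfl)).congr fun p _ => ?_
    ext v
    simp
  have h1 := hasDerivWithinAt_fderiv hz
    (fun t ht => (hG.diff t ht).differentiable (by simp)) (ck_continuousOn hG) hc1 h t ht y
  exact (ContinuousLinearMap.apply ℝ ℂ (ee i)).hasFDerivAt.comp_hasDerivWithinAt t h1

/-- induction on j with `iteratedFDeriv_succ_eq_comp_left` -/
theorem hasDerivWithinAt_iteratedFDeriv {a b : ℝ} {k : ℕ} {z G : ℝ → R12 → ℂ}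
    (hz : ∀ t ∈ Icc a b, ContDiff ℝ k (z t)) (hG : Ck k (Icc a b) G)
    (h : ∀ t ∈ Icc a b, ∀ y, HasDerivWithinAt (fun s => z s y) (G t y) (Icc a b) t)
    {j : ℕ} (hj : j ≤ k) : ∀ t ∈ Icc a b, ∀ y,
      HasDerivWithinAt (fun s => iteratedFDeriv ℝ j (z s) y) (iteratedFDeriv ℝ j (G t) y) (Icc a b) t := by
  induction j with
  | zero =>
    intro t ht y
    have h1 := (continuousMultilinearCurryFin0 ℝ R12 ℂ).symm.toContinuousLinearEquiv.hasFDerivAt
      (x := z t y)
    exact h1.comp_hasDerivWithinAt t (h t ht y)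
  | succ j ih =>
    intro t ht y
    have hjk : (j : WithTop ℕ∞) < k := by exact_mod_cast hj
    have h1 := hasDerivWithinAt_fderiv (z := fun s => iteratedFDeriv ℝ j (z s))
      (G := fun s => iteratedFDeriv ℝ j (G s))
      (fun t ht => (hz t ht).differentiable_iteratedFDeriv hjk)
      (fun t ht => (hG.diff t ht).differentiable_iteratedFDeriv hjk)
      (hG.cont j (Nat.le_of_succ_le hj))
      ((continuousMultilinearCurryLeftEquiv ℝ (fun _ : Fin (j + 1) => R12) ℂ).continuous.comp_continuousOn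
        (hG.cont (j + 1) hj))
      (ih (Nat.le_of_succ_le hj)) t ht y
    let L : (R12 →L[ℝ] R12 [×j]→L[ℝ] ℂ) →L[ℝ] (R12 [×(j + 1)]→L[ℝ] ℂ) :=
      (continuousMultilinearCurryLeftEquiv ℝ (fun _ : Fin (j + 1) => R12)
        ℂ).symm.toContinuousLinearEquiv.toContinuousLinearMap
    exact L.hasFDerivAt.comp_hasDerivWithinAt t h1

/-- mean value inequality -/
theorem norm_iteratedFDeriv_sub_le {a b : ℝ} {k : ℕ} {z G : ℝ → R12 → ℂ}
    (hz : ∀ t ∈ Icc a b, ContDiff ℝ k (z t)) (hG : Ck k (Icc a b) G)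
    (h : ∀ t ∈ Icc a b, ∀ y, HasDerivWithinAt (fun s => z s y) (G t y) (Icc a b) t)
    {j : ℕ} (hj : j ≤ k) (y : R12) {M : ℝ} (hM : ∀ t ∈ Icc a b, ‖iteratedFDeriv ℝ j (G t) y‖ ≤ M)
    {s t : ℝ} (hs : s ∈ Icc a b) (ht : t ∈ Icc a b) :
    ‖iteratedFDeriv ℝ j (z t) y - iteratedFDeriv ℝ j (z s) y‖ ≤ M * |t - s| := by
  have := (convex_Icc a b).norm_image_sub_le_of_norm_hasDerivWithin_le
    (fun t ht => hasDerivWithinAt_iteratedFDeriv hz hG h hj t ht y) hM hs ht
  rwa [Real.norm_eq_abs] at this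

/-- a path of functions whose derivative is a symbol of size κ uniformly -/
theorem sy_path {ι : Type} {hh κ : ι → ℝ} {m : ℝ} {z G : ι → ℝ → R12 → ℂ}
    (hz : ∀ i s, ContDiff ℝ ∞ (z i s))
    (hG : ∀ i, ContDiff ℝ ∞ (fun p : ℝ × R12 => G i p.1 p.2))
    (hd : ∀ i s y, HasDerivAt (fun s => z i s y) (G i s y) s)
    (hS : Sy (ι := ι × Icc (0 : ℝ) 1) (fun p => hh p.1) (fun p => κ p.1) m (fun p => G p.1 p.2)) :
    Sy hh κ m (fun i y => z i 1 y - z i 0 y) := by
  refine ⟨fun i => hS.hmem (i, ⟨0, by simp⟩), fun i => hS.knn (i, ⟨0, by simp⟩),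
    fun i => (hz i 1).sub (hz i 0), fun j => ?_⟩
  obtain ⟨C, hC, hb⟩ := hS.bound j
  refine ⟨C, hC, fun i y => ?_⟩
  have hzj : ∀ s, ContDiff ℝ j (z i s) := fun s => (hz i s).of_le (by exact_mod_cast le_top)
  rw [fun_iteratedFDeriv_sub_apply (hzj 1).contDiffAt (hzj 0).contDiffAt]
  have := norm_iteratedFDeriv_sub_le (a := 0) (b := 1) (k := j)
    (M := C * κ i * (1 + PP (hh i) y) ^ (m - (j : ℝ) / 2)) (fun s _ => hzj s)
    (ck_of_contDiffOn isOpen_univ (subset_univ _) (hG i).contDiffOn)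
    (fun t _ y => (hd i t y).hasDerivWithinAt) le_rfl y
    (fun t ht => hb (i, ⟨t, ht⟩) y) (left_mem_Icc.2 zero_le_one) (right_mem_Icc.2 zero_le_one)
  simpa using this

end

end Crest.Agent.R086.E
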