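import Crest.Agent.R086.E.Sob

open MeasureTheory Set Filter Topology
open scoped ContDiff ComplexConjugate ENNReal
open Crest.AnalysisR.PDE.NLS

namespace Crest.Agent.R086.E

noncomputable section

/-! # The algebra property -/

theorem Alg_term {k i l : ℕ} (hk : 80 ≤ k) (hil : i ≤ l) (hj : i + l ≤ k) (h : ℝ) (g : R12 → ℂ)
    (y : R12) {a M : ℝ} (hM : 0 ≤ M) (h1 : i + 12 ≤ k → a ≤ M)
    (h2 : i ≤ 28 → a ≤ M * (1 + PP h y) ^ (-(i : ℝ) / 2)) :
    (1 + PP h y) ^ (ew (i + l) / 2) * (a * ‖iteratedFDeriv ℝ l g y‖) ≤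
      M * ∑ i ∈ Finset.range (k + 1), (1 + PP h y) ^ (ew i / 2) * ‖iteratedFDeriv ℝ i g y‖ := by
  have hρ := nrm_rho_pos h y
  by_cases hi : i ≤ 28
  · have e1 := ew_le_add (i := l) (j := i + l) (by omega)
    push_cast at e1
    have e2 := nrm_W_le (k := k) (i := l) (by omega) h g y (θ := ew (i + l) / 2 + -(i : ℝ) / 2)
      (by linarith)
    rw [Real.rpow_add hρ] at e2
    calc _ ≤ (1 + PP h y) ^ (ew (i + l) / 2) *
          (M * (1 + PP h y) ^ (-(i : ℝ) / 2) * ‖iteratedFDeriv ℝ l g y‖) := by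
          gcongr
          exact h2 hi
      _ = M * ((1 + PP h y) ^ (ew (i + l) / 2) * (1 + PP h y) ^ (-(i : ℝ) / 2) *
          ‖iteratedFDeriv ℝ l g y‖) := by ring
      _ ≤ _ := mul_le_mul_of_nonneg_left e2 hM
  · have e1 := ew_anti (i := l) (j := i + l) (by omega) (by omega) (by omega)
    have e2 := nrm_W_le (k := k) (i := l) (by omega) h g y (θ := ew (i + l) / 2) (by linarith)
    calc _ ≤ (1 + PP h y) ^ (ew (i + l) / 2) * (M * ‖iteratedFDeriv ℝ l g y‖) := by
          gcongr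
          exact h1 (by omega)
      _ = M * ((1 + PP h y) ^ (ew (i + l) / 2) * ‖iteratedFDeriv ℝ l g y‖) := by ring
      _ ≤ _ := mul_le_mul_of_nonneg_left e2 hM

/-- Leibniz; in each product put the factor with fewer derivatives (i' ≤ j/2 ≤ k-12) in L^∞ by `sob`:
if i' ≤ 28 use the decay and `ew_le_add`, otherwise `ew_anti`; conclude with `nrm_le_of_pointwise`. -/
theorem nrm_mul_mul {k : ℕ} (hk : 80 ≤ k) : ∃ C : ℝ, 0 < C ∧ ∀ h ∈ Icc (0 : ℝ) 1,
    ∀ (f g : R12 → ℂ) (B B' : ℝ), 0 ≤ B → 0 ≤ B' → ContDiff ℝ k f → ContDiff ℝ k g → Per h f → Per h g →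
      nrm k h f ≤ ENNReal.ofReal B → nrm k h g ≤ ENNReal.ofReal B' →
      nrm k h (fun y => f y * g y) ≤ ENNReal.ofReal (C * B * B') := by
  obtain ⟨C, hC, H⟩ := sob k hk
  refine ⟨2 * ((k + 1) * (2 ^ k * C)), by positivity,
    fun h hh f g B B' hB hB' hf hg pf pg nf ng => ?_⟩
  have sf := H h hh f B hB hf pf nf
  have sg := H h hh g B' hB' hg pg ng
  have hW : ∀ (u : R12 → ℂ) (y : R12), 0 ≤ ∑ i ∈ Finset.range (k + 1),
      (1 + PP h y) ^ (ew i / 2) * ‖iteratedFDeriv ℝ i u y‖ := fun u y =>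
    Finset.sum_nonneg fun i _ =>
      mul_nonneg (Real.rpow_nonneg (nrm_rho_pos h y).le _) (norm_nonneg _)
  have key := nrm_le_of_pointwise (k := k) (h := h) (g := fun y => f y * g y) hf hg
    (M₁ := 2 ^ k * (C * B')) (M₂ := 2 ^ k * (C * B)) (by positivity) (by positivity)
    fun j hj y => by
      have w1 := mul_nonneg (mul_nonneg hC.le hB') (hW f y)
      have w2 := mul_nonneg (mul_nonneg hC.le hB) (hW g y)
      refine (nrm_leibniz hj hf hg y (Real.rpow_nonneg (nrm_rho_pos h y).le _)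
        (add_nonneg w1 w2) fun i hi => ?_).trans (le_of_eq (by ring))
      obtain ⟨l, rfl⟩ := Nat.exists_eq_add_of_le hi
      rw [Nat.add_sub_cancel_left]
      rcases le_total i l with hil | hil
      · exact (Alg_term hk hil hj h g y (mul_nonneg hC.le hB) (sf i y).1 (sf i y).2).trans
          (le_add_of_nonneg_left w1)
      · have := Alg_term hk hil (by omega) h f y (mul_nonneg hC.le hB') (sg l y).1 (sg l y).2
        rw [add_comm l i, mul_comm ‖iteratedFDeriv ℝ l g y‖] at this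
        exact this.trans (le_add_of_nonneg_right w2)
  refine key.trans ((add_le_add (mul_le_mul_right nf _) (mul_le_mul_right ng _)).trans ?_)
  rw [← ENNReal.ofReal_mul (by positivity), ← ENNReal.ofReal_mul (by positivity),
    ← ENNReal.ofReal_add (by positivity) (by positivity)]
  exact ENNReal.ofReal_le_ofReal (le_of_eq (by ring))

end

end Crest.Agent.R086.E
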