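import Crest.Agent.R086.E.SymB

open MeasureTheory Set Filter Topology
open scoped ContDiff ComplexConjugate ENNReal
open Crest.AnalysisR.PDE.NLS

namespace Crest.Agent.R086.E

noncomputable section

/-! # Cut-offs with small derivatives -/

private theorem cut_poch {η : ℝ} (h0 : 0 < η) (h1 : η ≤ 1) (i : ℕ) :
    |(descPochhammer ℝ (i + 1)).eval η| ≤ η * i.factorial := by
  induction i with
  | zero => simp [abs_of_pos h0]
  | succ i ih =>
    rw [descPochhammer_succ_eval, abs_mul, Nat.factorial_succ]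
    have h2 : |η - ((i + 1 : ℕ) : ℝ)| ≤ ((i + 1 : ℕ) : ℝ) := by
      have : (0 : ℝ) ≤ i := Nat.cast_nonneg i
      rw [abs_le]; push_cast; constructor <;> linarith
    calc _ ≤ (η * i.factorial) * ((i + 1 : ℕ) : ℝ) := by gcongr
      _ = _ := by push_cast; ring

/-- (1+‖y‖²)^η: `norm_iteratedFDeriv_comp_scaled` with g s = (1+s)^η on `Ioi (-1)` (`Real.iter_deriv_rpow_const`:
the derivatives of order i ≥ 1 carry the factor η), Φ = PP 0 (`sy_PP`), w = ρ -/
theorem rpow_der_le (k : ℕ) : ∃ C : ℝ, 0 < C ∧ ∀ η : ℝ, 0 < η → η ≤ 1 → ∀ j : ℕ, 1 ≤ j → j ≤ k → ∀ y : R12,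
    ‖iteratedFDeriv ℝ j (fun y : R12 => (1 + PP 0 y) ^ η) y‖ ≤
      C * η * (1 + PP 0 y) ^ (η - (j : ℝ) / 2) := by
  obtain ⟨D, hD, hDb⟩ := (sy_PP (ι := Unit) (hh := fun _ => 0) (fun _ => by simp)).bound_le k
  refine ⟨k.factorial * k.factorial * (D + 1) ^ k, by positivity, fun η h0 h1 j hj hjk y => ?_⟩
  have hw := symB_w_pos 0 y
  have h := norm_iteratedFDeriv_comp_scaled (g := fun s : ℝ => (1 + s) ^ η) (Φ := PP 0) (n := j) hj
    (c := -1)
    ((contDiffOn_const.add contDiffOn_id).rpow_const_of_ne fun s hs => by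
      have : -1 < s := hs
      simp only [id]; linarith)
    ((contDiff_PP 0).of_le (by exact_mod_cast le_top))
    (fun y => by linarith [PP_nonneg 0 y]) y (A := η * k.factorial * (1 + PP 0 y) ^ η)
    (w := 1 + PP 0 y) (d := (D + 1) * (1 + PP 0 y) ^ (-(1 / 2 : ℝ))) hw (by positivity) (by positivity)
    (fun i hi hij => by
      rw [iteratedDeriv_comp_const_add i (fun s : ℝ => s ^ η) 1]
      dsimp only
      rw [iteratedDeriv_eq_iterate, Real.iter_deriv_rpow_const, Real.norm_eq_abs, abs_mul,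
        abs_of_pos (Real.rpow_pos_of_pos hw _), Real.rpow_sub hw, Real.rpow_natCast, div_eq_mul_inv,
        inv_pow, mul_assoc (η * k.factorial)]
      obtain ⟨i, rfl⟩ : ∃ m, i = m + 1 := ⟨i - 1, by omega⟩
      have h2 : (i.factorial : ℝ) ≤ k.factorial := by
        exact_mod_cast Nat.factorial_le (by omega)
      have h3 := (cut_poch h0 h1 i).trans (mul_le_mul_of_nonneg_left h2 h0.le)
      exact mul_le_mul_of_nonneg_right h3 (by positivity))
    (fun i hi1 hi => by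
      refine (hDb () i (hi.trans hjk) y).trans ?_
      have h2 : (1 : ℝ) - (i : ℝ) / 2 = 1 + -(1 / 2) * (i : ℝ) := by ring
      have h3 : D ≤ (D + 1) ^ i := by
        have := le_self_pow₀ (by linarith : (1 : ℝ) ≤ D + 1) (by omega : i ≠ 0)
        linarith
      rw [h2, Real.rpow_add hw, Real.rpow_one, Real.rpow_mul hw.le, Real.rpow_natCast, mul_pow,
        _root_.mul_one]
      have h4 := mul_le_mul_of_nonneg_right h3 (by positivity :
        0 ≤ (1 + PP 0 y) * ((1 + PP 0 y) ^ (-(1 / 2 : ℝ))) ^ i)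
      linarith)
  refine h.trans ?_
  have h2 : η - (j : ℝ) / 2 = η + -(1 / 2) * (j : ℝ) := by ring
  rw [h2, Real.rpow_add hw, Real.rpow_mul hw.le, Real.rpow_natCast, mul_pow]
  have h3 : (j.factorial : ℝ) ≤ k.factorial := by exact_mod_cast Nat.factorial_le hjk
  have h4 : (D + 1) ^ j ≤ (D + 1) ^ k := pow_le_pow_right₀ (by linarith) hjk
  calc (j.factorial : ℝ) * (η * k.factorial * (1 + PP 0 y) ^ η)
        * ((D + 1) ^ j * ((1 + PP 0 y) ^ (-(1 / 2 : ℝ))) ^ j)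
      ≤ k.factorial * (η * k.factorial * (1 + PP 0 y) ^ η)
        * ((D + 1) ^ k * ((1 + PP 0 y) ^ (-(1 / 2 : ℝ))) ^ j) := by gcongr
    _ = _ := by ring

private def cutβ (s : ℝ) : ℂ := (Real.smoothTransition (3 - s) : ℝ)

private theorem cutβ_smooth : ContDiff ℝ ∞ cutβ :=
  Complex.ofRealCLM.contDiff.comp (Real.smoothTransition.contDiff.comp (contDiff_const.sub contDiff_id))

private theorem cutβ_bdd (k : ℕ) : ∃ B : ℝ, 0 < B ∧ ∀ i ≤ k, ∀ s ∈ Icc (0 : ℝ) 3,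
    ‖iteratedDeriv i cutβ s‖ ≤ B := by
  have h : ∀ i : ℕ, ∃ B : ℝ, ∀ s ∈ Icc (0 : ℝ) 3, ‖iteratedDeriv i cutβ s‖ ≤ B := fun i =>
    isCompact_Icc.exists_bound_of_continuousOn
      (cutβ_smooth.continuous_iteratedDeriv i (by exact_mod_cast le_top)).continuousOn
  choose B hB using h
  refine ⟨∑ i ∈ Finset.range (k + 1), |B i| + 1, by positivity, fun i hi s hs => ?_⟩
  have := Finset.single_le_sum (f := fun i => |B i|) (s := Finset.range (k + 1))
    (fun _ _ => abs_nonneg _) (Finset.mem_range.2 (Nat.lt_succ_of_le hi))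
  linarith [hB i s hs, le_abs_self (B i)]

/-- χ = β((1+‖y‖²)^η') with β s = smoothTransition (3 - s) (= 1 for s ≤ 2, = 0 for s ≥ 3; its derivatives of
order i ≥ 1 vanish outside [2,3], hence are bounded), η' ≤ η so small that (1+ϱ²)^η' ≤ 2.
Where (1+‖y‖²)^η' > 3, χ vanishes near y; otherwise `norm_iteratedFDeriv_comp_scaled` with w = 1 and
d = C' η'^{1/j} ρ^{-1/2} (η' ≤ η'^{i/j} for i ≤ j). -/
theorem exists_cut (k : ℕ) : ∃ C : ℝ, 0 < C ∧ ∀ η ϱ : ℝ, 0 < η → η ≤ 1 →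
    ∃ (R : ℝ) (χ : R12 → ℂ), Cut k (C * η) ϱ R χ := by
  obtain ⟨C₀, hC₀, hb⟩ := rpow_der_le k
  obtain ⟨B, hB, hBb⟩ := cutβ_bdd k
  refine ⟨k.factorial * B * (3 * C₀ + 1) ^ k, by positivity, fun η ϱ h0 h1 => ?_⟩
  have hev : ∀ᶠ x in 𝓝[>] (0 : ℝ), (1 + ϱ ^ 2) ^ x < 2 ∧ x < η ^ k ∧ 0 < x := by
    have hc : ContinuousAt (fun x : ℝ => (1 + ϱ ^ 2) ^ x) 0 :=
      Real.continuousAt_const_rpow (by positivity)
    have e1 : ∀ᶠ x in 𝓝 (0 : ℝ), (1 + ϱ ^ 2) ^ x < 2 := hc.eventually_lt continuousAt_const (by simp)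
    have e2 : ∀ᶠ x in 𝓝 (0 : ℝ), x < η ^ k := Iio_mem_nhds (by positivity)
    exact (e1.filter_mono nhdsWithin_le_nhds).and
      ((e2.filter_mono nhdsWithin_le_nhds).and self_mem_nhdsWithin)
  obtain ⟨x, hx1, hx2, hx0⟩ := hev.exists
  have hηk : η ^ k ≤ 1 := pow_le_one₀ h0.le h1
  set ψ : R12 → ℝ := fun y => (1 + PP 0 y) ^ x with hψ
  have hψs : ContDiff ℝ ∞ ψ :=
    (contDiff_const.add (contDiff_PP 0)).rpow_const_of_ne fun y => (symB_w_pos 0 y).ne'
  have hψ0 : ∀ y, 0 < ψ y := fun y => Real.rpow_pos_of_pos (symB_w_pos 0 y) _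
  have hz : ∀ y, 3 ≤ ψ y → cutβ (ψ y) = 0 := fun y hy => by
    simp only [cutβ, Complex.ofReal_eq_zero]
    exact Real.smoothTransition.zero_of_nonpos (by linarith)
  refine ⟨(3 : ℝ) ^ x⁻¹, fun y => cutβ (ψ y), cutβ_smooth.comp hψs, fun y => ?_, fun y hy => ?_,
    fun y hy => hz y ?_, fun j hj hjk y => ?_⟩
  · simp only [cutβ, Complex.norm_real, Real.norm_eq_abs]
    rw [abs_of_nonneg (Real.smoothTransition.nonneg _)]
    exact Real.smoothTransition.le_one _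
  · have h2 : ψ y ≤ (1 + ϱ ^ 2) ^ x := by
      simp only [hψ, PP_zero]
      have := norm_nonneg y
      gcongr
    simp only [cutβ, Complex.ofReal_eq_one]
    exact Real.smoothTransition.one_of_one_le (by linarith)
  · simp only [hψ, PP_zero]
    have h3 : (3 : ℝ) ^ x⁻¹ ≤ 1 + ‖y‖ ^ 2 := by nlinarith [sq_nonneg (‖y‖ - 1), sq_nonneg ‖y‖]
    calc (3 : ℝ) = ((3 : ℝ) ^ x⁻¹) ^ x := (Real.rpow_inv_rpow (by norm_num) hx0.ne').symm
      _ ≤ _ := by gcongr
  · have hw := symB_w_pos 0 y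
    rcases lt_or_ge 3 (ψ y) with h3 | h3
    · have he : (fun y => cutβ (ψ y)) =ᶠ[𝓝 y] fun _ => 0 := by
        filter_upwards [continuousAt_const.eventually_lt hψs.continuous.continuousAt h3] with z hz'
        exact hz z hz'.le
      rw [(he.iteratedFDeriv ℝ j).eq_of_nhds, iteratedFDeriv_fun_zero]
      simp only [Pi.zero_apply, norm_zero]
      positivity
    · have h := norm_iteratedFDeriv_comp_scaled (g := cutβ) (Φ := ψ) (n := j) hj (c := 0)
        ((cutβ_smooth.of_le (by exact_mod_cast le_top)).contDiffOn)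
        (hψs.of_le (by exact_mod_cast le_top)) hψ0 y (A := B) (w := 1)
        (d := (3 * C₀ + 1) * η * (1 + PP 0 y) ^ (-(1 / 2 : ℝ))) one_pos hB.le (by positivity)
        (fun i _ hi => by
          simpa using hBb i (hi.trans hjk) _ ⟨(hψ0 y).le, h3⟩)
        (fun i hi1 hi => by
          refine (hb x hx0 (hx2.le.trans hηk) i hi1 (hi.trans hjk) y).trans ?_
          have h2 : x - (i : ℝ) / 2 = x + -(1 / 2) * (i : ℝ) := by ring
          have h4 : 3 * C₀ ≤ (3 * C₀ + 1) ^ i := by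
            have := le_self_pow₀ (by linarith : (1 : ℝ) ≤ 3 * C₀ + 1) (by omega : i ≠ 0)
            linarith
          have h5 : x ≤ η ^ i := hx2.le.trans (pow_le_pow_of_le_one h0.le h1 (hi.trans hjk))
          rw [h2, Real.rpow_add hw, Real.rpow_mul hw.le, Real.rpow_natCast, mul_pow, mul_pow, one_mul]
          have h6 : (1 + PP 0 y) ^ x ≤ 3 := h3
          calc C₀ * x * ((1 + PP 0 y) ^ x * ((1 + PP 0 y) ^ (-(1 / 2 : ℝ))) ^ i)
              ≤ C₀ * η ^ i * (3 * ((1 + PP 0 y) ^ (-(1 / 2 : ℝ))) ^ i) := by gcongr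
            _ = 3 * C₀ * η ^ i * ((1 + PP 0 y) ^ (-(1 / 2 : ℝ))) ^ i := by ring
            _ ≤ _ := by gcongr)
      refine h.trans ?_
      have h2 : -(j : ℝ) / 2 = -(1 / 2) * (j : ℝ) := by ring
      rw [← PP_zero, h2, Real.rpow_mul hw.le, Real.rpow_natCast, mul_pow, mul_pow]
      have h4 : (j.factorial : ℝ) ≤ k.factorial := by exact_mod_cast Nat.factorial_le hjk
      have h5 : (3 * C₀ + 1) ^ j ≤ (3 * C₀ + 1) ^ k := pow_le_pow_right₀ (by linarith) hjk
      have h6 : η ^ j ≤ η := pow_le_of_le_one h0.le h1 (by omega)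
      calc (j.factorial : ℝ) * B * ((3 * C₀ + 1) ^ j * η ^ j * ((1 + PP 0 y) ^ (-(1 / 2 : ℝ))) ^ j)
          ≤ k.factorial * B * ((3 * C₀ + 1) ^ k * η * ((1 + PP 0 y) ^ (-(1 / 2 : ℝ))) ^ j) := by gcongr
        _ = _ := by ring

end

end Crest.Agent.R086.E
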