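import Crest.Agent.R086.Defs

open MeasureTheory Set Filter Topology
open scoped ContDiff ComplexConjugate ENNReal
open Crest.AnalysisR.PDE.NLS

namespace Crest.Agent.R086.E

noncomputable section

/-! # Part E: definitions (see `E/DESIGN.md`) -/

/-- partial derivative -/
def pd (i : Fin 12) (f : R12 → ℂ) (y : R12) : ℂ := fderiv ℝ f y (ee i)

/-- `Per` for an arbitrary codomain (`Per h f ↔ PerG h f` holds by `Iff.rfl`) -/
def PerG {α : Type} (h : ℝ) (f : R12 → α) : Prop :=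
  h ≠ 0 → ∀ (y : R12) (i : Fin 12), f (y + EuclideanSpace.single i (2 * Real.pi / h)) = f y

/-- derivative of `psi h` -/
def dpsi (h s : ℝ) : ℝ := if h = 0 then 2 * s else 2 * Real.sin (h * s) / h

/-- half-open cube with corner `x` and side `r` -/
def cube (x : R12) (r : ℝ) : Set R12 := {y | ∀ i : Fin 12, y i ∈ Ico (x i) (x i + r)}

/-- weighted L² norm of `D^j f` in physical variables (τ = time to blow-up) -/
def wn (h τ θ : ℝ) (j : ℕ) (f : R12 → ℂ) : ℝ≥0∞ :=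
  eLpNorm (fun x => (1 + PP h x / τ) ^ θ • iteratedFDeriv ℝ j f x) 2 (volume.restrict (cell h))

/-- a family `F i` of symbols of order `m` (in powers of `1 + PP (hh i)`) and size `κ i` -/
structure Sy {ι : Type} {E : Type} [NormedAddCommGroup E] [NormedSpace ℝ E]
    (hh κ : ι → ℝ) (m : ℝ) (F : ι → R12 → E) : Prop where
  hmem : ∀ i, hh i ∈ Icc (0 : ℝ) 1
  knn : ∀ i, 0 ≤ κ i
  smooth : ∀ i, ContDiff ℝ ∞ (F i)
  bound : ∀ j : ℕ, ∃ C : ℝ, 0 ≤ C ∧ ∀ i y,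
    ‖iteratedFDeriv ℝ j (F i) y‖ ≤ C * κ i * (1 + PP (hh i) y) ^ (m - (j : ℝ) / 2)

/-- Σ over all words α of length j of ∂^α f · conj (∂^α g) -/
def BB : ℕ → (R12 → ℂ) → (R12 → ℂ) → R12 → ℂ
  | 0, f, g => fun y => f y * conj (g y)
  | j + 1, f, g => fun y => ∑ i : Fin 12, BB j (pd i f) (pd i g) y

/-- Σ |∂^α f|² -/
def HH (j : ℕ) (f : R12 → ℂ) (y : R12) : ℝ := (BB j f f y).re
/-- Hilbert–Schmidt norm of the j-th derivative -/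
def NN (j : ℕ) (f : R12 → ℂ) (y : R12) : ℝ := Real.sqrt (HH j f y)

/-- normalised weighted size of the j-th derivative -/
def XN (h τ θ : ℝ) (j : ℕ) (f : R12 → ℂ) (y : R12) : ℝ :=
  Real.sqrt τ ^ j * (1 + PP h y / τ) ^ θ * NN j f y

/-- its square integral over `D` -/
def II (D : Set R12) (h τ θ : ℝ) (j : ℕ) (f : R12 → ℂ) : ℝ := ∫ y in D, XN h τ θ j f y ^ 2

/-- a bounded domain on which one may integrate by parts in the quadratic expressions in `f`, and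
outside which (in the cell) `f` vanishes -/
structure SDom (h : ℝ) (D : Set R12) (k : ℕ) (f : R12 → ℂ) : Prop where
  meas : MeasurableSet D
  bdd : Bornology.IsBounded D
  sub : D ⊆ cell h
  div : ∀ j : ℕ, j ≤ k → ∀ θ τ : ℝ, 0 < τ → ∀ l : Fin 12,
    ∫ y in D, pd l (fun y => (((1 + PP h y / τ) ^ θ : ℝ) : ℂ) * BB j (pd l f) f y) y = 0
  out : ∀ j : ℕ, j ≤ k → ∀ y ∈ cell h, y ∉ D → iteratedFDeriv ℝ j f y = 0

/-- energy density of level j at time t -/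
def Ph (a h : ℝ) (j : ℕ) (z : ℝ → R12 → ℂ) (t : ℝ) (y : R12) : ℝ :=
  (1 - t) ^ (2 * a - 6) * XN h (1 - t) (ew j / 2) j (z t) y ^ 2

/-- its time derivative, if `∂_t z = G` -/
def Ph' (a h : ℝ) (j : ℕ) (z G : ℝ → R12 → ℂ) (t : ℝ) (y : R12) : ℝ :=
  (1 - t) ^ (2 * a - 7) *
    ((6 - j - 2 * a + ew j * (1 - 1 / (1 + PP h y / (1 - t)))) * XN h (1 - t) (ew j / 2) j (z t) y ^ 2
      + (1 - t) ^ (j + 1) * (1 + PP h y / (1 - t)) ^ ew j * (2 * (BB j (G t) (z t) y).re))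

/-- the right-hand side of the level-j estimate -/
def TT (a M₀ K ρ : ℝ) (x s : ℕ → ℝ) (j : ℕ) : ℝ :=
  (6 - j - 2 * a + ew j * (1 - 1 / ρ)) * x j ^ 2 + K * |ew j| * (x j * x (j + 1))
    + 2 * M₀ * x j ^ 2 / ρ + K * (∑ i ∈ Finset.range j, x i * x j) / ρ + 2 * (s j * x j)

/-- coefficients of the linear equation at a fixed time -/
structure Coef (k : ℕ) (M₀ M h τ : ℝ) (A₁ A₂ : R12 → ℂ) : Prop where
  d1 : ContDiff ℝ k A₁
  d2 : ContDiff ℝ k A₂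
  top : ∀ y, ‖A₁ y‖ + ‖A₂ y‖ ≤ M₀ / (τ * (1 + PP h y / τ))
  b1 : ∀ l : ℕ, l ≤ k → ∀ y, ‖iteratedFDeriv ℝ l A₁ y‖ ≤
    M * (Real.sqrt τ)⁻¹ ^ (l + 2) * (1 + PP h y / τ) ^ (-1 - (l : ℝ) / 2)
  b2 : ∀ l : ℕ, l ≤ k → ∀ y, ‖iteratedFDeriv ℝ l A₂ y‖ ≤
    M * (Real.sqrt τ)⁻¹ ^ (l + 2) * (1 + PP h y / τ) ^ (-1 - (l : ℝ) / 2)

/-- `Lin` without the periodicity and finiteness conditions -/
structure Lin0 (n : ℕ) (b : ℝ) (q : ℝ → ℂ) (k : ℕ) (h : ℝ) (J : Set ℝ) (z S : ℝ → R12 → ℂ) : Prop where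
  reg : Ck (k + 2) J z
  regS : Ck k J S
  eqn : ∀ t ∈ J, ∀ y : R12, HasDerivWithinAt (fun s => z s y)
    (Complex.I * (lap (z t) y - (V1 n (UU n b q h t y) * z t y + V2 n (UU n b q h t y) * conj (z t y)
      + S t y))) J t

/-- the conclusion of the energy inequality -/
def EnConcl (n : ℕ) (b : ℝ) (k : ℕ) (μ C h t₁ t₂ : ℝ) (z S : ℝ → R12 → ℂ) : Prop :=
  ∀ A B : ℝ, 0 ≤ A → 0 ≤ B →
    nrmT n b k h t₁ (z t₁) ≤ ENNReal.ofReal A →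
    (∀ s ∈ Icc t₁ t₂, nrmT n b k h s (fun y => ((1 - s : ℝ) : ℂ) * S s y) ≤ ENNReal.ofReal B) →
    nrmT n b k h t₂ (z t₂) ≤ ENNReal.ofReal (C * ((1 - t₁) / (1 - t₂)) ^ C * (A + B)) ∧
    ∀ D : ℝ, 0 ≤ D → (∀ s ∈ Icc t₁ t₂, lowT n b h s (z s) ≤ ENNReal.ofReal D) →
      nrmT n b k h t₂ (z t₂) ≤ ENNReal.ofReal (C * (((1 - t₂) / (1 - t₁)) ^ μ * A + B + D))

/-- cut-off with small derivatives -/
structure Cut (k : ℕ) (M ϱ R : ℝ) (χ : R12 → ℂ) : Prop where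
  smooth : ContDiff ℝ ∞ χ
  le_one : ∀ y, ‖χ y‖ ≤ 1
  one : ∀ y, ‖y‖ < ϱ → χ y = 1
  zero : ∀ y, R < ‖y‖ → χ y = 0
  der : ∀ j : ℕ, 1 ≤ j → j ≤ k → ∀ y, ‖iteratedFDeriv ℝ j χ y‖ ≤ M * (1 + ‖y‖ ^ 2) ^ (-(j : ℝ) / 2)

/-- the commutator `[Δ, χ] f` -/
def comm (χ f : R12 → ℂ) (y : R12) : ℂ := 2 * (∑ l : Fin 12, pd l χ y * pd l f y) + lap χ y * f y

end

end Crest.Agent.R086.E
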