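import Crest.Agent.R086.E.HHa

open MeasureTheory Set Filter Topology
open scoped ContDiff ComplexConjugate ENNReal
open Crest.AnalysisR.PDE.NLS

namespace Crest.Agent.R086.E

noncomputable section

/-! # The two kinds of domains -/

private theorem dom_smooth {k : ℕ} {f : R12 → ℂ} (hf : ContDiff ℝ (k + 2 : ℕ) f) (h θ : ℝ) {τ : ℝ}
    (hτ : 0 < τ) {j : ℕ} (hj : j ≤ k) (l : Fin 12) :
    ContDiff ℝ 1 fun y => (((1 + PP h y / τ) ^ θ : ℝ) : ℂ) * BB j (pd l f) f y :=
  ((contDiff_weight h θ hτ).of_le (by simp)).mul (contDiff_BB j 1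
    (contDiff_pd (hf.of_le (by exact_mod_cast (by omega : j + 1 + 1 ≤ k + 2))) l)
    (hf.of_le (by exact_mod_cast (by omega : j + 1 ≤ k + 2))))

/-- `integral_pd_cell`, `perG_BB`, `perG_PP`, `contDiff_BB`, `contDiff_weight` -/
theorem sdom_cell {h : ℝ} (hh : 0 < h) {k : ℕ} {f : R12 → ℂ} (hf : ContDiff ℝ (k + 2 : ℕ) f)
    (hp : Per h f) : SDom h (cell h) k f := by
  refine ⟨measurableSet_cell h, isBounded_cell hh, subset_rfl, fun j hj θ τ hτ l => ?_,
    fun j _ y hy hy' => absurd hy hy'⟩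
  exact integral_pd_cell hh (dom_smooth hf h θ hτ hj l) (perG_map₂ (perG_PP h)
    (perG_BB j (perG_pd hp l) hp) fun a b => (((1 + a / τ) ^ θ : ℝ) : ℂ) * b) l

/-- `integral_pd_ball`, `BB_eq_zero_of_out` -/
theorem sdom_ball {R : ℝ} {k : ℕ} {f : R12 → ℂ} (hf : ContDiff ℝ (k + 2 : ℕ) f)
    (h0 : ∀ y, R < ‖y‖ → f y = 0) : SDom 0 (Metric.closedBall (0 : R12) R) k f := by
  refine ⟨Metric.isClosed_closedBall.measurableSet, Metric.isBounded_closedBall,
    cell_zero ▸ subset_univ _, fun j hj θ τ hτ l => ?_, fun j _ y _ hy => ?_⟩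
  · exact integral_pd_ball (dom_smooth hf 0 θ hτ hj l)
      (fun y hy => by rw [BB_eq_zero_of_out j _ h0 y hy, mul_zero]) l
  · have h1 : f =ᶠ[𝓝 y] fun _ => 0 := by
      filter_upwards [Metric.isClosed_closedBall.isOpen_compl.mem_nhds hy] with z hz
      exact h0 z (by simpa using hz)
    rw [(Filter.EventuallyEq.iteratedFDeriv ℝ h1 j).eq_of_nhds]
    simp

end

end Crest.Agent.R086.E
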