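import Crest.Agent.R086.E.GeoB

open MeasureTheory Set Filter Topology
open scoped ContDiff ComplexConjugate ENNReal
open Crest.AnalysisR.PDE.NLS

namespace Crest.Agent.R086.E

noncomputable section

/-! # The real-variable lemmas of the energy estimate -/

private theorem h94_coef (j : ℕ) {u : ℝ} (h0 : 0 ≤ u) (h1 : u ≤ 1) :
    6 - (j : ℝ) + ew j * (1 - u) ≤ 6 * u := by
  have := mul_le_mul_of_nonneg_right (ew_le j) (sub_nonneg.2 h1)
  have hj : (0 : ℝ) ≤ j := Nat.cast_nonneg j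
  nlinarith [mul_nonneg hj h0]

private theorem h94_young {p q η x y : ℝ} (hη : 0 < η) (h : p ^ 2 ≤ 4 * η * q) :
    p * (x * y) ≤ η * x ^ 2 + q * y ^ 2 := by
  have h1 : 0 ≤ (2 * η * x - p * y) ^ 2 := sq_nonneg _
  have h2 := mul_le_mul_of_nonneg_right h (sq_nonneg y)
  refine le_of_mul_le_mul_left ?_ (show 0 < 4 * η by positivity)
  nlinarith

private theorem h94_tail {L d ρ e : ℝ} (hL : 0 < L) (hd : 0 < d) (hρ : 1 ≤ ρ) (he : e ≤ 34) :
    L * ρ⁻¹ ≤ d + L * (max 1 (L / d)) ^ 48 * ρ ^ (-14 - e) := by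
  have hρ0 : 0 < ρ := by linarith
  have hR : 1 ≤ max 1 (L / d) := le_max_left _ _
  have hp : 0 < ρ ^ (-14 - e) := Real.rpow_pos_of_pos hρ0 _
  rcases le_total (max 1 (L / d)) ρ with h | h
  · have h1 : L * ρ⁻¹ ≤ d := by
      have := (le_max_right _ _).trans h
      rw [div_le_iff₀ hd] at this
      rw [← div_eq_mul_inv, div_le_iff₀ hρ0]
      linarith
    have : 0 ≤ L * (max 1 (L / d)) ^ 48 * ρ ^ (-14 - e) := by positivity
    linarith
  · have h1 : 1 ≤ ρ ^ 48 * ρ ^ (-14 - e) := by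
      rw [← Real.rpow_natCast, ← Real.rpow_add hρ0]
      exact Real.one_le_rpow hρ (by push_cast; linarith)
    have h2 : ρ ^ 48 * ρ ^ (-14 - e) ≤ (max 1 (L / d)) ^ 48 * ρ ^ (-14 - e) := by gcongr
    have h3 : ρ⁻¹ ≤ 1 := inv_le_one_of_one_le₀ hρ
    nlinarith [mul_le_mul_of_nonneg_left (h3.trans (h1.trans h2)) hL.le]

/-- c_j = δ^{k-j}, η = a/5.  The coefficient α_j = 6-j-2a+e_j(1-1/ρ) is ≤ -2a+6/ρ (j<6: e_j = j-6; j ≥ 6:
0 ≤ e_j ≤ j-6), and α_k + 2M₀/ρ ≤ -2a (e_k = 0).  Young: c_j K|e_j| x_j x_{j+1} ≤ η c_j x_j² + η c_{j+1} x_{j+1}²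
for j<k if δ (34K)²/(4η) ≤ η (no term for j = k); 2 c_j s_j x_j ≤ η c_j x_j² + s_j²/η;
c_j K x_i x_j/ρ ≤ (η/k) c_j x_j² + (kK²/4η) x_i²/ρ.  What is left is L x_j²/ρ for j<k, and
L/ρ ≤ η c_j + L R^48 ρ^{-14-e_j} with R = max 1 (L/(η δ^k)) (cases ρ ≥ R, ρ ≤ R; 8 ≤ 14+e_j ≤ 48). -/
theorem alg_main {a M₀ K : ℝ} (ha : 0 < a) (hM : 0 ≤ M₀) (hK : 0 ≤ K) {k : ℕ} (hk : 74 ≤ k)
    (hk' : 6 + 2 * M₀ ≤ k) : ∃ (c : ℕ → ℝ) (C : ℝ), 0 < C ∧ (∀ j, 0 < c j ∧ c j ≤ 1) ∧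
      ∀ (ρ : ℝ) (x s : ℕ → ℝ), 1 ≤ ρ → (∀ j, 0 ≤ x j) → (∀ j, 0 ≤ s j) →
        ∑ j ∈ Finset.range (k + 1), c j * TT a M₀ K ρ x s j ≤
          -a * ∑ j ∈ Finset.range (k + 1), c j * x j ^ 2
          + C * ∑ j ∈ Finset.range k, ρ ^ (-14 - ew j) * x j ^ 2
          + C * ∑ j ∈ Finset.range (k + 1), s j ^ 2 := by
  obtain ⟨η, rfl⟩ : ∃ η : ℝ, a = 5 * η := ⟨a / 5, by ring⟩
  have hη : 0 < η := by linarith
  obtain ⟨δ, hδ0, hδ1, hδ⟩ : ∃ δ : ℝ, 0 < δ ∧ δ ≤ 1 ∧ δ * (34 * K) ^ 2 ≤ 4 * η ^ 2 := by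
    refine ⟨min 1 (4 * η ^ 2 / ((34 * K) ^ 2 + 1)), by positivity, min_le_left _ _, ?_⟩
    have h1 := min_le_right 1 (4 * η ^ 2 / ((34 * K) ^ 2 + 1))
    rw [le_div_iff₀ (by positivity)] at h1
    have h2 : 0 < min 1 (4 * η ^ 2 / ((34 * K) ^ 2 + 1)) := by positivity
    nlinarith
  have hk0 : (0 : ℝ) < k := by exact_mod_cast (by omega : 0 < k)
  obtain ⟨Q, hQ0, hQ⟩ : ∃ Q : ℝ, 0 ≤ Q ∧ K ^ 2 ≤ 4 * (η / k) * Q :=
    ⟨k * K ^ 2 / (4 * η), by positivity, le_of_eq (by field_simp)⟩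
  obtain ⟨L, hL⟩ : ∃ L : ℝ, L = 6 + 2 * M₀ + (k + 1) * Q := ⟨_, rfl⟩
  have hL0 : 0 < L := by rw [hL]; positivity
  have hc0 : ∀ j, 0 < δ ^ (k - j) := fun j => pow_pos hδ0 _
  have hc1 : ∀ j, δ ^ (k - j) ≤ 1 := fun j => pow_le_one₀ hδ0.le hδ1
  have hck : ∀ j, δ ^ k ≤ δ ^ (k - j) := fun j => pow_le_pow_of_le_one hδ0.le hδ1 (by omega)
  have hcs : ∀ j, j < k → δ ^ (k - j) = δ * δ ^ (k - (j + 1)) := fun j hj => by
    rw [← pow_succ']; congr 1; omega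
  have htail := fun (ρ : ℝ) (hρ : 1 ≤ ρ) (j : ℕ) =>
    h94_tail hL0 (mul_pos hη (pow_pos hδ0 k)) hρ (ew_bounds j).2
  have hC1 : 0 < L * (max 1 (L / (η * δ ^ k))) ^ 48 := by positivity
  generalize L * (max 1 (L / (η * δ ^ k))) ^ 48 = C₁ at htail hC1
  generalize δ ^ k = d at hck htail
  obtain ⟨c, hc⟩ : ∃ c : ℕ → ℝ, ∀ j, δ ^ (k - j) = c j := ⟨_, fun _ => rfl⟩
  simp only [hc] at hc0 hc1 hck hcs
  refine ⟨c, C₁ + η⁻¹, by positivity, fun j => ⟨hc0 j, hc1 j⟩, fun ρ x s hρ hx hs => ?_⟩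
  have hu0 : 0 ≤ ρ⁻¹ := by positivity
  have hu1 : ρ⁻¹ ≤ 1 := inv_le_one_of_one_le₀ hρ
  have hw : ∀ j, 0 ≤ ρ ^ (-14 - ew j) * x j ^ 2 := fun j => by positivity
  have ht := htail ρ hρ
  simp only [TT, div_eq_mul_inv, one_mul]
  generalize ρ⁻¹ = u at hu0 hu1 ht ⊢
  set T := ∑ j ∈ Finset.range k, x j ^ 2 with hT
  have hT0 : 0 ≤ T := Finset.sum_nonneg fun _ _ => sq_nonneg _
  have hcom : ∀ j, j ≤ k → c j * (K * (∑ i ∈ Finset.range j, x i * x j) * u + 2 * (s j * x j)) ≤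
      2 * η * (c j * x j ^ 2) + Q * T * u + η⁻¹ * s j ^ 2 := by
    intro j hj
    have h1 : K * ∑ i ∈ Finset.range j, x i * x j ≤ η * x j ^ 2 + Q * T := by
      calc K * ∑ i ∈ Finset.range j, x i * x j
          ≤ ∑ i ∈ Finset.range j, (η / k * x j ^ 2 + Q * x i ^ 2) := by
            rw [Finset.mul_sum]
            exact Finset.sum_le_sum fun i _ => by
              rw [mul_comm (x i)]; exact h94_young (by positivity) hQ
        _ = j * (η / k * x j ^ 2) + Q * ∑ i ∈ Finset.range j, x i ^ 2 := by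
            rw [Finset.sum_add_distrib, Finset.sum_const, Finset.card_range, nsmul_eq_mul,
              Finset.mul_sum]
        _ ≤ k * (η / k * x j ^ 2) + Q * T := by
            have : (j : ℝ) ≤ k := by exact_mod_cast hj
            have : ∑ i ∈ Finset.range j, x i ^ 2 ≤ T := Finset.sum_le_sum_of_subset_of_nonneg
              (Finset.range_mono hj) fun _ _ _ => sq_nonneg _
            gcongr
        _ = _ := by field_simp
    have h2 : 2 * (x j * s j) ≤ η * x j ^ 2 + η⁻¹ * s j ^ 2 :=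
      h94_young hη (le_of_eq (by field_simp; norm_num))
    have h3 := mul_le_mul_of_nonneg_right h1 hu0
    have h4 : η * x j ^ 2 * u ≤ η * x j ^ 2 := mul_le_of_le_one_right (by positivity) hu1
    have h5 : K * (∑ i ∈ Finset.range j, x i * x j) * u + 2 * (s j * x j) ≤
        2 * η * x j ^ 2 + (Q * T * u + η⁻¹ * s j ^ 2) := by nlinarith
    have h6 := mul_le_mul_of_nonneg_left h5 (hc0 j).le
    have h7 : c j * (Q * T * u + η⁻¹ * s j ^ 2) ≤ Q * T * u + η⁻¹ * s j ^ 2 :=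
      mul_le_of_le_one_left (by positivity) (hc1 j)
    nlinarith
  have hlow : ∀ j, j < k → c j * ((6 - j - 2 * (5 * η) + ew j * (1 - u)) * x j ^ 2 +
      K * |ew j| * (x j * x (j + 1)) + 2 * M₀ * x j ^ 2 * u) ≤
      -9 * η * (c j * x j ^ 2) + η * (c (j + 1) * x (j + 1) ^ 2) + (6 + 2 * M₀) * u * x j ^ 2 := by
    intro j hj
    have h1 := mul_le_mul_of_nonneg_right (h94_coef j hu0 hu1) (sq_nonneg (x j))
    have he : |ew j| ≤ 34 := abs_le.2 ⟨by linarith [(ew_bounds j).1], (ew_bounds j).2⟩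
    have h2 : (δ * (K * |ew j|)) ^ 2 ≤ 4 * (η * δ) * η := by
      have : (K * |ew j|) ^ 2 ≤ (34 * K) ^ 2 :=
        pow_le_pow_left₀ (by positivity) (by nlinarith) 2
      calc (δ * (K * |ew j|)) ^ 2 = δ * (δ * (K * |ew j|) ^ 2) := by ring
        _ ≤ δ * (δ * (34 * K) ^ 2) := by gcongr
        _ ≤ δ * (4 * η ^ 2) := by gcongr
        _ = _ := by ring
    have h3 := mul_le_mul_of_nonneg_left
      (h94_young (x := x j) (y := x (j + 1)) (mul_pos hη hδ0) h2) (hc0 (j + 1)).le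
    have h4 : c j * ((6 + 2 * M₀) * u * x j ^ 2) ≤ (6 + 2 * M₀) * u * x j ^ 2 :=
      mul_le_of_le_one_left (by positivity) (hc1 j)
    have h5 := mul_le_mul_of_nonneg_left h1 (hc0 j).le
    have h6 : c j * (K * |ew j| * (x j * x (j + 1))) ≤
        η * (c j * x j ^ 2) + η * (c (j + 1) * x (j + 1) ^ 2) := by
      rw [hcs j hj]; linarith
    linarith
  have htop : c k * ((6 - k - 2 * (5 * η) + ew k * (1 - u)) * x k ^ 2 +
      K * |ew k| * (x k * x (k + 1)) + 2 * M₀ * x k ^ 2 * u) ≤ -10 * η * (c k * x k ^ 2) := by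
    rw [ew_eq_zero hk]
    have h1 : 0 ≤ c k * x k ^ 2 := mul_nonneg (hc0 k).le (sq_nonneg _)
    have h2 : 2 * M₀ * u ≤ k - 6 := by nlinarith
    have h3 := mul_le_mul_of_nonneg_right h2 h1
    simp only [abs_zero]
    linarith
  have s1 := Finset.sum_le_sum fun j (hj : j ∈ Finset.range (k + 1)) =>
    hcom j (Nat.lt_succ_iff.1 (Finset.mem_range.1 hj))
  have s2 := Finset.sum_le_sum fun j (hj : j ∈ Finset.range k) => hlow j (Finset.mem_range.1 hj)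
  have s3 : ∑ j ∈ Finset.range k, L * u * x j ^ 2 ≤ ∑ j ∈ Finset.range k,
      (η * (c j * x j ^ 2) + C₁ * (ρ ^ (-14 - ew j) * x j ^ 2)) :=
    Finset.sum_le_sum fun j _ => by
      have h1 := mul_le_mul_of_nonneg_right (ht j) (sq_nonneg (x j))
      have h2 := mul_le_mul_of_nonneg_right (mul_le_mul_of_nonneg_left (hck j) hη.le)
        (sq_nonneg (x j))
      linarith
  have s4 : ∑ j ∈ Finset.range k, c (j + 1) * x (j + 1) ^ 2 ≤
      ∑ j ∈ Finset.range (k + 1), c j * x j ^ 2 := by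
    rw [Finset.sum_range_succ']
    linarith [mul_nonneg (hc0 0).le (sq_nonneg (x 0))]
  have s5 := Finset.sum_range_succ (fun j => c j * x j ^ 2) k
  have s6 : 0 ≤ ∑ j ∈ Finset.range k, ρ ^ (-14 - ew j) * x j ^ 2 :=
    Finset.sum_nonneg fun j _ => hw j
  have s7 : 0 ≤ ∑ j ∈ Finset.range (k + 1), s j ^ 2 := Finset.sum_nonneg fun j _ => sq_nonneg _
  have s8 : 0 ≤ c k * x k ^ 2 := mul_nonneg (hc0 k).le (sq_nonneg _)
  have e : ∑ j ∈ Finset.range (k + 1), c j * ((6 - j - 2 * (5 * η) + ew j * (1 - u)) * x j ^ 2 +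
      K * |ew j| * (x j * x (j + 1)) + 2 * M₀ * x j ^ 2 * u +
      K * (∑ i ∈ Finset.range j, x i * x j) * u + 2 * (s j * x j)) =
      ∑ j ∈ Finset.range (k + 1), c j * ((6 - j - 2 * (5 * η) + ew j * (1 - u)) * x j ^ 2 +
      K * |ew j| * (x j * x (j + 1)) + 2 * M₀ * x j ^ 2 * u) +
      ∑ j ∈ Finset.range (k + 1), c j *
        (K * (∑ i ∈ Finset.range j, x i * x j) * u + 2 * (s j * x j)) := by
    rw [← Finset.sum_add_distrib]
    exact Finset.sum_congr rfl fun j _ => by ring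
  rw [e, Finset.sum_range_succ]
  simp only [Finset.sum_add_distrib, ← Finset.mul_sum, Finset.sum_const, Finset.card_range,
    nsmul_eq_mul, ← hT] at s1 s2 s3
  have s9 := mul_le_mul_of_nonneg_left s4 hη.le
  have s10 := mul_nonneg hC1.le s7
  have s11 := mul_nonneg (inv_nonneg.2 hη.le) s6
  have s12 := mul_nonneg hη.le s8
  push_cast at s1
  rw [hL] at s3
  rw [s5] at s1 s9 ⊢
  linarith

private theorem h94_interp {K : ℝ} (hK : 0 ≤ K) (k j : ℕ) : ∀ ε : ℝ, 0 < ε → ∃ C : ℝ, 0 < C ∧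
    ∀ m : ℕ → ℝ, (∀ j, 0 ≤ m j) →
      (∀ j : ℕ, j + 2 ≤ k → ∀ η : ℝ, 0 < η → η ≤ 1 → m (j + 1) ≤ η * m (j + 2) + K / η * m j) →
      j + 1 ≤ k → m j ≤ ε * m (j + 1) + C * m 0 := by
  induction j with
  | zero => exact fun ε hε => ⟨1, one_pos, fun m hm _ _ => by nlinarith [hm (0 + 1)]⟩
  | succ j ih =>
    intro ε hε
    have hη : 0 < min 1 (ε / 2) := by positivity
    have hη1 := min_le_left 1 (ε / 2)
    have hη2 := min_le_right 1 (ε / 2)
    generalize min 1 (ε / 2) = η at *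
    obtain ⟨C, hC, h⟩ := ih (η / (2 * (K + 1))) (by positivity)
    refine ⟨2 * (K / η * C) + 1, by positivity, fun m hm hr hj => ?_⟩
    have h1 := hr j hj η hη hη1
    have h2 := mul_le_mul_of_nonneg_left (h m hm hr (by omega)) (div_nonneg hK hη.le)
    have h3 : K / η * (η / (2 * (K + 1))) ≤ 1 / 2 := by
      rw [div_mul_div_cancel₀ hη.ne', div_le_div_iff₀ (by positivity) (by norm_num)]
      linarith
    have h4 := mul_le_mul_of_nonneg_right h3 (hm (j + 1))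
    have h5 := mul_le_mul_of_nonneg_right hη2 (hm (j + 2))
    have h6 := hm 0
    change m (j + 1) ≤ ε * m (j + 2) + _
    linarith

/-- discrete interpolation.  First ∀ j ε ∃ C, m j ≤ ε m (j+1) + C m 0 (induction on j), then the sum. -/
theorem interp_seq {K : ℝ} (hK : 0 ≤ K) (k : ℕ) {ε : ℝ} (hε : 0 < ε) : ∃ C : ℝ, 0 < C ∧
    ∀ m : ℕ → ℝ, (∀ j, 0 ≤ m j) →
      (∀ j : ℕ, j + 2 ≤ k → ∀ η : ℝ, 0 < η → η ≤ 1 → m (j + 1) ≤ η * m (j + 2) + K / η * m j) →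
      ∑ j ∈ Finset.range k, m j ≤ ε * m k + C * m 0 := by
  have key : ∀ i : ℕ, ∀ ε : ℝ, 0 < ε → ∃ C : ℝ, 0 < C ∧ ∀ m : ℕ → ℝ, (∀ j, 0 ≤ m j) →
      (∀ j : ℕ, j + 2 ≤ k → ∀ η : ℝ, 0 < η → η ≤ 1 → m (j + 1) ≤ η * m (j + 2) + K / η * m j) →
      i ≤ k → ∑ j ∈ Finset.range i, m j ≤ ε * m i + C * m 0 := by
    intro i
    induction i with
    | zero => exact fun ε hε => ⟨1, one_pos, fun m hm _ _ => by
        have := hm 0
        rw [Finset.sum_range_zero]; positivity⟩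
    | succ i ih =>
      intro ε hε
      obtain ⟨C, hC, h⟩ := ih 1 one_pos
      obtain ⟨C', hC', h'⟩ := h94_interp hK k i (ε / 2) (by positivity)
      refine ⟨C + 2 * C', by positivity, fun m hm hr hi => ?_⟩
      rw [Finset.sum_range_succ]
      linarith [h m hm hr (by omega), h' m hm hr hi]
  obtain ⟨C, hC, h⟩ := key k ε hε
  exact ⟨C, hC, fun m hm hr => h m hm hr le_rfl⟩

/-- (1-t)^α (E t + β/α) is antitone (`antitoneOn_of_deriv_nonpos`) -/
theorem gronwall_log {a b α β : ℝ} (hab : a ≤ b) (hb : b < 1) (hα : α ≠ 0) {E E' : ℝ → ℝ}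
    (hc : ContinuousOn E (Icc a b)) (hd : ∀ t ∈ Ioo a b, HasDerivAt E (E' t) t)
    (hle : ∀ t ∈ Ioo a b, (1 - t) * E' t ≤ α * E t + β) :
    E b + β / α ≤ ((1 - a) / (1 - b)) ^ α * (E a + β / α) := by
  have hder : ∀ t ∈ Ioo a b, HasDerivAt (fun t => (1 - t) ^ α * (E t + β / α))
      ((1 - t) ^ (α - 1) * ((1 - t) * E' t - (α * E t + β))) t := by
    intro t ht
    have h0 : 0 < 1 - t := by linarith [ht.2]
    have h1 := (((hasDerivAt_id t).const_sub 1).rpow_const (p := α) (Or.inl h0.ne')).mul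
      ((hd t ht).add_const (β / α))
    refine h1.congr_deriv ?_
    simp only [id]
    rw [Real.rpow_sub_one h0.ne']
    field_simp
    ring
  have hanti : AntitoneOn (fun t => (1 - t) ^ α * (E t + β / α)) (Icc a b) := by
    refine antitoneOn_of_deriv_nonpos (convex_Icc a b) ?_ ?_ ?_
    · refine ContinuousOn.mul ?_ (hc.add continuousOn_const)
      exact (continuousOn_const.sub continuousOn_id).rpow_const fun t ht =>
        Or.inl (by have := ht.2; exact (show 0 < 1 - t by linarith).ne')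
    · rw [interior_Icc]
      exact fun t ht => (hder t ht).differentiableAt.differentiableWithinAt
    · rw [interior_Icc]
      intro t ht
      rw [(hder t ht).deriv]
      exact mul_nonpos_of_nonneg_of_nonpos (Real.rpow_nonneg (by linarith [ht.2]) _)
        (by linarith [hle t ht])
  have h := hanti (left_mem_Icc.2 hab) (right_mem_Icc.2 hab) hab
  have hb0 : 0 < (1 - b) ^ α := Real.rpow_pos_of_pos (by linarith) _
  rw [Real.div_rpow (by linarith) (by linarith), div_mul_eq_mul_div, le_div_iff₀ hb0, mul_comm]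
  exact h

end

end Crest.Agent.R086.E
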