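import Crest.Agent.R086.E.EnIBP
import Crest.Agent.R086.E.Nrm

open MeasureTheory Set Filter Topology
open scoped ContDiff ComplexConjugate ENNReal
open Crest.AnalysisR.PDE.NLS

namespace Crest.Agent.R086.E

noncomputable section

/-! # Conversion between the norms and the integrals `II` -/

theorem cv_eLpNorm {D : Set R12} (hb : Bornology.IsBounded D) {h τ : ℝ} (hτ : 0 < τ) (θ : ℝ)
    {j : ℕ} {f : R12 → ℂ} (hf : ContDiff ℝ j f) (c : ℝ) :
    eLpNorm (fun y => c * XN h τ θ j f y) 2 (volume.restrict D) =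
      ENNReal.ofReal (Real.sqrt (c ^ 2 * II D h τ θ j f)) := by
  have h1 : IntegrableOn (fun y => (c * XN h τ θ j f y) ^ 2) D :=
    integrableOn_of_continuous hb ((continuous_const.mul (continuous_XN h θ hτ j hf)).pow 2)
  have h2 : ∫ y in D, (c * XN h τ θ j f y) ^ 2 = c ^ 2 * II D h τ θ j f := by
    simp only [mul_pow, II, integral_const_mul]
  rw [eLpNorm_two_eq, ← h2, Real.sqrt_eq_rpow,
    ← ENNReal.ofReal_rpow_of_nonneg (integral_nonneg fun y => sq_nonneg _) (by norm_num),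
    ofReal_integral_eq_lintegral_ofReal h1 (Eventually.of_forall fun y => sq_nonneg _)]
  simp only [Real.norm_eq_abs, sq_abs]

theorem cv_wn (h τ θ : ℝ) (j : ℕ) (f : R12 → ℂ) {a : ℝ} (ha : 0 ≤ a) :
    ENNReal.ofReal a * wn h τ θ j f =
      eLpNorm (fun x => a • (1 + PP h x / τ) ^ θ • iteratedFDeriv ℝ j f x) 2
        (volume.restrict (cell h)) := by
  rw [wn, ← Real.enorm_eq_ofReal ha, ← eLpNorm_const_smul]
  rfl

theorem cv_norm (h θ : ℝ) {τ : ℝ} (hτ : 0 < τ) (j : ℕ) (f : R12 → ℂ) {a : ℝ} (ha : 0 ≤ a) (x : R12) :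
    ‖a • (1 + PP h x / τ) ^ θ • iteratedFDeriv ℝ j f x‖ =
      a * ((1 + PP h x / τ) ^ θ * ‖iteratedFDeriv ℝ j f x‖) := by
  rw [norm_smul, norm_smul, Real.norm_of_nonneg ha,
    Real.norm_of_nonneg (Real.rpow_nonneg (zero_le_one.trans (one_le_rho h hτ x)) _)]

theorem cv_pow {τ : ℝ} (hτ : 0 < τ) (a : ℝ) : (τ ^ (a - 3)) ^ 2 = τ ^ (2 * a - 6) := by
  rw [← Real.rpow_natCast, ← Real.rpow_mul hτ.le]
  congr 1
  push_cast
  ring

/-- `NN_le`, `eLpNorm_two_eq`, `ofReal_integral_eq_lintegral_ofReal`, D ⊆ cell h -/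
theorem II_le_wn {D : Set R12} {h : ℝ} (hm : MeasurableSet D) (hb : Bornology.IsBounded D)
    (hs : D ⊆ cell h) {τ : ℝ} (hτ : 0 < τ) (θ : ℝ) {j : ℕ} {f : R12 → ℂ} (hf : ContDiff ℝ j f)
    {c A : ℝ} (hc : 0 < c) (hA : 0 ≤ A)
    (h1 : ENNReal.ofReal (c * Real.sqrt τ ^ j) * wn h τ θ j f ≤ ENNReal.ofReal A) :
    c ^ 2 * II D h τ θ j f ≤ 144 ^ j * A ^ 2 := by
  have h2 : ENNReal.ofReal (Real.sqrt (c ^ 2 * II D h τ θ j f)) ≤ ENNReal.ofReal (12 ^ j * A) := by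
    rw [← cv_eLpNorm hb hτ θ hf c, ENNReal.ofReal_mul (by positivity)]
    refine le_trans ?_ (mul_le_mul_right h1 _)
    rw [← mul_assoc, ← ENNReal.ofReal_mul (by positivity), cv_wn _ _ _ _ _ (by positivity)]
    refine le_trans (eLpNorm_mono fun y => ?_)
      (eLpNorm_mono_measure _ (Measure.restrict_mono hs le_rfl))
    have h3 := Real.rpow_nonneg (zero_le_one.trans (one_le_rho h hτ y)) θ
    rw [cv_norm h θ hτ j f (by positivity),
      Real.norm_of_nonneg (mul_nonneg hc.le (XN_nonneg h θ hτ j f y)), XN]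
    calc _ ≤ c * (Real.sqrt τ ^ j * (1 + PP h y / τ) ^ θ *
          (12 ^ j * ‖iteratedFDeriv ℝ j f y‖)) := by
          gcongr
          exact NN_le j hf y
      _ = _ := by ring
  rw [ENNReal.ofReal_le_ofReal_iff (by positivity), Real.sqrt_le_left (by positivity), mul_pow,
    ← pow_mul, mul_comm j 2, pow_mul] at h2
  norm_num at h2
  exact h2

/-- `norm_le_NN` -/
theorem wn_le_II {D : Set R12} {h : ℝ} (hm : MeasurableSet D) (hb : Bornology.IsBounded D)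
    {τ : ℝ} (hτ : 0 < τ) (θ : ℝ) {j : ℕ} {f : R12 → ℂ} (hf : ContDiff ℝ j f)
    (hout : ∀ y ∈ cell h, y ∉ D → iteratedFDeriv ℝ j f y = 0) {c : ℝ} (hc : 0 < c) :
    ENNReal.ofReal (c * Real.sqrt τ ^ j) * wn h τ θ j f ≤
      ENNReal.ofReal (12 ^ j * Real.sqrt (c ^ 2 * II D h τ θ j f)) := by
  have h2 : (12 : ℝ) ^ j * Real.sqrt (c ^ 2 * II D h τ θ j f) =
      Real.sqrt ((12 ^ j * c) ^ 2 * II D h τ θ j f) := by
    rw [mul_pow, mul_assoc, Real.sqrt_mul (sq_nonneg _) (c ^ 2 * _), Real.sqrt_sq (by positivity)]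
  rw [h2, ← cv_eLpNorm hb hτ θ hf, cv_wn _ _ _ _ _ (by positivity),
    ← eLpNorm_indicator_eq_eLpNorm_restrict hm]
  refine le_trans (eLpNorm_mono_ae ?_) (eLpNorm_mono_measure _ Measure.restrict_le_self)
  refine (ae_restrict_iff' (measurableSet_cell h)).2 (Eventually.of_forall fun y hy => ?_)
  by_cases hD : y ∈ D
  · have h3 := Real.rpow_nonneg (zero_le_one.trans (one_le_rho h hτ y)) θ
    rw [indicator_of_mem hD, cv_norm h θ hτ j f (by positivity),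
      Real.norm_of_nonneg (mul_nonneg (by positivity) (XN_nonneg h θ hτ j f y)), XN]
    calc _ ≤ c * Real.sqrt τ ^ j * ((1 + PP h y / τ) ^ θ * (12 ^ j * NN j f y)) := by
          gcongr
          exact norm_le_NN j hf y
      _ = _ := by ring
  · rw [hout y hy hD, smul_zero, smul_zero, norm_zero]
    exact norm_nonneg _

theorem II_le_of_nrmT {D : Set R12} {h : ℝ} (hm : MeasurableSet D) (hb : Bornology.IsBounded D)
    (hs : D ⊆ cell h) (n : ℕ) (b : ℝ) {t : ℝ} (ht : t < 1) {k : ℕ} {f : R12 → ℂ} (hf : ContDiff ℝ k f)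
    {A : ℝ} (hA : 0 ≤ A) (h1 : nrmT n b k h t f ≤ ENNReal.ofReal A) {j : ℕ} (hj : j ≤ k) :
    (1 - t) ^ (2 * aa n - 6) * II D h (1 - t) (ew j / 2) j f ≤ 144 ^ k * A ^ 2 := by
  have hτ : 0 < 1 - t := by linarith
  rw [nrmT, nrm_Zs_eq n b h hτ hf] at h1
  have h2 := le_trans (Finset.single_le_sum (f := fun j => ENNReal.ofReal
    ((1 - t) ^ (aa n - 3) * Real.sqrt (1 - t) ^ j) * wn h (1 - t) (ew j / 2) j f)
    (fun _ _ => zero_le) (Finset.mem_range.2 (Nat.lt_succ_of_le hj))) h1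
  have h3 := II_le_wn hm hb hs hτ _ (hf.of_le (by exact_mod_cast hj))
    (Real.rpow_pos_of_pos hτ _) hA h2
  rw [cv_pow hτ] at h3
  exact h3.trans (mul_le_mul_of_nonneg_right (pow_le_pow_right₀ (by norm_num) hj) (sq_nonneg _))

theorem II_le_of_lowT {D : Set R12} {h : ℝ} (hm : MeasurableSet D) (hb : Bornology.IsBounded D)
    (hs : D ⊆ cell h) (n : ℕ) (b : ℝ) {t : ℝ} (ht : t < 1) {f : R12 → ℂ} (hf : Continuous f)
    {A : ℝ} (hA : 0 ≤ A) (h1 : lowT n b h t f ≤ ENNReal.ofReal A) :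
    (1 - t) ^ (2 * aa n - 6) * II D h (1 - t) (-7) 0 f ≤ A ^ 2 := by
  have hτ : 0 < 1 - t := by linarith
  rw [lowT, low_Zs_eq n b h hτ hf] at h1
  have h3 := II_le_wn hm hb hs hτ (-7) (j := 0) (contDiff_zero.2 hf)
    (Real.rpow_pos_of_pos hτ (aa n - 3)) hA (by rwa [pow_zero, mul_one])
  rwa [cv_pow hτ, pow_zero, one_mul] at h3

theorem nrmT_le_of_II {D : Set R12} {h : ℝ} {k : ℕ} {f : R12 → ℂ} (hD : SDom h D k f) (n : ℕ) (b : ℝ)
    {t : ℝ} (ht : t < 1) (hf : ContDiff ℝ k f) {A : ℝ} (hA : 0 ≤ A)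
    (h1 : ∀ j : ℕ, j ≤ k → (1 - t) ^ (2 * aa n - 6) * II D h (1 - t) (ew j / 2) j f ≤ A ^ 2) :
    nrmT n b k h t f ≤ ENNReal.ofReal ((k + 1) * 12 ^ k * A) := by
  have hτ : 0 < 1 - t := by linarith
  rw [nrmT, nrm_Zs_eq n b h hτ hf]
  refine le_trans (Finset.sum_le_card_nsmul _ _ (ENNReal.ofReal (12 ^ k * A)) fun j hj => ?_) ?_
  · have hj' := Nat.lt_succ_iff.1 (Finset.mem_range.1 hj)
    refine (wn_le_II hD.meas hD.bdd hτ _ (hf.of_le (by exact_mod_cast hj')) (hD.out j hj')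
      (Real.rpow_pos_of_pos hτ _)).trans (ENNReal.ofReal_le_ofReal ?_)
    rw [cv_pow hτ]
    exact mul_le_mul (pow_le_pow_right₀ (by norm_num) hj')
      ((Real.sqrt_le_left hA).2 (h1 j hj')) (Real.sqrt_nonneg _) (by positivity)
  · rw [Finset.card_range, nsmul_eq_mul, mul_assoc, ENNReal.ofReal_mul (p := (k : ℝ) + 1)
      (by positivity), ← ENNReal.ofReal_natCast]
    push_cast
    exact le_rfl

end

end Crest.Agent.R086.E
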