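import Crest.Agent.R086.E.SymB
import Crest.Agent.R086.E.CkA

open MeasureTheory Set Filter Topology
open scoped ContDiff ComplexConjugate ENNReal
open Crest.AnalysisR.PDE.NLS

namespace Crest.Agent.R086.E

noncomputable section

/-! # The approximate solution `UU`: smoothness, scaling, symbol bounds -/

variable {n : ℕ} {b : ℝ} {q : ℝ → ℂ}

theorem aa_pos (hn : 1 ≤ n) : 0 < aa n := by
  have : (0 : ℝ) < n := by exact_mod_cast hn
  unfold aa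
  positivity

theorem UU_zero_time (n : ℕ) (b : ℝ) (q : ℝ → ℂ) (h : ℝ) (y : R12) : UU n b q h 0 y = q (PP h y / 4) := by
  simp [UU, cp_one_left]

theorem UUa_PP (h : ℝ) {τ : ℝ} (hτ : 0 < τ) (y : R12) :
    PP (h * Real.sqrt τ) ((Real.sqrt τ)⁻¹ • y) = PP h y / τ := by
  have hs := (Real.sqrt_pos.2 hτ).ne'
  rw [PP_scale _ _ hs, smul_inv_smul₀ hs, Real.sq_sqrt hτ.le]

/-- `PP_scale` -/
theorem UU_scale (n : ℕ) (b : ℝ) (q : ℝ → ℂ) (h : ℝ) {t : ℝ} (ht : t < 1) (y : R12) :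
    UU n b q h t y = cp (1 - t) (-(aa n : ℂ) + Complex.I * b) *
      UU n b q (h * Real.sqrt (1 - t)) 0 ((Real.sqrt (1 - t))⁻¹ • y) := by
  rw [UU_zero_time, UUa_PP h (sub_pos.2 ht), UU, div_div, mul_comm (1 - t) 4]

theorem Zs_UU (n : ℕ) (b : ℝ) (q : ℝ → ℂ) (h : ℝ) {t : ℝ} (ht : t < 1) :
    Zs n b (1 - t) 0 0 (UU n b q h t) = UU n b q (h * Real.sqrt (1 - t)) 0 := by
  funext y
  have hs := (Real.sqrt_pos.2 (sub_pos.2 ht)).ne'
  rw [Zs, UU_scale n b q h ht, zero_add, inv_smul_smul₀ hs, ← mul_assoc,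
    mul_assoc (Complex.exp _), ← cp_add]
  simp [cp_zero]

theorem contDiffOn_UU (hq : Prof n b q) (h : ℝ) :
    ContDiffOn ℝ ∞ (fun p : ℝ × R12 => UU n b q h p.1 p.2) (Iio 1 ×ˢ univ) := by
  have h1 : ContDiffOn ℝ ∞ (fun p : ℝ × R12 => 1 - p.1) (Iio 1 ×ˢ univ) := by fun_prop
  refine ContDiffOn.mul ((contDiffOn_cp _).comp h1 fun p hp => sub_pos.2 (show p.1 < 1 from hp.1)) ?_
  refine hq.smooth.comp_contDiffOn (ContDiffOn.div
    ((contDiff_PP h).comp contDiff_snd).contDiffOn (contDiffOn_const.mul h1) fun p hp => ?_)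
  exact (mul_pos four_pos (sub_pos.2 (show p.1 < 1 from hp.1))).ne'

theorem contDiff_UU (hq : Prof n b q) (h t : ℝ) : ContDiff ℝ ∞ (UU n b q h t) := contDiff_const.mul (hq.smooth.comp ((contDiff_PP h).div_const _))

theorem per_UU (n : ℕ) (b : ℝ) (q : ℝ → ℂ) (h t : ℝ) : Per h (UU n b q h t) := by
  intro hh y i
  simp only [UU, perG_PP h hh y i]

theorem ck_UU (hq : Prof n b q) (h : ℝ) (k : ℕ) {J : Set ℝ} (hJ : J ⊆ Iio 1) : Ck k J (UU n b q h) := ck_of_contDiffOn isOpen_Iio hJ (contDiffOn_UU hq h)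

/-- `Sy.comp` for g = q^{(j₀)} (`iteratedDeriv j (iteratedDeriv j₀ q) = iteratedDeriv (j + j₀) q`, `Prof.symb`) -/
theorem sy_q (hq : Prof n b q) (j₀ : ℕ) {ι : Type} {hh : ι → ℝ} {Φ : ι → R12 → ℝ}
    (hΦ : Sy hh (fun _ => 1) 1 Φ) (h0 : ∀ i y, 0 ≤ Φ i y) {c : ℝ} (hc : 0 < c)
    (hlow : ∀ i y, c * (1 + PP (hh i) y) ≤ 1 + Φ i y) :
    Sy hh (fun _ => 1) (-(aa n) - j₀) (fun i y => iteratedDeriv j₀ q (Φ i y)) := by
  have h1 : ContDiff ℝ ∞ (iteratedDeriv j₀ q) := by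
    rw [iteratedDeriv_eq_iterate]
    exact hq.smooth.iterate_deriv j₀
  have ha := aa_pos hq.npos
  refine Sy.comp h1 (by have : (0 : ℝ) ≤ j₀ := Nat.cast_nonneg _; linarith) (fun j => ?_) hΦ h0 hc
    hlow
  obtain ⟨C, hC⟩ := hq.symb (j + j₀)
  refine ⟨C, fun s hs => ?_⟩
  have e1 : iteratedDeriv j (iteratedDeriv j₀ q) = iteratedDeriv (j + j₀) q := by
    simp only [iteratedDeriv_eq_iterate, Function.iterate_add_apply]
  have e2 : -(aa n) - (j₀ : ℝ) - j = -(aa n) - ((j + j₀ : ℕ) : ℝ) := by push_cast; ring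
  rw [e1, e2]
  exact hC s hs

theorem sy_q_PP (hq : Prof n b q) (j₀ : ℕ) {ι : Type} {hh : ι → ℝ} (hmem : ∀ i, hh i ∈ Icc (0 : ℝ) 1) :
    Sy hh (fun _ => 1) (-(aa n) - j₀) (fun i y => iteratedDeriv j₀ q (PP (hh i) y / 4)) := by
  refine sy_q hq j₀ (Φ := fun i y => PP (hh i) y / 4) (c := 1 / 4)
    (((sy_PP hmem).smul_bdd (c := fun _ => (4 : ℝ)⁻¹) (C := 4⁻¹) fun _ => by norm_num).congr
      fun i y => ?_) (fun i y => ?_) (by norm_num) fun i y => ?_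
  · rw [smul_eq_mul, div_eq_inv_mul]
  · have := PP_nonneg (hh i) y
    positivity
  · linarith

theorem sy_UU (hq : Prof n b q) {ι : Type} {hh : ι → ℝ} (hmem : ∀ i, hh i ∈ Icc (0 : ℝ) 1) :
    Sy hh (fun _ => 1) (-(aa n)) (fun i => UU n b q (hh i) 0) := by
  have h := sy_q_PP hq 0 hmem
  simp only [Nat.cast_zero, sub_zero, iteratedDeriv_zero] at h
  exact h.congr fun i y => (UU_zero_time n b q (hh i) y).symm

theorem sy_V1 (hq : Prof n b q) {ι : Type} {hh : ι → ℝ} (hmem : ∀ i, hh i ∈ Icc (0 : ℝ) 1) :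
    Sy hh (fun _ => 1) (-1) (fun i y => V1 n (UU n b q (hh i) 0 y)) := by
  have h := sy_UU hq hmem
  have hn : (n : ℝ) ≠ 0 := by have := hq.npos; positivity
  have h1 := ((h.pow n).mul_one (h.conj.pow n)).cmul_bdd (c := fun _ => (n : ℂ) + 1)
    fun _ => le_rfl
  have e : (n : ℝ) * -aa n + n * -aa n = -1 := by
    unfold aa
    field_simp
    ring
  rw [e] at h1
  exact h1

theorem sy_V2 (hq : Prof n b q) {ι : Type} {hh : ι → ℝ} (hmem : ∀ i, hh i ∈ Icc (0 : ℝ) 1) :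
    Sy hh (fun _ => 1) (-1) (fun i y => V2 n (UU n b q (hh i) 0 y)) := by
  have h := sy_UU hq hmem
  have hn : (n : ℝ) ≠ 0 := by have := hq.npos; positivity
  have h1 := ((h.pow (n + 1)).mul_one (h.conj.pow (n - 1))).cmul_bdd (c := fun _ => (n : ℂ))
    fun _ => le_rfl
  have e : ((n + 1 : ℕ) : ℝ) * -aa n + ((n - 1 : ℕ) : ℝ) * -aa n = -1 := by
    rw [Nat.cast_sub hq.npos]
    unfold aa
    push_cast
    field_simp
    ring
  rw [e] at h1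
  exact h1

theorem UUa_scaled {W : R12 → ℂ} (hW : ContDiff ℝ ∞ W) {h τ C : ℝ} (hτ : 0 < τ) {c : ℂ}
    (hc : ‖c‖ = τ⁻¹) {l : ℕ}
    (hb : ∀ z, ‖iteratedFDeriv ℝ l W z‖ ≤
      C * 1 * (1 + PP (h * Real.sqrt τ) z) ^ (-1 - (l : ℝ) / 2)) (y : R12) :
    ‖iteratedFDeriv ℝ l (fun y => c * W (0 + (Real.sqrt τ)⁻¹ • y)) y‖ ≤
      C * (Real.sqrt τ)⁻¹ ^ (l + 2) * (1 + PP h y / τ) ^ (-1 - (l : ℝ) / 2) := by
  have hW' : ContDiff ℝ l W := hW.of_le (by exact_mod_cast le_top)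
  have hs := Real.sqrt_pos.2 hτ
  rw [norm_iteratedFDeriv_const_mul (scale_contDiff_affine hW' _ _),
    norm_iteratedFDeriv_affine hW' (inv_pos.2 hs), hc, zero_add]
  have h1 := hb ((Real.sqrt τ)⁻¹ • y)
  rw [UUa_PP h hτ, mul_one] at h1
  have e : (Real.sqrt τ)⁻¹ ^ (l + 2) = τ⁻¹ * (Real.sqrt τ)⁻¹ ^ l := by
    rw [pow_add, inv_pow _ 2, Real.sq_sqrt hτ.le, mul_comm]
  have h2 := mul_le_mul_of_nonneg_left h1 (by positivity : 0 ≤ τ⁻¹ * (Real.sqrt τ)⁻¹ ^ l)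
  rw [e]
  linarith

theorem UUa_norm (hn : 1 ≤ n) (b : ℝ) {τ : ℝ} (hτ : 0 < τ) {i j : ℕ} (hij : i + j = 2 * n) :
    ‖cp τ (-(aa n : ℂ) + Complex.I * b) ^ i * conj (cp τ (-(aa n : ℂ) + Complex.I * b)) ^ j‖ =
      τ⁻¹ := by
  have hn' : (n : ℝ) ≠ 0 := by positivity
  rw [norm_mul, norm_pow, norm_pow, Complex.norm_conj, ← pow_add, hij, norm_cp hτ,
    ← Real.rpow_natCast, ← Real.rpow_mul hτ.le, ← Real.rpow_neg_one]
  congr 1
  simp only [Complex.add_re, Complex.neg_re, Complex.ofReal_re, Complex.mul_re, Complex.I_re,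
    Complex.I_im, Complex.ofReal_im, aa]
  push_cast
  field_simp
  ring

/-- by `UU_scale`, V_i (UU h t y) = c_i · V_i (UU (h√τ) 0 (y/√τ)) with ‖c_i‖ = ‖cp τ (-a+ib)‖^{2n} = τ⁻¹;
`norm_iteratedFDeriv_affine` (x = 0, l = (√τ)⁻¹), `norm_iteratedFDeriv_const_mul`, `PP_scale`;
M₀ comes from the bound for j = 0 only -/
theorem coef_UU (hq : Prof n b q) : ∃ M₀ : ℝ, 0 ≤ M₀ ∧ ∀ k : ℕ, ∃ M : ℝ, 0 ≤ M ∧ ∀ h ∈ Icc (0 : ℝ) 1,
    ∀ t ∈ Ico (0 : ℝ) 1, Coef k M₀ M h (1 - t) (fun y => V1 n (UU n b q h t y))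
      (fun y => V2 n (UU n b q h t y)) := by
  have s1 := sy_V1 hq (hh := fun i : Icc (0 : ℝ) 1 => i.1) fun i => i.2
  have s2 := sy_V2 hq (hh := fun i : Icc (0 : ℝ) 1 => i.1) fun i => i.2
  obtain ⟨A₁, hA₁, a1⟩ := s1.bound 0
  obtain ⟨A₂, hA₂, a2⟩ := s2.bound 0
  refine ⟨A₁ + A₂, by positivity, fun k => ?_⟩
  obtain ⟨C₁, hC₁, b1⟩ := s1.bound_le k
  obtain ⟨C₂, hC₂, b2⟩ := s2.bound_le k
  refine ⟨C₁ + C₂, by positivity, fun h hh t ht => ?_⟩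
  have hτ : 0 < 1 - t := sub_pos.2 ht.2
  have hm : h * Real.sqrt (1 - t) ∈ Icc (0 : ℝ) 1 :=
    ⟨mul_nonneg hh.1 (Real.sqrt_nonneg _), mul_le_one₀ hh.2 (Real.sqrt_nonneg _)
      (Real.sqrt_le_one.2 (by linarith [ht.1]))⟩
  set c := cp (1 - t) (-(aa n : ℂ) + Complex.I * b) with hc
  have e1 : (fun y => V1 n (UU n b q h t y)) = fun y => (c ^ n * conj c ^ n) *
      V1 n (UU n b q (h * Real.sqrt (1 - t)) 0 (0 + (Real.sqrt (1 - t))⁻¹ • y)) := by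
    funext y
    rw [UU_scale n b q h ht.2, zero_add, ← hc]
    simp only [V1, map_mul, mul_pow]
    ring
  have e2 : (fun y => V2 n (UU n b q h t y)) = fun y => (c ^ (n + 1) * conj c ^ (n - 1)) *
      V2 n (UU n b q (h * Real.sqrt (1 - t)) 0 (0 + (Real.sqrt (1 - t))⁻¹ • y)) := by
    funext y
    rw [UU_scale n b q h ht.2, zero_add, ← hc]
    simp only [V2, map_mul, mul_pow]
    ring
  have n1 : ‖c ^ n * conj c ^ n‖ = (1 - t)⁻¹ := UUa_norm hq.npos b hτ (by omega)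
  have n2 : ‖c ^ (n + 1) * conj c ^ (n - 1)‖ = (1 - t)⁻¹ :=
    UUa_norm hq.npos b hτ (by have := hq.npos; omega)
  have w1 := s1.smooth ⟨_, hm⟩
  have w2 := s2.smooth ⟨_, hm⟩
  have hw : ∀ y, 0 < 1 + PP h y / (1 - t) := fun y => one_pos.trans_le (one_le_rho h hτ y)
  refine ⟨?_, ?_, fun y => ?_, fun l hl y => ?_, fun l hl y => ?_⟩
  · rw [e1]
    exact (contDiff_const.mul (scale_contDiff_affine w1 _ _)).of_le (by exact_mod_cast le_top)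
  · rw [e2]
    exact (contDiff_const.mul (scale_contDiff_affine w2 _ _)).of_le (by exact_mod_cast le_top)
  · have t1 := UUa_scaled w1 hτ n1 (a1 ⟨_, hm⟩) y
    have t2 := UUa_scaled w2 hτ n2 (a2 ⟨_, hm⟩) y
    rw [← e1, norm_iteratedFDeriv_zero] at t1
    rw [← e2, norm_iteratedFDeriv_zero] at t2
    refine (add_le_add t1 t2).trans (le_of_eq ?_)
    rw [zero_add, inv_pow, Real.sq_sqrt hτ.le, Nat.cast_zero, zero_div, sub_zero,
      Real.rpow_neg_one, div_eq_mul_inv (A₁ + A₂), mul_inv]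
    ring
  · rw [e1]
    refine (UUa_scaled w1 hτ n1 (b1 ⟨_, hm⟩ l hl) y).trans ?_
    have := hw y
    gcongr
    linarith
  · rw [e2]
    refine (UUa_scaled w2 hτ n2 (b2 ⟨_, hm⟩ l hl) y).trans ?_
    have := hw y
    gcongr
    linarith

end

end Crest.Agent.R086.E
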