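import Crest.Agent.R086.E.EnSum
import Crest.Agent.R086.E.EnCv
import Crest.Agent.R086.E.UUa

open MeasureTheory Set Filter Topology
open scoped ContDiff ComplexConjugate ENNReal
open Crest.AnalysisR.PDE.NLS

namespace Crest.Agent.R086.E

noncomputable section

/-! # The energy inequality on a bounded domain -/

/-- the differential inequality for 𝓔 t = Σ c_j ∫_D Ph j: `hasDerivAt_setIntegral`, `hasDerivWithinAt_Ph`
with G t y = i(Δz - (V₁ z + V₂ z̄ + S)) (of class `Ck k` by the `ck_` lemmas), `static_sum`, `coef_UU` -/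
theorem diff_ineq {n : ℕ} {b : ℝ} {q : ℝ → ℂ} (hq : Prof n b q) : ∃ k₀ : ℕ, ∀ k : ℕ, k₀ ≤ k →
    ∃ (c : ℕ → ℝ) (C : ℝ), 0 < C ∧ (∀ j, 0 < c j ∧ c j ≤ 1) ∧ ∀ h ∈ Icc (0 : ℝ) 1, ∀ t₁ t₂ : ℝ, 0 ≤ t₁ →
      t₂ < 1 → ∀ (z S : ℝ → R12 → ℂ) (D : Set R12), Lin0 n b q k h (Icc t₁ t₂) z S →
      (∀ t ∈ Icc t₁ t₂, SDom h D k (z t)) → ∃ E' : ℝ → ℝ,
        ContinuousOn (fun t => ∑ j ∈ Finset.range (k + 1),
          c j * ((1 - t) ^ (2 * aa n - 6) * II D h (1 - t) (ew j / 2) j (z t))) (Icc t₁ t₂) ∧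
        ∀ t ∈ Ioo t₁ t₂, HasDerivAt (fun t => ∑ j ∈ Finset.range (k + 1),
            c j * ((1 - t) ^ (2 * aa n - 6) * II D h (1 - t) (ew j / 2) j (z t))) (E' t) t ∧
          (1 - t) * E' t ≤ -(aa n / 2) * (∑ j ∈ Finset.range (k + 1),
              c j * ((1 - t) ^ (2 * aa n - 6) * II D h (1 - t) (ew j / 2) j (z t)))
            + C * ((1 - t) ^ (2 * aa n - 6) * II D h (1 - t) (-7) 0 (z t))
            + C * ∑ j ∈ Finset.range (k + 1), (1 - t) ^ (2 * aa n - 6) *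
                II D h (1 - t) (ew j / 2) j (fun y => ((1 - t : ℝ) : ℂ) * S t y) := by
  obtain ⟨M₀, hM₀, hco⟩ := coef_UU hq
  refine ⟨max 74 ⌈6 + 2 * M₀⌉₊, fun k hk => ?_⟩
  obtain ⟨M, hM, hcoef⟩ := hco k
  obtain ⟨c, C, hC, hc, hst⟩ := static_sum (aa_pos hq.npos) hM₀ hM ((le_max_left _ _).trans hk)
    (Nat.ceil_le.1 ((le_max_right _ _).trans hk))
  refine ⟨c, C, hC, hc, fun h hh t₁ t₂ ht₁ ht₂ z S D hL hD => ?_⟩
  rcases lt_or_ge t₂ t₁ with h21 | h12
  · refine ⟨0, ?_, fun t ht => absurd (ht.1.trans ht.2) h21.not_gt⟩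
    rw [Icc_eq_empty h21.not_ge]
    exact continuousOn_empty _
  have hm := (hD t₁ ⟨le_rfl, h12⟩).meas
  have hb := (hD t₁ ⟨le_rfl, h12⟩).bdd
  let G : ℝ → R12 → ℂ := fun t y => Complex.I * (lap (z t) y - (V1 n (UU n b q h t y) * z t y
    + V2 n (UU n b q h t y) * conj (z t y) + S t y))
  have hz : Ck k (Icc t₁ t₂) z := ck_mono hL.reg (by omega)
  have hU : Ck k (Icc t₁ t₂) (UU n b q h) := ck_UU hq h k fun t ht => ht.2.trans_lt ht₂
  have hG : Ck k (Icc t₁ t₂) G :=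
    ck_const_mul _ (ck_sub (ck_lap hL.reg) (ck_add (ck_add (ck_mul (ck_V1 n hU) hz)
      (ck_mul (ck_V2 n hU) (ck_conj hz))) hL.regS))
  have e : ∀ (j : ℕ) (t : ℝ), (1 - t) ^ (2 * aa n - 6) * II D h (1 - t) (ew j / 2) j (z t) =
      ∫ y in D, Ph (aa n) h j z t y := fun j t => (integral_const_mul _ _).symm
  have hj : ∀ j ∈ Finset.range (k + 1), j ≤ k := fun j hj => Nat.lt_succ_iff.1 (Finset.mem_range.1 hj)
  refine ⟨fun t => ∑ j ∈ Finset.range (k + 1), c j * ∫ y in D, Ph' (aa n) h j z G t y, ?_,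
    fun t ht => ⟨?_, ?_⟩⟩
  · simp only [e]
    exact continuousOn_finsetSum _ fun j hj' => continuousOn_const.mul
      (continuousOn_setIntegral hm hb (continuousOn_Ph _ h j ht₂ (ck_mono hz (hj j hj'))))
  · simp only [e]
    exact HasDerivAt.fun_sum fun j hj' => (hasDerivAt_setIntegral hm hb
      (continuousOn_Ph _ h j ht₂ (ck_mono hz (hj j hj')))
      (continuousOn_Ph' _ h j ht₂ (ck_mono hz (hj j hj')) (ck_mono hG (hj j hj')))
      (hasDerivWithinAt_Ph _ h j ht₂ (ck_mono hz (hj j hj')) (ck_mono hG (hj j hj')) hL.eqn)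
      ht).const_mul (c j)
  · have ht' : t ∈ Icc t₁ t₂ := Ioo_subset_Icc_self ht
    have hτ : 0 < 1 - t := sub_pos.2 (ht.2.trans ht₂)
    have h1 := hst h (1 - t) D _ _ (z t) (S t) hτ
      (hcoef h hh t ⟨ht₁.trans ht.1.le, ht.2.trans ht₂⟩) (hL.reg.diff t ht') (hL.regS.diff t ht')
      (hD t ht')
    have h2 := mul_le_mul_of_nonneg_left h1 (Real.rpow_nonneg hτ.le (2 * aa n - 6))
    have e2 : (1 - t) ^ (2 * aa n - 6) = (1 - t) * (1 - t) ^ (2 * aa n - 7) := by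
      rw [← Real.rpow_one_add' hτ.le]
      · congr 1; ring
      · by_cases h0 : 1 + (2 * aa n - 7) = 0
        · exfalso
          have h3 : aa n ≤ 1 / 2 := by
            have : (1 : ℝ) ≤ n := by exact_mod_cast hq.npos
            unfold aa
            exact one_div_le_one_div_of_le (by norm_num) (by linarith)
          linarith
        · exact h0
    refine le_trans (le_of_eq ?_) (h2.trans (le_of_eq ?_))
    · simp only [Ph', integral_const_mul, Finset.mul_sum]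
      refine Finset.sum_congr rfl fun j _ => ?_
      rw [e2]
      ring
    · simp only [mul_add, Finset.mul_sum]
      congr 1
      · congr 1
        · exact Finset.sum_congr rfl fun j _ => by ring
        · ring
      · exact Finset.sum_congr rfl fun j _ => by ring

/-- `diff_ineq`, `gronwall_log` with α = -a/2 (then μ = a/4) and with α = C/c₀ (II (-7) 0 ≤ II (e₀/2) 0 by
`II_mono`), `II_le_of_nrmT`, `II_le_of_lowT`, `nrmT_le_of_II`; enlarge C so that it serves as constant and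
as exponent ((1-t₁)/(1-t₂) ≥ 1) -/
theorem energy_core {n : ℕ} {b : ℝ} {q : ℝ → ℂ} (hq : Prof n b q) : ∃ k₀ : ℕ, ∀ k : ℕ, k₀ ≤ k →
    ∃ μ C : ℝ, 0 < μ ∧ 0 < C ∧ ∀ h ∈ Icc (0 : ℝ) 1, ∀ t₁ t₂ : ℝ, 0 ≤ t₁ → t₁ ≤ t₂ → t₂ < 1 →
      ∀ (z S : ℝ → R12 → ℂ) (D : Set R12), Lin0 n b q k h (Icc t₁ t₂) z S →
      (∀ t ∈ Icc t₁ t₂, SDom h D k (z t)) → EnConcl n b k μ C h t₁ t₂ z S := by
  obtain ⟨k₀, hk₀⟩ := diff_ineq hq
  refine ⟨k₀, fun k hk => ?_⟩
  obtain ⟨c, C, hC, hc, hdi⟩ := hk₀ k hk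
  have ha := aa_pos hq.npos
  obtain ⟨j₀, -, hj₀⟩ := Finset.exists_min_image (Finset.range (k + 1)) c
    ⟨0, Finset.mem_range.2 (Nat.succ_pos k)⟩
  set m := c j₀ with hm
  have hm0 : 0 < m := (hc j₀).1
  have hm1 : m ≤ 1 := (hc j₀).2
  set K : ℝ := (k + 1) * 144 ^ k with hK
  have hK1 : 1 ≤ K := one_le_mul_of_one_le_of_one_le (by simp) (one_le_pow₀ (by norm_num))
  set L : ℝ := K * (1 + 2 * C / aa n) with hL'
  have hCa : 0 ≤ 2 * C / aa n := by positivity
  have hKL : K ≤ L := le_mul_of_one_le_right (by positivity) (by linarith)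
  set P : ℝ := L / m with hP
  have hP1 : 1 ≤ P := (one_le_div hm0).2 (by linarith)
  set Q : ℝ := (k + 1) * 12 ^ k * P with hQ
  have hQ0 : 0 < Q := by positivity
  have hα : 0 < C / m := div_pos hC hm0
  refine ⟨aa n / 4, Q + C / m, by positivity, by positivity,
    fun h hh t₁ t₂ ht₁ h12 ht₂ z S D hL hD A B hA hB h1 h2 => ?_⟩
  obtain ⟨E', hcont, hder⟩ := hdi h hh t₁ t₂ ht₁ ht₂ z S D hL hD
  have hz : Ck k (Icc t₁ t₂) z := ck_mono hL.reg (by omega)
  have hi₁ : t₁ ∈ Icc t₁ t₂ := ⟨le_rfl, h12⟩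
  have hi₂ : t₂ ∈ Icc t₁ t₂ := ⟨h12, le_rfl⟩
  have hDm := (hD t₁ hi₁).meas
  have hDb := (hD t₁ hi₁).bdd
  have hDs := (hD t₁ hi₁).sub
  have hj : ∀ j ∈ Finset.range (k + 1), j ≤ k := fun j hj => Nat.lt_succ_iff.1 (Finset.mem_range.1 hj)
  set e : ℕ → ℝ → ℝ := fun j t => (1 - t) ^ (2 * aa n - 6) * II D h (1 - t) (ew j / 2) j (z t)
    with he
  set E : ℝ → ℝ := fun t => ∑ j ∈ Finset.range (k + 1), c j * e j t with hE
  have hlt : ∀ t ∈ Icc t₁ t₂, t < 1 := fun t ht => ht.2.trans_lt ht₂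
  have he0 : ∀ j, ∀ t ∈ Icc t₁ t₂, 0 ≤ e j t := fun j t ht =>
    mul_nonneg (Real.rpow_nonneg (sub_pos.2 (hlt t ht)).le _) (II_nonneg _ _ _ _ _ _)
  have heE : ∀ j ≤ k, ∀ t ∈ Icc t₁ t₂, m * e j t ≤ E t := fun j hjk t ht =>
    (mul_le_mul_of_nonneg_right (hj₀ j (Finset.mem_range.2 (Nat.lt_succ_of_le hjk)))
      (he0 j t ht)).trans (Finset.single_le_sum (f := fun j => c j * e j t)
        (fun i _ => mul_nonneg (hc i).1.le (he0 i t ht)) (Finset.mem_range.2 (Nat.lt_succ_of_le hjk)))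
  have hE0 : ∀ t ∈ Icc t₁ t₂, 0 ≤ E t := fun t ht =>
    Finset.sum_nonneg fun i _ => mul_nonneg (hc i).1.le (he0 i t ht)
  have hsum : ∀ (f : ℕ → ℝ) (X : ℝ), (∀ j ∈ Finset.range (k + 1), f j ≤ 144 ^ k * X ^ 2) →
      ∑ j ∈ Finset.range (k + 1), f j ≤ K * X ^ 2 := by
    intro f X hf
    refine (Finset.sum_le_sum hf).trans (le_of_eq ?_)
    rw [Finset.sum_const, Finset.card_range, nsmul_eq_mul, hK]
    push_cast; ring
  have hE1 : E t₁ ≤ K * A ^ 2 := hsum _ _ fun j hj' =>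
    (mul_le_of_le_one_left (he0 j t₁ hi₁) (hc j).2).trans
      (II_le_of_nrmT hDm hDb hDs n b (hlt t₁ hi₁) (hz.diff t₁ hi₁) hA h1 (hj j hj'))
  have hS : ∀ t ∈ Icc t₁ t₂, ∑ j ∈ Finset.range (k + 1), (1 - t) ^ (2 * aa n - 6) *
      II D h (1 - t) (ew j / 2) j (fun y => ((1 - t : ℝ) : ℂ) * S t y) ≤ K * B ^ 2 := fun t ht =>
    hsum _ _ fun j hj' => II_le_of_nrmT hDm hDb hDs n b (hlt t ht)
      (contDiff_const.mul (hL.regS.diff t ht)) hB (h2 t ht) (hj j hj')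
  have hfin : ∀ X : ℝ, 0 ≤ X → E t₂ ≤ L * X ^ 2 →
      nrmT n b k h t₂ (z t₂) ≤ ENNReal.ofReal (Q * X) := by
    intro X hX hEX
    have h3 := nrmT_le_of_II (hD t₂ hi₂) n b ht₂ (hz.diff t₂ hi₂) (A := P * X) (by positivity)
      fun j hjk => by
        have h4 : e j t₂ ≤ P * X ^ 2 := by
          rw [hP, div_mul_eq_mul_div, le_div_iff₀ hm0, mul_comm]
          exact (heE j hjk t₂ hi₂).trans hEX
        refine h4.trans ?_
        rw [mul_pow]
        exact mul_le_mul_of_nonneg_right (by nlinarith) (sq_nonneg X)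
    rwa [← mul_assoc] at h3
  have hτ₁ : 0 < 1 - t₁ := sub_pos.2 (hlt t₁ hi₁)
  have hτ₂ : 0 < 1 - t₂ := sub_pos.2 ht₂
  have hr1 : 1 ≤ (1 - t₁) / (1 - t₂) := (one_le_div hτ₂).2 (by linarith)
  refine ⟨?_, fun D' hD' h3 => ?_⟩
  · have hg := gronwall_log (α := C / m) (β := C * (K * B ^ 2)) h12 ht₂ hα.ne' hcont
      (fun t ht => (hder t ht).1) fun t ht => by
        have ht' : t ∈ Icc t₁ t₂ := Ioo_subset_Icc_self ht
        have hτ : 0 < 1 - t := sub_pos.2 (hlt t ht')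
        have a1 : (1 - t) * E' t ≤ -(aa n / 2) * E t + _ + _ := (hder t ht).2
        have a2 : (1 - t) ^ (2 * aa n - 6) * II D h (1 - t) (-7) 0 (z t) ≤ e 0 t :=
          mul_le_mul_of_nonneg_left (II_mono hDm hDb h hτ (by linarith [(ew_bounds 0).1])
            ((hz.diff t ht').of_le (by simp))) (Real.rpow_nonneg hτ.le _)
        have a3 : e 0 t ≤ E t / m := by
          rw [le_div_iff₀ hm0, mul_comm]; exact heE 0 (Nat.zero_le k) t ht'
        have a4 := mul_le_mul_of_nonneg_left (a2.trans a3) hC.le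
        have a5 := mul_le_mul_of_nonneg_left (hS t ht') hC.le
        have a6 := mul_nonneg ha.le (hE0 t ht')
        have a7 : C * (E t / m) = C / m * E t := by ring
        show _ ≤ C / m * E t + _
        linarith
    set R := ((1 - t₁) / (1 - t₂)) ^ (C / m) with hR
    have hR1 : 1 ≤ R := Real.one_le_rpow hr1 hα.le
    have e1 : C * (K * B ^ 2) / (C / m) = m * (K * B ^ 2) := by field_simp
    rw [e1] at hg
    have hg' : E t₂ + m * (K * B ^ 2) ≤ R * (E t₁ + m * (K * B ^ 2)) := hg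
    have hKB : 0 ≤ K * B ^ 2 := by positivity
    have a1 : E t₁ + m * (K * B ^ 2) ≤ L * (A + B) ^ 2 := by
      have b1 := mul_le_of_le_one_left hKB hm1
      have b2 : K * A ^ 2 + K * B ^ 2 ≤ K * (A + B) ^ 2 := by
        rw [← mul_add]
        exact mul_le_mul_of_nonneg_left (by nlinarith [mul_nonneg hA hB]) (by positivity)
      have b3 := mul_le_mul_of_nonneg_right hKL (sq_nonneg (A + B))
      linarith
    have a2 : E t₂ ≤ L * (R * (A + B)) ^ 2 := by
      have b0 : 0 ≤ L * (A + B) ^ 2 := by positivity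
      have b1 := mul_le_mul_of_nonneg_left a1 (zero_le_one.trans hR1)
      have b2 : R * (L * (A + B) ^ 2) ≤ R ^ 2 * (L * (A + B) ^ 2) :=
        mul_le_mul_of_nonneg_right (by nlinarith) b0
      have b3 := mul_nonneg hm0.le hKB
      have b4 : L * (R * (A + B)) ^ 2 = R ^ 2 * (L * (A + B) ^ 2) := by ring
      linarith
    refine (hfin _ (by positivity) a2).trans (ENNReal.ofReal_le_ofReal ?_)
    rw [← mul_assoc]
    refine mul_le_mul_of_nonneg_right (mul_le_mul (by linarith) ?_ (by positivity) (by positivity))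
      (by positivity)
    exact Real.rpow_le_rpow_of_exponent_le hr1 (by linarith)
  · have hg := gronwall_log (α := -(aa n / 2)) (β := C * D' ^ 2 + C * (K * B ^ 2)) h12 ht₂
      (by linarith) hcont (fun t ht => (hder t ht).1) fun t ht => by
        have ht' : t ∈ Icc t₁ t₂ := Ioo_subset_Icc_self ht
        have a1 := (hder t ht).2
        have a2 := II_le_of_lowT hDm hDb hDs n b (hlt t ht') (hz.diff t ht').continuous hD' (h3 t ht')
        have a4 := mul_le_mul_of_nonneg_left a2 hC.le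
        have a5 := mul_le_mul_of_nonneg_left (hS t ht') hC.le
        linarith
    set R := ((1 - t₂) / (1 - t₁)) ^ (aa n / 4) with hR
    have hR0 : 0 ≤ R := Real.rpow_nonneg (div_pos hτ₂ hτ₁).le _
    have e1 : ((1 - t₁) / (1 - t₂)) ^ (-(aa n / 2)) = R ^ 2 := by
      rw [hR, ← Real.rpow_natCast, ← Real.rpow_mul (div_pos hτ₂ hτ₁).le,
        Real.rpow_neg (div_pos hτ₁ hτ₂).le, ← Real.inv_rpow (div_pos hτ₁ hτ₂).le, inv_div]
      congr 1
      push_cast; ring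
    have e2 : (C * D' ^ 2 + C * (K * B ^ 2)) / -(aa n / 2) =
        -(2 * C / aa n * (D' ^ 2 + K * B ^ 2)) := by field_simp
    rw [e1, e2] at hg
    set γ := 2 * C / aa n with hγ
    have hg' : E t₂ + -(γ * (D' ^ 2 + K * B ^ 2)) ≤ R ^ 2 * (E t₁ + -(γ * (D' ^ 2 + K * B ^ 2))) := hg
    have hRA : 0 ≤ R * A := mul_nonneg hR0 hA
    have a2 : E t₂ ≤ L * (R * A + B + D') ^ 2 := by
      have b0 : 0 ≤ γ * (D' ^ 2 + K * B ^ 2) := by positivity
      have b1 : R ^ 2 * (E t₁ + -(γ * (D' ^ 2 + K * B ^ 2))) ≤ R ^ 2 * (K * A ^ 2) :=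
        mul_le_mul_of_nonneg_left (by linarith) (sq_nonneg R)
      have b2 : R ^ 2 * (K * A ^ 2) ≤ K * (R * A + B + D') ^ 2 := by
        rw [show R ^ 2 * (K * A ^ 2) = K * (R * A) ^ 2 by ring]
        exact mul_le_mul_of_nonneg_left (pow_le_pow_left₀ hRA (by linarith) 2) (by positivity)
      have b3 : D' ^ 2 + K * B ^ 2 ≤ K * (R * A + B + D') ^ 2 := by
        have c1 := le_mul_of_one_le_left (sq_nonneg D') hK1
        have c2 : D' ^ 2 + B ^ 2 ≤ (R * A + B + D') ^ 2 :=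
          le_trans (by nlinarith [mul_nonneg hB hD']) (pow_le_pow_left₀ (add_nonneg hB hD')
            (by linarith : B + D' ≤ R * A + B + D') 2)
        have c3 := mul_le_mul_of_nonneg_left c2 (zero_le_one.trans hK1)
        linarith
      have b4 := mul_le_mul_of_nonneg_left b3 hCa
      have b5 : L * (R * A + B + D') ^ 2 =
          K * (R * A + B + D') ^ 2 + γ * (K * (R * A + B + D') ^ 2) := by rw [hL']; ring
      linarith
    refine (hfin _ (by positivity) a2).trans (ENNReal.ofReal_le_ofReal ?_)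
    exact mul_le_mul_of_nonneg_right (by linarith) (by positivity)

end

end Crest.Agent.R086.E
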