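import Crest.Agent.R086.E.HHa
import Crest.Agent.R086.E.CkB

open MeasureTheory Set Filter Topology
open scoped ContDiff ComplexConjugate ENNReal
open Crest.AnalysisR.PDE.NLS

namespace Crest.Agent.R086.E

noncomputable section

/-! # Time dependence of the forms; differentiation under the integral -/

theorem continuousOn_BB (j : ℕ) {J : Set ℝ} {z w : ℝ → R12 → ℂ} (hz : Ck j J z) (hw : Ck j J w) :
    ContinuousOn (fun p : ℝ × R12 => BB j (z p.1) (w p.1) p.2) (J ×ˢ univ) := by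
  induction j generalizing z w with
  | zero =>
    exact (ck_continuousOn hz).mul (Complex.continuous_conj.comp_continuousOn (ck_continuousOn hw))
  | succ j ih =>
    exact continuousOn_finsetSum _ fun i _ => ih (ck_pd hz i) (ck_pd hw i)

/-- induction on j with `hasDerivWithinAt_pd`, `ck_pd` -/
theorem hasDerivWithinAt_HH (j : ℕ) {a b : ℝ} {z G : ℝ → R12 → ℂ} (hz : Ck j (Icc a b) z)
    (hG : Ck j (Icc a b) G)
    (h : ∀ t ∈ Icc a b, ∀ y, HasDerivWithinAt (fun s => z s y) (G t y) (Icc a b) t) :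
    ∀ t ∈ Icc a b, ∀ y, HasDerivWithinAt (fun s => HH j (z s) y) (2 * (BB j (G t) (z t) y).re) (Icc a b) t := by
  induction j generalizing z G with
  | zero =>
    intro t ht y
    have h1 := h t ht y
    have h2 : HasDerivWithinAt (fun s => conj (z s y)) (conj (G t y)) (Icc a b) t :=
      (Complex.conjCLE : ℂ →L[ℝ] ℂ).hasFDerivAt.comp_hasDerivWithinAt t h1
    have h3 := Complex.reCLM.hasFDerivAt.comp_hasDerivWithinAt t (h1.mul h2)
    have e : Complex.reCLM (G t y * conj (z t y) + z t y * conj (G t y))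
        = 2 * (BB 0 (G t) (z t) y).re := by
      simp [BB]
      ring
    rw [e] at h3
    exact h3
  | succ j ih =>
    intro t ht y
    have hd : ∀ t ∈ Icc a b, Differentiable ℝ (z t) := fun t ht =>
      (hz.diff t ht).differentiable (by simp)
    have h1 : ∀ i ∈ (Finset.univ : Finset (Fin 12)), HasDerivWithinAt (fun s => HH j (pd i (z s)) y)
        (2 * (BB j (pd i (G t)) (pd i (z t)) y).re) (Icc a b) t := fun i _ =>
      ih (ck_pd hz i) (ck_pd hG i) (hasDerivWithinAt_pd hd (ck_mono hG (by omega)) h i) t ht y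
    have h2 := HasDerivWithinAt.fun_sum h1
    have e : ∑ i : Fin 12, 2 * (BB j (pd i (G t)) (pd i (z t)) y).re
        = 2 * (BB (j + 1) (G t) (z t) y).re := by
      simp only [BB, Complex.re_sum, Finset.mul_sum]
    rw [e] at h2
    simpa only [HH_succ] using h2

/-- `XN_sq`; d/dt (1 + P/(1-t)) = P/(1-t)², and P/τ = ρ - 1 -/
theorem hasDerivWithinAt_Ph (a₀ h : ℝ) (j : ℕ) {a b : ℝ} (hb : b < 1) {z G : ℝ → R12 → ℂ}
    (hz : Ck j (Icc a b) z) (hG : Ck j (Icc a b) G)
    (hd : ∀ t ∈ Icc a b, ∀ y, HasDerivWithinAt (fun s => z s y) (G t y) (Icc a b) t) :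
    ∀ t ∈ Icc a b, ∀ y, HasDerivWithinAt (fun s => Ph a₀ h j z s y) (Ph' a₀ h j z G t y) (Icc a b) t := by
  intro t ht y
  have hτ : 0 < 1 - t := by linarith [ht.2]
  have hρ : 0 < 1 + PP h y / (1 - t) := lt_of_lt_of_le one_pos (one_le_rho h hτ y)
  have d0 : HasDerivAt (fun s : ℝ => 1 - s) (-1) t := by
    simpa using (hasDerivAt_id' t).const_sub 1
  have d1 := d0.rpow_const (p := 2 * a₀ - 6) (Or.inl hτ.ne')
  have d2 := d0.fun_pow j
  have d3 : HasDerivAt (fun s : ℝ => 1 + PP h y / (1 - s)) (PP h y / (1 - t) ^ 2) t := by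
    have := ((hasDerivAt_const t (PP h y)).fun_div d0 hτ.ne').const_add 1
    rw [show (0 * (1 - t) - PP h y * -1) / (1 - t) ^ 2 = PP h y / (1 - t) ^ 2 by ring] at this
    exact this
  have d4 := d3.rpow_const (p := ew j) (Or.inl hρ.ne')
  have d5 := hasDerivWithinAt_HH j hz hG hd t ht y
  have d6 := d1.hasDerivWithinAt.fun_mul ((d2.fun_mul d4).hasDerivWithinAt.fun_mul d5)
  have e2 : (2 : ℝ) * (ew j / 2) = ew j := by ring
  have key : -1 * (2 * a₀ - 6) * (1 - t) ^ (2 * a₀ - 6 - 1) *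
        ((1 - t) ^ j * (1 + PP h y / (1 - t)) ^ ew j * HH j (z t) y) +
      (1 - t) ^ (2 * a₀ - 6) *
        (((j : ℝ) * (1 - t) ^ (j - 1) * -1 * (1 + PP h y / (1 - t)) ^ ew j +
              (1 - t) ^ j * (PP h y / (1 - t) ^ 2 * ew j * (1 + PP h y / (1 - t)) ^ (ew j - 1))) *
            HH j (z t) y +
          (1 - t) ^ j * (1 + PP h y / (1 - t)) ^ ew j * (2 * (BB j (G t) (z t) y).re))
      = Ph' a₀ h j z G t y := by
    unfold Ph'
    rw [XN_sq h _ hτ, e2]
    have r1 : (1 - t) ^ (2 * a₀ - 6) = (1 - t) ^ (2 * a₀ - 7) * (1 - t) := by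
      rw [← Real.rpow_add_one hτ.ne']; congr 1; ring
    have r2 : (1 - t) ^ (2 * a₀ - 6 - 1) = (1 - t) ^ (2 * a₀ - 7) := by congr 1; ring
    have r3 : (1 + PP h y / (1 - t)) ^ (ew j - 1) =
        (1 + PP h y / (1 - t)) ^ ew j / (1 + PP h y / (1 - t)) := Real.rpow_sub_one hρ.ne' _
    have r4 : (j : ℝ) * (1 - t) ^ (j - 1) = j * (1 - t) ^ j / (1 - t) := by
      cases j with
      | zero => simp
      | succ j => rw [Nat.add_sub_cancel, pow_succ]; field_simp
    rw [r1, r2, r3, r4]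
    obtain ⟨τ, hτe⟩ : ∃ τ, τ = 1 - t := ⟨_, rfl⟩
    rw [← hτe] at hτ hρ ⊢
    obtain ⟨ρ, hρe⟩ : ∃ ρ, ρ = 1 + PP h y / τ := ⟨_, rfl⟩
    have hP : PP h y = (ρ - 1) * τ := by rw [hρe]; field_simp; ring
    rw [← hρe] at hρ ⊢
    rw [hP]
    field_simp
    ring
  rw [key] at d6
  refine d6.congr (fun s hs => ?_) ?_
  · have hσ : 0 < 1 - s := by linarith [hs.2]
    unfold Ph
    rw [XN_sq h _ hσ, e2]
  · unfold Ph
    rw [XN_sq h _ hτ, e2]

theorem HHt_cont_pow {a b : ℝ} (hb : b < 1) (e : ℝ) :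
    ContinuousOn (fun p : ℝ × R12 => (1 - p.1) ^ e) (Icc a b ×ˢ univ) :=
  ContinuousOn.rpow_const (by fun_prop) fun p hp => Or.inl (by linarith [hp.1.2] : (0 : ℝ) < 1 - p.1).ne'

theorem HHt_cont_rho (h : ℝ) {a b : ℝ} (hb : b < 1) :
    ContinuousOn (fun p : ℝ × R12 => 1 + PP h p.2 / (1 - p.1)) (Icc a b ×ˢ univ) :=
  continuousOn_const.add (ContinuousOn.div
    ((contDiff_PP h).continuous.comp continuous_snd).continuousOn (by fun_prop)
    fun p hp => (by linarith [hp.1.2] : (0 : ℝ) < 1 - p.1).ne')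

theorem HHt_cont_XN (h θ : ℝ) (j : ℕ) {a b : ℝ} (hb : b < 1) {z : ℝ → R12 → ℂ}
    (hz : Ck j (Icc a b) z) :
    ContinuousOn (fun p : ℝ × R12 => XN h (1 - p.1) θ j (z p.1) p.2 ^ 2) (Icc a b ×ˢ univ) := by
  have h1 : ContinuousOn (fun p : ℝ × R12 => (1 - p.1) ^ j * (1 + PP h p.2 / (1 - p.1)) ^ (2 * θ) *
      HH j (z p.1) p.2) (Icc a b ×ˢ univ) := by
    refine (ContinuousOn.mul (by fun_prop) ((HHt_cont_rho h hb).rpow_const fun p hp => Or.inl ?_)).mul
      (Complex.continuous_re.comp_continuousOn (continuousOn_BB j hz hz))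
    exact (lt_of_lt_of_le one_pos (one_le_rho h (by linarith [hp.1.2]) p.2)).ne'
  exact h1.congr fun p hp => XN_sq h θ (by linarith [hp.1.2]) j _ _

theorem continuousOn_Ph (a₀ h : ℝ) (j : ℕ) {a b : ℝ} (hb : b < 1) {z : ℝ → R12 → ℂ}
    (hz : Ck j (Icc a b) z) :
    ContinuousOn (fun p : ℝ × R12 => Ph a₀ h j z p.1 p.2) (Icc a b ×ˢ univ) := by
  exact (HHt_cont_pow hb (2 * a₀ - 6)).mul (HHt_cont_XN h (ew j / 2) j hb hz)

theorem continuousOn_Ph' (a₀ h : ℝ) (j : ℕ) {a b : ℝ} (hb : b < 1) {z G : ℝ → R12 → ℂ}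
    (hz : Ck j (Icc a b) z) (hG : Ck j (Icc a b) G) :
    ContinuousOn (fun p : ℝ × R12 => Ph' a₀ h j z G p.1 p.2) (Icc a b ×ˢ univ) := by
  have hρ := HHt_cont_rho h (a := a) hb
  have hρ0 : ∀ p ∈ Icc a b ×ˢ (univ : Set R12), 1 + PP h p.2 / (1 - p.1) ≠ 0 := fun p hp =>
    (lt_of_lt_of_le one_pos (one_le_rho h (by linarith [hp.1.2]) p.2)).ne'
  refine (HHt_cont_pow hb (2 * a₀ - 7)).mul (ContinuousOn.add ?_ ?_)
  · exact (continuousOn_const.add (continuousOn_const.mul (continuousOn_const.sub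
      (continuousOn_const.div hρ hρ0)))).mul (HHt_cont_XN h (ew j / 2) j hb hz)
  · refine (ContinuousOn.mul ?_ (hρ.rpow_const fun p hp => Or.inl (hρ0 p hp))).mul
      (continuousOn_const.mul (Complex.continuous_re.comp_continuousOn (continuousOn_BB j hG hz)))
    fun_prop

theorem HHt_cont_slice {J : Set ℝ} {Φ : ℝ → R12 → ℝ}
    (hc : ContinuousOn (fun p : ℝ × R12 => Φ p.1 p.2) (J ×ˢ univ)) {t : ℝ} (ht : t ∈ J) :
    Continuous (Φ t) :=
  hc.comp_continuous (f := fun y : R12 => (t, y)) (by fun_prop) fun y => ⟨ht, mem_univ y⟩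

/-- dominated convergence on a bounded set (`continuousOn_of_dominated`; a jointly continuous function is
bounded on `Icc a b ×ˢ closure D`) -/
theorem continuousOn_setIntegral {a b : ℝ} {D : Set R12} (hm : MeasurableSet D)
    (hD : Bornology.IsBounded D) {Φ : ℝ → R12 → ℝ}
    (hc : ContinuousOn (fun p : ℝ × R12 => Φ p.1 p.2) (Icc a b ×ˢ univ)) :
    ContinuousOn (fun t => ∫ y in D, Φ t y) (Icc a b) := by
  obtain ⟨C, hC⟩ := (isCompact_Icc.prod hD.isCompact_closure).exists_bound_of_continuousOn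
    (hc.mono (prod_mono subset_rfl (subset_univ _)))
  have hfin : IsFiniteMeasure (volume.restrict D) := isFiniteMeasure_restrict.2 hD.measure_lt_top.ne
  refine continuousOn_of_dominated (bound := fun _ => C) (fun t ht => ?_) (fun t ht => ?_)
    (integrable_const C) (Eventually.of_forall fun y => ?_)
  · exact (HHt_cont_slice hc ht).aestronglyMeasurable
  · exact (ae_restrict_iff' hm).2 (Eventually.of_forall fun y hy =>
      hC (t, y) ⟨ht, subset_closure hy⟩)
  · exact hc.comp (f := fun t : ℝ => (t, y)) (by fun_prop) fun t ht => ⟨ht, mem_univ _⟩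

/-- `hasDerivAt_integral_of_dominated_loc_of_deriv_le` -/
theorem hasDerivAt_setIntegral {a b : ℝ} {D : Set R12} (hm : MeasurableSet D)
    (hD : Bornology.IsBounded D) {Φ Φ' : ℝ → R12 → ℝ}
    (hc : ContinuousOn (fun p : ℝ × R12 => Φ p.1 p.2) (Icc a b ×ˢ univ))
    (hc' : ContinuousOn (fun p : ℝ × R12 => Φ' p.1 p.2) (Icc a b ×ˢ univ))
    (hd : ∀ t ∈ Icc a b, ∀ y, HasDerivWithinAt (fun s => Φ s y) (Φ' t y) (Icc a b) t)
    {t : ℝ} (ht : t ∈ Ioo a b) : HasDerivAt (fun s => ∫ y in D, Φ s y) (∫ y in D, Φ' t y) t := by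
  obtain ⟨C, hC⟩ := (isCompact_Icc.prod hD.isCompact_closure).exists_bound_of_continuousOn
    (hc'.mono (prod_mono subset_rfl (subset_univ _)))
  have hfin : IsFiniteMeasure (volume.restrict D) := isFiniteMeasure_restrict.2 hD.measure_lt_top.ne
  have hs : Ioo a b ∈ 𝓝 t := isOpen_Ioo.mem_nhds ht
  have ht' : t ∈ Icc a b := Ioo_subset_Icc_self ht
  refine (hasDerivAt_integral_of_dominated_loc_of_deriv_le (μ := volume.restrict D) (F := Φ) (F' := Φ')
    (x₀ := t) (bound := fun _ => C) (s := Ioo a b) hs ?_ ?_ ?_ ?_ (integrable_const C) ?_).2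
  · filter_upwards [hs] with s hs'
    exact (HHt_cont_slice hc (Ioo_subset_Icc_self hs')).aestronglyMeasurable
  · exact ((HHt_cont_slice hc ht').continuousOn.integrableOn_compact
      hD.isCompact_closure).mono_set subset_closure
  · exact (HHt_cont_slice hc' ht').aestronglyMeasurable
  · exact (ae_restrict_iff' hm).2 (Eventually.of_forall fun y hy s hs' =>
      hC (s, y) ⟨Ioo_subset_Icc_self hs', subset_closure hy⟩)
  · exact Eventually.of_forall fun y s hs' =>
      (hd s (Ioo_subset_Icc_self hs') y).hasDerivAt (Icc_mem_nhds hs'.1 hs'.2)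

theorem integrableOn_of_continuous {E : Type} [NormedAddCommGroup E] {D : Set R12}
    (hD : Bornology.IsBounded D) {F : R12 → E} (hF : Continuous F) : IntegrableOn F D := by
  exact (hF.continuousOn.integrableOn_compact hD.isCompact_closure).mono_set subset_closure

end

end Crest.Agent.R086.E
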