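import Crest.Agent.R086.E.HHb
import Crest.Agent.R086.E.HHt

open MeasureTheory Set Filter Topology
open scoped ContDiff ComplexConjugate ENNReal
open Crest.AnalysisR.PDE.NLS

namespace Crest.Agent.R086.E

noncomputable section

/-! # Integration by parts -/

private theorem h69_cB {j : ℕ} {f : R12 → ℂ} (hf : ContDiff ℝ (j + 2 : ℕ) f) (l : Fin 12) :
    ContDiff ℝ 1 (BB j (pd l f) f) :=
  contDiff_BB j 1 (contDiff_pd (k := j + 1) hf l) (hf.of_le (by exact_mod_cast Nat.le_succ (j + 1)))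

private theorem h69_cCross (h θ : ℝ) {τ : ℝ} (hτ : 0 < τ) {j : ℕ} {f : R12 → ℂ}
    (hf : ContDiff ℝ (j + 2 : ℕ) f) : Continuous fun y : R12 => ∑ l : Fin 12,
        pd l (fun y : R12 => (((1 + PP h y / τ) ^ θ : ℝ) : ℂ)) y * BB j (pd l f) f y :=
  continuous_finsetSum _ fun l _ =>
    (contDiff_pd_infty (contDiff_weight h θ hτ) l).continuous.mul (h69_cB hf l).continuous

private theorem h69_cLap {j : ℕ} {f : R12 → ℂ} (hf : ContDiff ℝ (j + 2 : ℕ) f) :
    Continuous (BB j (lap f) f) :=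
  (contDiff_BB j 0 (contDiff_lap hf) (hf.of_le (by exact_mod_cast Nat.le_add_right j 2))).continuous

private theorem h69_cHH {j : ℕ} {f : R12 → ℂ} (hf : ContDiff ℝ (j + 2 : ℕ) f) :
    Continuous (HH (j + 1) f) :=
  Complex.continuous_re.comp (contDiff_BB (j + 1) 0
    (hf.of_le (by exact_mod_cast Nat.le_succ (j + 1)))
    (hf.of_le (by exact_mod_cast Nat.le_succ (j + 1)))).continuous

private theorem h69_cMain (h θ : ℝ) {τ : ℝ} (hτ : 0 < τ) {j : ℕ} {f : R12 → ℂ}
    (hf : ContDiff ℝ (j + 2 : ℕ) f) : Continuous fun y : R12 =>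
      (((1 + PP h y / τ) ^ θ : ℝ) : ℂ) * (BB j (lap f) f y + (HH (j + 1) f y : ℂ)) :=
  (contDiff_weight h θ hτ).continuous.mul
    ((h69_cLap hf).add (Complex.continuous_ofReal.comp (h69_cHH hf)))

/-- product rule, `sum_pd_BB`, `SDom.div` -/
theorem ibp {h : ℝ} {D : Set R12} {k : ℕ} {f : R12 → ℂ} (hD : SDom h D k f) {j : ℕ} (hj : j ≤ k)
    (hf : ContDiff ℝ (j + 2 : ℕ) f) (θ : ℝ) {τ : ℝ} (hτ : 0 < τ) :
    ∫ y in D, (((1 + PP h y / τ) ^ θ : ℝ) : ℂ) * (BB j (lap f) f y + (HH (j + 1) f y : ℂ)) =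
      -∫ y in D, ∑ l : Fin 12,
        pd l (fun y : R12 => (((1 + PP h y / τ) ^ θ : ℝ) : ℂ)) y * BB j (pd l f) f y := by
  have hW := contDiff_weight h θ hτ
  have hW1 : Differentiable ℝ (fun y : R12 => (((1 + PP h y / τ) ^ θ : ℝ) : ℂ)) :=
    hW.differentiable (by simp)
  have hB : ∀ l, Differentiable ℝ (BB j (pd l f) f) := fun l =>
    (h69_cB hf l).differentiable one_ne_zero
  have hc : ∀ l : Fin 12, Continuous
      (pd l (fun y => (((1 + PP h y / τ) ^ θ : ℝ) : ℂ) * BB j (pd l f) f y)) := fun l =>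
    (contDiff_pd (k := 0) ((hW.of_le (by simp)).mul (by simpa using h69_cB hf l)) l).continuous
  have h0 : ∫ y in D, ∑ l : Fin 12,
      pd l (fun y => (((1 + PP h y / τ) ^ θ : ℝ) : ℂ) * BB j (pd l f) f y) y = 0 := by
    rw [integral_finsetSum _ fun l _ => integrableOn_of_continuous hD.bdd (hc l)]
    exact Finset.sum_eq_zero fun l _ => hD.div j hj θ τ hτ l
  rw [eq_neg_iff_add_eq_zero, ← integral_add (integrableOn_of_continuous hD.bdd (h69_cMain h θ hτ hf))
    (integrableOn_of_continuous hD.bdd (h69_cCross h θ hτ hf)), ← h0]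
  refine integral_congr_ae (Eventually.of_forall fun y => ?_)
  simp only [pd_mul hW1 (hB _), Finset.sum_add_distrib, ← Finset.mul_sum, sum_pd_BB j hf]
  ring

/-- `norm_pd_weight_le`, `norm_BB_le`, `NN_pd_le` -/
theorem cross_le (h θ : ℝ) {τ : ℝ} (hτ : 0 < τ) (j : ℕ) (f : R12 → ℂ) (y : R12) :
    τ ^ (j + 1) * ‖∑ l : Fin 12,
        pd l (fun y : R12 => (((1 + PP h y / τ) ^ (2 * θ) : ℝ) : ℂ)) y * BB j (pd l f) f y‖ ≤
      48 * |θ| * (XN h τ θ j f y * XN h τ (θ - 1 / 2) (j + 1) f y) := by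
  have hρ : 0 < 1 + PP h y / τ := zero_lt_one.trans_le (one_le_rho h hτ y)
  have hs := Real.sqrt_pos.2 hτ
  have h1 : ‖∑ l : Fin 12,
        pd l (fun y : R12 => (((1 + PP h y / τ) ^ (2 * θ) : ℝ) : ℂ)) y * BB j (pd l f) f y‖ ≤
      12 * ((2 * |2 * θ| * (1 + PP h y / τ) ^ (2 * θ - 1 / 2) / Real.sqrt τ) *
        (NN (j + 1) f y * NN j f y)) := by
    refine (norm_sum_le _ _).trans ((Finset.sum_le_card_nsmul _ _ _ fun l _ => ?_).trans
      (le_of_eq (by rw [Finset.card_univ, Fintype.card_fin, nsmul_eq_mul, Nat.cast_ofNat])))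
    rw [norm_mul]
    refine mul_le_mul (norm_pd_weight_le h (2 * θ) hτ l y) ((norm_BB_le _ _ _ _).trans
      (mul_le_mul_of_nonneg_right (NN_pd_le _ _ _ _) (NN_nonneg _ _ _))) (norm_nonneg _) ?_
    have := Real.rpow_nonneg hρ.le (2 * θ - 1 / 2)
    positivity
  refine (mul_le_mul_of_nonneg_left h1 (by positivity)).trans (le_of_eq ?_)
  have e1 : (1 + PP h y / τ) ^ (2 * θ - 1 / 2) =
      (1 + PP h y / τ) ^ θ * (1 + PP h y / τ) ^ (θ - 1 / 2) := by
    rw [← Real.rpow_add hρ]; congr 1; ring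
  have e2 : τ ^ (j + 1) = Real.sqrt τ ^ j * Real.sqrt τ ^ (j + 1) * Real.sqrt τ := by
    conv_lhs => rw [← Real.sq_sqrt hτ.le]
    ring
  rw [e1, e2, abs_mul, XN, XN, abs_two]
  field_simp
  ring

private theorem h69_cXX (h θ θ' : ℝ) {τ : ℝ} (hτ : 0 < τ) {j : ℕ} {f : R12 → ℂ}
    (hf : ContDiff ℝ (j + 2 : ℕ) f) {a b : ℕ} (ha : a ≤ j + 2) (hb : b ≤ j + 2) :
    Continuous fun y => XN h τ θ a f y * XN h τ θ' b f y :=
  (continuous_XN h θ hτ a (hf.of_le (by exact_mod_cast ha))).mul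
    (continuous_XN h θ' hτ b (hf.of_le (by exact_mod_cast hb)))

private theorem h69_norm_ibp {h : ℝ} {D : Set R12} {k : ℕ} {f : R12 → ℂ} (hD : SDom h D k f) {j : ℕ}
    (hj : j ≤ k) (hf : ContDiff ℝ (j + 2 : ℕ) f) (θ : ℝ) {τ : ℝ} (hτ : 0 < τ) :
    τ ^ (j + 1) * ‖∫ y in D, (((1 + PP h y / τ) ^ (2 * θ) : ℝ) : ℂ) *
        (BB j (lap f) f y + (HH (j + 1) f y : ℂ))‖ ≤
      ∫ y in D, 48 * |θ| * (XN h τ θ j f y * XN h τ (θ - 1 / 2) (j + 1) f y) := by
  rw [ibp hD hj hf (2 * θ) hτ, norm_neg]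
  refine (mul_le_mul_of_nonneg_left (norm_integral_le_integral_norm _) (by positivity)).trans ?_
  rw [← integral_const_mul]
  refine integral_mono ?_ ?_ fun y => cross_le h θ hτ j f y
  · exact integrableOn_of_continuous hD.bdd (continuous_const.mul (h69_cCross h _ hτ hf).norm)
  · exact integrableOn_of_continuous hD.bdd
      (continuous_const.mul (h69_cXX h _ _ hτ hf (by omega) (by omega)))

/-- imaginary part of `ibp` -/
theorem im_lap_le {h : ℝ} {D : Set R12} {k : ℕ} {f : R12 → ℂ} (hD : SDom h D k f) {j : ℕ} (hj : j ≤ k)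
    (hf : ContDiff ℝ (j + 2 : ℕ) f) (θ : ℝ) {τ : ℝ} (hτ : 0 < τ) :
    |∫ y in D, τ ^ (j + 1) * (1 + PP h y / τ) ^ (2 * θ) * (BB j (lap f) f y).im| ≤
      ∫ y in D, 48 * |θ| * (XN h τ θ j f y * XN h τ (θ - 1 / 2) (j + 1) f y) := by
  refine le_trans ?_ (h69_norm_ibp hD hj hf θ hτ)
  have hi := integrableOn_of_continuous hD.bdd (h69_cMain h (2 * θ) hτ hf)
  have e := integral_im hi
  simp only [RCLike.im_to_complex] at e
  refine le_trans (le_of_eq ?_)
    (mul_le_mul_of_nonneg_left (Complex.abs_im_le_norm _) (by positivity))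
  rw [← e]
  simp only [mul_assoc]
  rw [integral_const_mul, abs_mul, abs_of_nonneg (by positivity)]
  congr 3
  funext y
  simp only [Complex.im_ofReal_mul, Complex.add_im, Complex.ofReal_im, add_zero]

/-- real part of `ibp` with θ = -14: m_{j+1} ≤ ∫ 12 y_{j+2} y_j + 336 y_j y_{j+1} (`NN_lap_le`, `XN_mono`),
then Young -/
theorem interp_step {h : ℝ} {D : Set R12} {k : ℕ} {f : R12 → ℂ} (hD : SDom h D k f) {j : ℕ} (hj : j ≤ k)
    (hf : ContDiff ℝ (j + 2 : ℕ) f) {τ : ℝ} (hτ : 0 < τ) {η : ℝ} (hη : 0 < η) (hη1 : η ≤ 1) :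
    II D h τ (-7) (j + 1) f ≤ η * II D h τ (-7) (j + 2) f + 200000 / η * II D h τ (-7) j f := by
  have h1 := h69_norm_ibp hD hj hf (-7) hτ
  have hi := integrableOn_of_continuous hD.bdd (h69_cMain h (2 * (-7)) hτ hf)
  have e := integral_re hi
  simp only [RCLike.re_to_complex] at e
  have h2 := (mul_le_mul_of_nonneg_left ((le_abs_self _).trans (Complex.abs_re_le_norm _))
    (by positivity : 0 ≤ τ ^ (j + 1))).trans h1
  rw [← e, ← integral_const_mul] at h2
  have cX : ∀ a : ℕ, a ≤ j + 2 → IntegrableOn (fun y => XN h τ (-7) a f y ^ 2) D := fun a ha =>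
    integrableOn_of_continuous hD.bdd
      ((continuous_XN h _ hτ a (hf.of_le (by exact_mod_cast ha))).pow 2)
  have i0 := cX j (by omega)
  have i1 := cX (j + 1) (by omega)
  have i2 := cX (j + 2) le_rfl
  -- left side from below
  have h3 : II D h τ (-7) (j + 1) f - (η / 2 * II D h τ (-7) (j + 2) f + 72 / η * II D h τ (-7) j f) ≤
      ∫ y in D, τ ^ (j + 1) * ((((1 + PP h y / τ) ^ (2 * (-7) : ℝ) : ℝ) : ℂ) *
        (BB j (lap f) f y + (HH (j + 1) f y : ℂ))).re := by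
    have i3 : IntegrableOn (fun y => η / 2 * XN h τ (-7) (j + 2) f y ^ 2 +
        72 / η * XN h τ (-7) j f y ^ 2) D := (i2.const_mul _).add (i0.const_mul _)
    rw [II, II, II, ← integral_const_mul, ← integral_const_mul,
      ← integral_add (i2.const_mul _) (i0.const_mul _), ← integral_sub i1 i3]
    refine integral_mono (i1.sub i3)
      (integrableOn_of_continuous hD.bdd
        (continuous_const.mul (Complex.continuous_re.comp (h69_cMain h _ hτ hf)))) fun y => ?_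
    have hρ : 0 < 1 + PP h y / τ := zero_lt_one.trans_le (one_le_rho h hτ y)
    have hw := Real.rpow_nonneg hρ.le (2 * (-7))
    simp only [Complex.re_ofReal_mul, Complex.add_re, Complex.ofReal_re, Pi.add_apply]
    have hb : -(BB j (lap f) f y).re ≤ 12 * NN (j + 2) f y * NN j f y :=
      ((neg_le_abs _).trans (Complex.abs_re_le_norm _)).trans ((norm_BB_le _ _ _ _).trans
        (mul_le_mul_of_nonneg_right (NN_lap_le j hf y) (NN_nonneg _ _ _)))
    have hx : XN h τ (-7) (j + 2) f y * XN h τ (-7) j f y =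
        τ ^ (j + 1) * (1 + PP h y / τ) ^ (2 * (-7) : ℝ) * (NN (j + 2) f y * NN j f y) := by
      have e2 : τ ^ (j + 1) = Real.sqrt τ ^ (j + 2) * Real.sqrt τ ^ j := by
        conv_lhs => rw [← Real.sq_sqrt hτ.le]
        ring
      rw [e2, two_mul, Real.rpow_add hρ, XN, XN]
      ring
    have hy : 12 * (XN h τ (-7) (j + 2) f y * XN h τ (-7) j f y) ≤
        η / 2 * XN h τ (-7) (j + 2) f y ^ 2 + 72 / η * XN h τ (-7) j f y ^ 2 := by
      have : 0 ≤ (η * XN h τ (-7) (j + 2) f y - 12 * XN h τ (-7) j f y) ^ 2 / (2 * η) := by positivity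
      refine le_of_sub_nonneg (this.trans_eq ?_)
      field_simp
      ring
    have hz := mul_le_mul_of_nonneg_left hb
      (by positivity : 0 ≤ τ ^ (j + 1) * (1 + PP h y / τ) ^ (2 * (-7) : ℝ))
    rw [XN_sq h (-7) hτ (j + 1)]
    rw [hx] at hy
    linarith
  -- right side from above
  have h4 : ∫ y in D, 48 * |(-7 : ℝ)| * (XN h τ (-7) j f y * XN h τ (-7 - 1 / 2) (j + 1) f y) ≤
      1 / 2 * II D h τ (-7) (j + 1) f + 56448 * II D h τ (-7) j f := by
    rw [II, II, ← integral_const_mul, ← integral_const_mul,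
      ← integral_add (i1.const_mul _) (i0.const_mul _)]
    refine integral_mono (integrableOn_of_continuous hD.bdd
      (continuous_const.mul (h69_cXX h _ _ hτ hf (by omega) (by omega))))
      ((i1.const_mul _).add (i0.const_mul _)) fun y => ?_
    have hm := mul_le_mul_of_nonneg_left
      (XN_mono h (by norm_num : (-7 - 1 / 2 : ℝ) ≤ -7) hτ (j + 1) f y) (XN_nonneg h (-7) hτ j f y)
    have ha : |(-7 : ℝ)| = 7 := by norm_num
    simp only [ha]
    nlinarith [sq_nonneg (XN h τ (-7) (j + 1) f y - 336 * XN h τ (-7) j f y)]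
  have h5 : 0 ≤ II D h τ (-7) j f := integral_nonneg fun y => sq_nonneg _
  have h6 : 2 * (72 / η) + 2 * 56448 ≤ 200000 / η := by
    rw [le_div_iff₀ hη]
    have : 72 / η * η = 72 := div_mul_cancel₀ _ hη.ne'
    nlinarith
  nlinarith [mul_le_mul_of_nonneg_right h6 h5]

theorem II_nonneg (D : Set R12) (h τ θ : ℝ) (j : ℕ) (f : R12 → ℂ) : 0 ≤ II D h τ θ j f := by
  exact integral_nonneg fun y => sq_nonneg _

theorem II_mono {D : Set R12} (hm : MeasurableSet D) (hD : Bornology.IsBounded D) (h : ℝ) {τ θ θ' : ℝ}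
    (hτ : 0 < τ) (hθ : θ ≤ θ') {j : ℕ} {f : R12 → ℂ} (hf : ContDiff ℝ j f) :
    II D h τ θ j f ≤ II D h τ θ' j f := by
  exact integral_mono (integrableOn_of_continuous hD ((continuous_XN h θ hτ j hf).pow 2))
    (integrableOn_of_continuous hD ((continuous_XN h θ' hτ j hf).pow 2))
    fun y => pow_le_pow_left₀ (XN_nonneg h θ hτ j f y) (XN_mono h hθ hτ j f y) 2

end

end Crest.Agent.R086.E
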