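import Crest.Agent.R086.E.EnIBP

open MeasureTheory Set Filter Topology
open scoped ContDiff ComplexConjugate ENNReal
open Crest.AnalysisR.PDE.NLS

namespace Crest.Agent.R086.E

noncomputable section

/-! # The static estimate at level j -/

theorem EnPt_term {σ ρ M N a : ℝ} (hσ : 0 < σ) (hρ : 1 ≤ ρ) (hM : 0 ≤ M) (hN : 0 ≤ N) {i j : ℕ}
    (hij : i ≤ j) (ha : a ≤ M * σ⁻¹ ^ (j - i + 2) * ρ ^ (-1 - ((j - i : ℕ) : ℝ) / 2)) :
    σ ^ 2 * (σ ^ j * ρ ^ (ew j / 2)) * (a * N) ≤ M * (σ ^ i * ρ ^ (ew i / 2) * N / ρ) := by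
  have h0 : 0 < ρ := by linarith
  obtain ⟨d, rfl⟩ := Nat.exists_eq_add_of_le hij
  rw [Nat.add_sub_cancel_left] at ha
  have h1 : ρ ^ (ew (i + d) / 2) * ρ ^ (-1 - (d : ℝ) / 2) ≤ ρ ^ (ew i / 2) / ρ := by
    rw [← Real.rpow_add h0, ← Real.rpow_sub_one h0.ne']
    refine Real.rpow_le_rpow_of_exponent_le hρ ?_
    have := ew_le_add hij
    push_cast at this
    linarith
  calc _ ≤ σ ^ 2 * (σ ^ (i + d) * ρ ^ (ew (i + d) / 2)) *
        (M * σ⁻¹ ^ (d + 2) * ρ ^ (-1 - (d : ℝ) / 2) * N) := by gcongr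
    _ = M * σ ^ i * N * (ρ ^ (ew (i + d) / 2) * ρ ^ (-1 - (d : ℝ) / 2)) := by
        rw [inv_pow]
        field_simp
        ring
    _ ≤ M * σ ^ i * N * (ρ ^ (ew i / 2) / ρ) := by gcongr
    _ = _ := by ring

theorem EnPt_conj {k : ℕ} {f : R12 → ℂ} (hf : ContDiff ℝ k f) :
    ContDiff ℝ k (fun y => conj (f y)) :=
  Complex.conjCLE.contDiff.comp hf

/-- `norm_BB_le`, `NN_add_le`, `NN_mul_le`, `NN_conj`, `NN_const_mul`; for i<j
τ^{j+1} ρ^{e_j} (√τ)^{-(j-i+2)} ρ^{-1-(j-i)/2} N_i N_j ≤ x_i x_j/ρ by `ew_le_add` -/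
theorem pot_le (k : ℕ) {M : ℝ} (hM : 0 ≤ M) : ∃ K : ℝ, 0 < K ∧ ∀ (M₀ h τ : ℝ) (A₁ A₂ f S : R12 → ℂ),
    0 < τ → Coef k M₀ M h τ A₁ A₂ → ContDiff ℝ k f → ContDiff ℝ k S → ∀ j : ℕ, j ≤ k → ∀ y,
      τ ^ (j + 1) * (1 + PP h y / τ) ^ ew j *
          ‖BB j (fun y => A₁ y * f y + A₂ y * conj (f y) + S y) f y‖ ≤
        M₀ * XN h τ (ew j / 2) j f y ^ 2 / (1 + PP h y / τ)
        + K * (∑ i ∈ Finset.range j, XN h τ (ew i / 2) i f y * XN h τ (ew j / 2) j f y) / (1 + PP h y / τ)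
        + XN h τ (ew j / 2) j (fun y => (τ : ℂ) * S y) y * XN h τ (ew j / 2) j f y := by
  obtain ⟨K, hK, H⟩ := NN_mul_le k
  refine ⟨2 * K * M + 1, by positivity, fun M₀ h τ A₁ A₂ f S hτ hc hf hS j hj y => ?_⟩
  have hj' : (j : WithTop ℕ∞) ≤ k := by exact_mod_cast hj
  have a1 := hc.d1.of_le hj'
  have a2 := hc.d2.of_le hj'
  have f1 := hf.of_le hj'
  have f2 := EnPt_conj f1
  have s1 := hS.of_le hj'
  have hρ := one_le_rho h hτ y
  have hσ := Real.sqrt_pos.2 hτ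
  have hτσ := Real.sq_sqrt hτ.le
  have b1 := H j hj A₁ f a1 f1 y
  have b2 := H j hj A₂ _ a2 f2 y
  simp only [NN_conj] at b2
  have b3 := (NN_add_le j ((a1.mul f1).add (a2.mul f2)) s1 y).trans
    (add_le_add_left (NN_add_le j (a1.mul f1) (a2.mul f2) y) _)
  have b4 := hc.top y
  have b5 := norm_BB_le j (fun y => A₁ y * f y + A₂ y * conj (f y) + S y) f y
  have c1 := fun i (hi : i ∈ Finset.range j) => EnPt_term hσ hρ hM (NN_nonneg i f y)
    (Finset.mem_range.1 hi).le (hc.b1 (j - i) (by omega) y)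
  have c2 := fun i (hi : i ∈ Finset.range j) => EnPt_term hσ hρ hM (NN_nonneg i f y)
    (Finset.mem_range.1 hi).le (hc.b2 (j - i) (by omega) y)
  have c3 := Finset.sum_le_sum c1
  have c4 := Finset.sum_le_sum c2
  rw [← Finset.mul_sum, ← Finset.mul_sum, ← Finset.sum_div] at c3 c4
  have c5 : 0 ≤ ∑ i ∈ Finset.range j, XN h τ (ew i / 2) i f y :=
    Finset.sum_nonneg fun i _ => XN_nonneg h _ hτ i f y
  rw [← Finset.sum_mul]
  simp only [XN, NN_const_mul j _ s1, Complex.norm_real, Real.norm_of_nonneg hτ.le] at c5 ⊢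
  have hN := NN_nonneg j f y
  generalize NN j f y = N at *
  generalize 1 + PP h y / τ = ρ at *
  generalize ∑ i ∈ Finset.range j, √τ ^ i * ρ ^ (ew i / 2) * NN i f y = T at *
  have h0 : 0 < ρ := by linarith
  have e1 : τ ^ (j + 1) * ρ ^ ew j = τ * (√τ ^ j * ρ ^ (ew j / 2)) ^ 2 := by
    rw [mul_pow, ← pow_mul, mul_comm j 2, pow_mul, hτσ, ← Real.rpow_mul_natCast h0.le]
    simp only [Nat.cast_ofNat, div_mul_cancel₀ _ (two_ne_zero' ℝ)]
    ring
  rw [e1]
  rw [hτσ] at c3 c4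
  have hw : 0 < √τ ^ j * ρ ^ (ew j / 2) := by positivity
  generalize √τ ^ j * ρ ^ (ew j / 2) = w at *
  have d1 : τ * w * ((‖A₁ y‖ + ‖A₂ y‖) * N) ≤ M₀ * (w * N) / ρ :=
    (mul_le_mul_of_nonneg_left (mul_le_mul_of_nonneg_right b4 hN) (by positivity)).trans
      (le_of_eq (by field_simp))
  have d2 : τ * w * NN j (fun y => A₁ y * f y + A₂ y * conj (f y) + S y) y ≤
      M₀ * (w * N) / ρ + (2 * K * M + 1) * T / ρ + w * (τ * NN j S y) := by
    have d3 := mul_le_mul_of_nonneg_left (b3.trans (add_le_add_left (add_le_add b1 b2) _))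
      (show 0 ≤ τ * w by positivity)
    have d4 := mul_le_mul_of_nonneg_left (add_le_add c3 c4) hK.le
    have d5 : 0 ≤ T / ρ := by positivity
    rw [mul_div_assoc _ T]
    nlinarith
  calc _ ≤ τ * w ^ 2 * (NN j (fun y => A₁ y * f y + A₂ y * conj (f y) + S y) y * N) := by gcongr
    _ = τ * w * NN j (fun y => A₁ y * f y + A₂ y * conj (f y) + S y) y * (w * N) := by ring
    _ ≤ (M₀ * (w * N) / ρ + (2 * K * M + 1) * T / ρ + w * (τ * NN j S y)) * (w * N) := by gcongr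
    _ = _ := by ring

/-- 2 Re BB(i(Δf - W), f) = -2 Im BB(Δf, f) + 2 Im BB(W, f); `im_lap_le` with θ = e_j/2 (`ew_succ_ge`,
`XN_mono`), `pot_le`; all integrands are continuous, hence integrable on D -/
theorem static_le (k : ℕ) {M : ℝ} (hM : 0 ≤ M) : ∃ K : ℝ, 0 < K ∧
    ∀ (a M₀ h τ : ℝ) (D : Set R12) (A₁ A₂ f S : R12 → ℂ), 0 < τ → Coef k M₀ M h τ A₁ A₂ →
      ContDiff ℝ (k + 2 : ℕ) f → ContDiff ℝ k S → SDom h D k f → ∀ j : ℕ, j ≤ k →
      ∫ y in D, ((6 - j - 2 * a + ew j * (1 - 1 / (1 + PP h y / τ))) * XN h τ (ew j / 2) j f y ^ 2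
          + τ ^ (j + 1) * (1 + PP h y / τ) ^ ew j * (2 * (BB j (fun y => Complex.I *
            (lap f y - (A₁ y * f y + A₂ y * conj (f y) + S y))) f y).re)) ≤
        ∫ y in D, TT a M₀ K (1 + PP h y / τ) (fun i => XN h τ (ew i / 2) i f y)
          (fun i => XN h τ (ew i / 2) i (fun y => (τ : ℂ) * S y) y) j := by
  obtain ⟨K, hK, H⟩ := pot_le k hM
  refine ⟨48 + 2 * K, by positivity, fun a M₀ h τ D A₁ A₂ f S hτ hc hf hS hD j hj => ?_⟩
  have hj' : (j : WithTop ℕ∞) ≤ k := by exact_mod_cast hj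
  have f0 : ∀ i : ℕ, i ≤ k + 2 → ContDiff ℝ i f := fun i hi => hf.of_le (by exact_mod_cast hi)
  have f1 := f0 j (by omega)
  have s1 := hS.of_le hj'
  have l1 : ContDiff ℝ j (lap f) := contDiff_lap (f0 (j + 2) (by omega))
  have w1 : ContDiff ℝ j (fun y => A₁ y * f y + A₂ y * conj (f y) + S y) :=
    (((hc.d1.of_le hj').mul f1).add ((hc.d2.of_le hj').mul (EnPt_conj f1))).add s1
  have hI := (abs_le.1 (im_lap_le hD hj (f0 (j + 2) (by omega)) (ew j / 2) hτ)).1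
  rw [mul_div_cancel₀ _ (two_ne_zero' ℝ)] at hI
  have hρ := one_le_rho h hτ
  have hρ0 : ∀ y, 1 + PP h y / τ ≠ 0 := fun y => (one_pos.trans_le (hρ y)).ne'
  have c0 : Continuous fun y => 1 + PP h y / τ :=
    continuous_const.add ((contDiff_PP h).continuous.div_const τ)
  have c1 : Continuous fun y => (1 + PP h y / τ) ^ ew j := c0.rpow_const fun y => Or.inl (hρ0 y)
  have c2 : Continuous fun y => 1 / (1 + PP h y / τ) := continuous_const.div c0 hρ0
  have c3 := fun (θ : ℝ) (i : ℕ) (hi : i ≤ k + 2) => continuous_XN h θ hτ i (f0 i hi)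
  have c4 := c3 (ew j / 2) j (by omega)
  have c5 := (contDiff_BB j 0 l1 f1).continuous
  have c6 := (contDiff_BB j 0 w1 f1).continuous
  have c7 := c3 (ew j / 2 - 1 / 2) (j + 1) (by omega)
  have c8 := c3 (ew (j + 1) / 2) (j + 1) (by omega)
  have c9 := continuous_XN h (ew j / 2) hτ j ((contDiff_const (c := (τ : ℂ))).mul s1)
  have c10 : Continuous fun y => ∑ i ∈ Finset.range j,
      XN h τ (ew i / 2) i f y * XN h τ (ew j / 2) j f y :=
    continuous_finsetSum _ fun i hi => (c3 _ i (by have := Finset.mem_range.1 hi; omega)).mul c4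
  have i1 : IntegrableOn (fun y => (6 - j - 2 * a + ew j * (1 - 1 / (1 + PP h y / τ))) *
      XN h τ (ew j / 2) j f y ^ 2 + τ ^ (j + 1) * (1 + PP h y / τ) ^ ew j *
        (2 * (BB j (fun y => A₁ y * f y + A₂ y * conj (f y) + S y) f y).im)) D :=
    integrableOn_of_continuous hD.bdd (by fun_prop)
  have i2 : IntegrableOn (fun y => τ ^ (j + 1) * (1 + PP h y / τ) ^ ew j *
      (BB j (lap f) f y).im) D := integrableOn_of_continuous hD.bdd (by fun_prop)
  have i3 : IntegrableOn (fun y => 48 * |ew j / 2| * (XN h τ (ew j / 2) j f y *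
      XN h τ (ew j / 2 - 1 / 2) (j + 1) f y)) D := integrableOn_of_continuous hD.bdd (by fun_prop)
  have i4 : IntegrableOn (fun y => TT a M₀ (48 + 2 * K) (1 + PP h y / τ)
      (fun i => XN h τ (ew i / 2) i f y)
      (fun i => XN h τ (ew i / 2) i (fun y => (τ : ℂ) * S y) y) j) D := by
    refine integrableOn_of_continuous hD.bdd ?_
    simp only [TT]
    fun_prop (disch := exact hρ0)
  have e1 := (integral_sub i1 (i2.const_mul 2)).symm
  have e2 := integral_mono (i1.add (i3.const_mul 2)) i4 fun y => by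
    have p1 := H M₀ h τ A₁ A₂ f S hτ hc (f0 k (by omega)) hS j hj y
    have p2 := (le_abs_self _).trans
      (Complex.abs_im_le_norm (BB j (fun y => A₁ y * f y + A₂ y * conj (f y) + S y) f y))
    have p3 := mul_le_mul_of_nonneg_left p2
      (show 0 ≤ τ ^ (j + 1) * (1 + PP h y / τ) ^ ew j by have := hρ y; positivity)
    have p4 := XN_mono h (show ew j / 2 - 1 / 2 ≤ ew (j + 1) / 2 by linarith [ew_succ_ge j]) hτ
      (j + 1) f y
    have p5 := XN_nonneg h (ew j / 2) hτ j f y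
    have p6 := mul_le_mul_of_nonneg_left (mul_le_mul_of_nonneg_left p4 p5) (abs_nonneg (ew j))
    have p7 : 0 ≤ K * |ew j| * (XN h τ (ew j / 2) j f y * XN h τ (ew (j + 1) / 2) (j + 1) f y) :=
      mul_nonneg (by positivity) (mul_nonneg p5 (XN_nonneg h _ hτ _ f y))
    have p8 : 0 ≤ (∑ i ∈ Finset.range j, XN h τ (ew i / 2) i f y * XN h τ (ew j / 2) j f y) /
        (1 + PP h y / τ) := div_nonneg
      (Finset.sum_nonneg fun i _ => mul_nonneg (XN_nonneg h _ hτ i f y) p5) (by linarith [hρ y])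
    simp only [TT, Pi.add_apply, abs_div, abs_two, mul_div_assoc] at p1 ⊢
    linarith
  simp only [Pi.add_apply] at e2
  rw [integral_add i1 (i3.const_mul 2), integral_const_mul] at e2
  rw [integral_const_mul] at e1
  refine le_trans (le_of_eq (integral_congr_ae (Eventually.of_forall fun y => ?_)))
    (e1.symm.le.trans (by linarith))
  simp only [BB_const_mul_left j _ (l1.sub w1), BB_sub_left j l1 w1, Complex.mul_re, Complex.I_re,
    Complex.I_im, Complex.sub_im]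
  ring

end

end Crest.Agent.R086.E
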