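import Crest.Agent.R086.E.EnPt
import Crest.Agent.R086.E.EnAlg

open MeasureTheory Set Filter Topology
open scoped ContDiff ComplexConjugate ENNReal
open Crest.AnalysisR.PDE.NLS

namespace Crest.Agent.R086.E

noncomputable section

/-! # The static estimate, summed -/

/-- `static_le`, integrate `alg_main` over D (ρ^{-14-e_j} x_j² = (XN (-7) j)²), `interp_seq` with
`interp_step` and ε = a c_k/(2C), and II (-7) k ≤ II (e_k/2) k (`II_mono`) -/
theorem static_sum {a M₀ M : ℝ} (ha : 0 < a) (hM₀ : 0 ≤ M₀) (hM : 0 ≤ M) {k : ℕ} (hk : 74 ≤ k)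
    (hk' : 6 + 2 * M₀ ≤ k) : ∃ (c : ℕ → ℝ) (C : ℝ), 0 < C ∧ (∀ j, 0 < c j ∧ c j ≤ 1) ∧
    ∀ (h τ : ℝ) (D : Set R12) (A₁ A₂ f S : R12 → ℂ), 0 < τ → Coef k M₀ M h τ A₁ A₂ →
      ContDiff ℝ (k + 2 : ℕ) f → ContDiff ℝ k S → SDom h D k f →
      ∑ j ∈ Finset.range (k + 1), c j *
        ∫ y in D, ((6 - j - 2 * a + ew j * (1 - 1 / (1 + PP h y / τ))) * XN h τ (ew j / 2) j f y ^ 2
          + τ ^ (j + 1) * (1 + PP h y / τ) ^ ew j * (2 * (BB j (fun y => Complex.I *
            (lap f y - (A₁ y * f y + A₂ y * conj (f y) + S y))) f y).re)) ≤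
        -(a / 2) * ∑ j ∈ Finset.range (k + 1), c j * II D h τ (ew j / 2) j f
          + C * II D h τ (-7) 0 f
          + C * ∑ j ∈ Finset.range (k + 1), II D h τ (ew j / 2) j (fun y => (τ : ℂ) * S y) := by
  obtain ⟨K, hK, h1⟩ := static_le k hM
  obtain ⟨c, C, hC, hc, h2⟩ := alg_main ha hM₀ hK.le hk hk'
  obtain ⟨C', hC', h3⟩ := interp_seq (K := 200000) (by norm_num) k (ε := a * c k / (2 * C))
    (by have := (hc k).1; positivity)
  refine ⟨c, C * C' + C, by positivity, hc, fun h τ D A₁ A₂ f S hτ hA hf hS hD => ?_⟩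
  have df : ∀ j : ℕ, j ≤ k + 2 → ContDiff ℝ j f := fun j hj => hf.of_le (by exact_mod_cast hj)
  have cx : ∀ θ, ∀ j : ℕ, j ≤ k + 2 → Continuous (XN h τ θ j f) := fun θ j hj =>
    continuous_XN h θ hτ j (df j hj)
  have cs : ∀ θ, ∀ j : ℕ, j ≤ k → Continuous (XN h τ θ j fun y => (τ : ℂ) * S y) := fun θ j hj =>
    continuous_XN h θ hτ j (contDiff_const.mul (hS.of_le (by exact_mod_cast hj)))
  have cρ : Continuous fun y => 1 + PP h y / τ :=
    continuous_const.add ((contDiff_PP h).continuous.div_const τ)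
  have ρ0 : ∀ y, 0 < 1 + PP h y / τ := fun y => one_pos.trans_le (one_le_rho h hτ y)
  have cT : ∀ j ∈ Finset.range (k + 1), Continuous fun y => c j * TT a M₀ K (1 + PP h y / τ)
      (fun i => XN h τ (ew i / 2) i f y)
      (fun i => XN h τ (ew i / 2) i (fun y => (τ : ℂ) * S y) y) j := fun j hj => by
    rw [Finset.mem_range] at hj
    have a1 := cx (ew j / 2) j (by omega)
    have a2 := cx (ew (j + 1) / 2) (j + 1) (by omega)
    have a3 := cs (ew j / 2) j (by omega)
    have a4 : Continuous fun y => ∑ i ∈ Finset.range j,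
        XN h τ (ew i / 2) i f y * XN h τ (ew j / 2) j f y := continuous_finsetSum _ fun i hi =>
      (cx _ i (by rw [Finset.mem_range] at hi; omega)).mul a1
    have a5 := fun y => (ρ0 y).ne'
    unfold TT
    fun_prop (disch := assumption)
  have i1 : ∀ j ∈ Finset.range (k + 1), IntegrableOn (fun y => c j * XN h τ (ew j / 2) j f y ^ 2) D :=
    fun j hj => integrableOn_of_continuous hD.bdd (continuous_const.mul
      ((cx _ j (by rw [Finset.mem_range] at hj; omega)).pow 2))
  have i2 : ∀ j ∈ Finset.range k, IntegrableOn (fun y => XN h τ (-7) j f y ^ 2) D :=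
    fun j hj => integrableOn_of_continuous hD.bdd
      ((cx _ j (by rw [Finset.mem_range] at hj; omega)).pow 2)
  have i3 : ∀ j ∈ Finset.range (k + 1),
      IntegrableOn (fun y => XN h τ (ew j / 2) j (fun y => (τ : ℂ) * S y) y ^ 2) D :=
    fun j hj => integrableOn_of_continuous hD.bdd
      ((cs _ j (by rw [Finset.mem_range] at hj; omega)).pow 2)
  have j1 := (integrable_finsetSum _ i1).const_mul (-a)
  have j2 := (integrable_finsetSum _ i2).const_mul C
  have j3 := (integrable_finsetSum _ i3).const_mul C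
  have s1 := h3 (fun j => II D h τ (-7) j f) (fun j => II_nonneg _ _ _ _ _ _)
    fun j hj η h0 h1 => interp_step hD (by omega) (df _ (by omega)) hτ h0 h1
  have s2 : II D h τ (-7) k f ≤ II D h τ (ew k / 2) k f :=
    II_mono hD.meas hD.bdd h hτ (by linarith [(ew_bounds k).1]) (df k (by omega))
  have s3 : c k * II D h τ (ew k / 2) k f ≤
      ∑ j ∈ Finset.range (k + 1), c j * II D h τ (ew j / 2) j f :=
    Finset.single_le_sum (f := fun j => c j * II D h τ (ew j / 2) j f)
      (fun j _ => mul_nonneg (hc j).1.le (II_nonneg _ _ _ _ _ _)) (Finset.self_mem_range_succ k)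
  have s4 : 0 ≤ ∑ j ∈ Finset.range (k + 1), II D h τ (ew j / 2) j fun y => (τ : ℂ) * S y :=
    Finset.sum_nonneg fun j _ => II_nonneg _ _ _ _ _ _
  have s5 : C * ∑ j ∈ Finset.range k, II D h τ (-7) j f ≤
      a / 2 * (c k * II D h τ (-7) k f) + C * C' * II D h τ (-7) 0 f :=
    (mul_le_mul_of_nonneg_left s1 hC.le).trans_eq (by field_simp)
  have s6 := mul_le_mul_of_nonneg_left ((mul_le_mul_of_nonneg_left s2 (hc k).1.le).trans s3)
    (half_pos ha).le
  calc _ ≤ ∑ j ∈ Finset.range (k + 1), ∫ y in D, c j * TT a M₀ K (1 + PP h y / τ)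
        (fun i => XN h τ (ew i / 2) i f y)
        (fun i => XN h τ (ew i / 2) i (fun y => (τ : ℂ) * S y) y) j :=
        Finset.sum_le_sum fun j hj => by
          rw [integral_const_mul]
          exact mul_le_mul_of_nonneg_left (h1 a M₀ h τ D A₁ A₂ f S hτ hA hf hS hD j
            (Nat.lt_succ_iff.1 (Finset.mem_range.1 hj))) (hc j).1.le
    _ ≤ ∫ y in D, (-a * ∑ j ∈ Finset.range (k + 1), c j * XN h τ (ew j / 2) j f y ^ 2
          + C * ∑ j ∈ Finset.range k, XN h τ (-7) j f y ^ 2
          + C * ∑ j ∈ Finset.range (k + 1), XN h τ (ew j / 2) j (fun y => (τ : ℂ) * S y) y ^ 2) := by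
        have i0 := fun j hj => integrableOn_of_continuous hD.bdd (cT j hj)
        rw [← integral_finsetSum _ i0]
        refine integral_mono (integrable_finsetSum _ i0) ((j1.add j2).add j3) fun y => ?_
        refine (h2 _ _ _ (one_le_rho h hτ y) (fun j => XN_nonneg _ _ hτ _ _ _)
          fun j => XN_nonneg _ _ hτ _ _ _).trans_eq ?_
        congr 3
        refine Finset.sum_congr rfl fun j _ => ?_
        rw [XN_sq _ _ hτ, XN_sq _ _ hτ, show 2 * (-7 : ℝ) = -14 - ew j + 2 * (ew j / 2) by ring,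
          Real.rpow_add (ρ0 y)]
        ring
    _ = -a * ∑ j ∈ Finset.range (k + 1), c j * II D h τ (ew j / 2) j f
          + C * ∑ j ∈ Finset.range k, II D h τ (-7) j f
          + C * ∑ j ∈ Finset.range (k + 1), II D h τ (ew j / 2) j fun y => (τ : ℂ) * S y := by
        rw [integral_add (by exact j1.add j2) j3, integral_add j1 j2, integral_const_mul, integral_const_mul,
          integral_const_mul, integral_finsetSum _ i1, integral_finsetSum _ i2,
          integral_finsetSum _ i3]
        simp only [integral_const_mul, II]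
    _ ≤ _ := by
        nlinarith [mul_nonneg hC.le (II_nonneg D h τ (-7) 0 f), mul_nonneg (mul_pos hC hC').le s4]

end

end Crest.Agent.R086.E
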