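import Crest.Agent.R086.E.Nrm

open MeasureTheory Set Filter Topology
open scoped ContDiff ComplexConjugate ENNReal
open Crest.AnalysisR.PDE.NLS

namespace Crest.Agent.R086.E

noncomputable section

/-! # E6 -/

private lemma fatou_sum (s : Finset ℕ) (u : ℕ → ℕ → ℝ≥0∞) :
    ∑ j ∈ s, liminf (u j) atTop ≤ liminf (fun l => ∑ j ∈ s, u j l) atTop := by
  have h := lintegral_liminf_le (μ := (Measure.count : Measure ℕ).restrict (s : Set ℕ))
    (f := fun l j => u j l) (u := atTop) (fun l => measurable_from_top)
  simp only [lintegral_finset, Measure.count_singleton, mul_one] at h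
  exact h

/-- write the norm over the cell as the norm of the indicator (`eLpNorm_indicator_eq_eLpNorm_restrict`),
`Lp.eLpNorm_lim_le_liminf_eLpNorm` with `eventually_mem_cell`, `tendsto_PP`; Σ liminf ≤ liminf Σ in ℝ≥0∞ -/
theorem fatou : FatouStmt := by
  intro k hs fs f B hp h0 hd hc hB
  have key : ∀ j ∈ Finset.range (k + 1),
      eLpNorm (fun y => (1 + PP 0 y) ^ (ew j / 2) • iteratedFDeriv ℝ j f y) 2
        (volume.restrict (cell 0)) ≤
      liminf (fun l => eLpNorm (fun y => (1 + PP (hs l) y) ^ (ew j / 2) •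
        iteratedFDeriv ℝ j (fs l) y) 2 (volume.restrict (cell (hs l)))) atTop := by
    intro j hj
    have hj' : j ≤ k := Nat.lt_succ_iff.1 (Finset.mem_range.1 hj)
    rw [cell_zero, Measure.restrict_univ]
    simp_rw [← eLpNorm_indicator_eq_eLpNorm_restrict (measurableSet_cell _)]
    refine Lp.eLpNorm_lim_le_liminf_eLpNorm (fun l => ?_) _ (Eventually.of_forall fun y => ?_)
    · exact (continuous_term hj' (hd l) _ _).aestronglyMeasurable.indicator (measurableSet_cell _)
    · have h1 : Tendsto (fun l => (1 + PP (hs l) y) ^ (ew j / 2)) atTop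
          (𝓝 ((1 + PP 0 y) ^ (ew j / 2))) :=
        ((tendsto_PP h0 y).const_add 1).rpow_const (Or.inl (nrm_rho_pos 0 y).ne')
      refine (h1.smul (hc j hj' y)).congr' ?_
      filter_upwards [eventually_mem_cell hp h0 y] with l hl
      rw [indicator_of_mem hl]
  refine (Finset.sum_le_sum key).trans ((fatou_sum _ _).trans ?_)
  exact liminf_le_of_frequently_le' hB.frequently

end

end Crest.Agent.R086.E
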