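import Crest.Agent.R086.E.Cut
import Crest.Agent.R086.E.Nrm
import Crest.Agent.R086.E.CkA
import Crest.Agent.R086.E.Fatou
import Crest.Agent.R086.E.UUa

open MeasureTheory Set Filter Topology
open scoped ContDiff ComplexConjugate ENNReal
open Crest.AnalysisR.PDE.NLS

namespace Crest.Agent.R086.E

noncomputable section

/-! # Cutting off a solution on the whole space -/

private theorem red_le (j : ℕ) : (j : WithTop ℕ∞) ≤ ((⊤ : ℕ∞) : WithTop ℕ∞) := by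
  exact_mod_cast le_top

/-- a cut-off may be taken real (compose with the continuous linear map ofReal ∘ re of norm ≤ 1) -/
theorem cut_real {k : ℕ} {M ϱ R : ℝ} {χ : R12 → ℂ} (hc : Cut k M ϱ R χ) :
    Cut k M ϱ R (fun y => ((χ y).re : ℂ)) := by
  let L : ℂ →L[ℝ] ℂ := Complex.ofRealCLM.comp Complex.reCLM
  have hL : ‖L‖ ≤ 1 := by
    refine ContinuousLinearMap.opNorm_le_bound _ zero_le_one fun z => ?_
    simpa [L] using Complex.abs_re_le_norm z
  have e : (fun y => ((χ y).re : ℂ)) = L ∘ χ := rfl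
  refine ⟨?_, fun y => ?_, fun y hy => ?_, fun y hy => ?_, fun j h1 hj y => ?_⟩
  · rw [e]; exact L.contDiff.comp hc.smooth
  · rw [Complex.norm_real]
    exact (Complex.abs_re_le_norm _).trans (hc.le_one y)
  · simp [hc.one y hy]
  · simp [hc.zero y hy]
  · rw [e]
    refine (L.norm_iteratedFDeriv_comp_left hc.smooth.contDiffAt (red_le j)).trans ?_
    exact (mul_le_of_le_one_left (norm_nonneg _) hL).trans (hc.der j h1 hj y)

/-- `lap_mul` -/
theorem lin0_cut {n : ℕ} {b : ℝ} {q : ℝ → ℂ} {k : ℕ} {h : ℝ} {J : Set ℝ} {z S : ℝ → R12 → ℂ}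
    (hl : Lin0 n b q k h J z S) {χ : R12 → ℂ} (hχ : ContDiff ℝ ∞ χ) (hr : ∀ y, conj (χ y) = χ y) :
    Lin0 n b q k h J (fun t y => χ y * z t y) (fun t y => χ y * S t y + comm χ (z t) y) := by
  have hχk : ∀ j : ℕ, ContDiff ℝ j χ := fun j => hχ.of_le (red_le j)
  refine ⟨ck_mul (ck_space (hχk _)) hl.reg, ?_, fun t ht y => ?_⟩
  · refine ck_add (ck_mul (ck_space (hχk _)) hl.regS) ?_
    unfold comm
    refine ck_add (ck_const_mul 2 (ck_sum Finset.univ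
      (z := fun l t y => pd l χ y * pd l (z t) y) fun l _ => ?_)) ?_
    · exact ck_mul (ck_space (contDiff_pd (hχk _) l)) (ck_pd (ck_mono hl.reg (by omega)) l)
    · exact ck_mul (ck_space (contDiff_lap (hχk _))) (ck_mono hl.reg (by omega))
  · have h2 : ContDiff ℝ 2 (z t) := (hl.reg.diff t ht).of_le (by exact_mod_cast (by omega : 2 ≤ k + 2))
    have h3 := (hl.eqn t ht y).const_mul (χ y)
    refine h3.congr_deriv ?_
    rw [lap_mul (hχk 2) h2, map_mul, hr]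
    ring

/-- in similarity variables the cut-off χ(√τ y) has the same bounds: τ/(1+τ‖y‖²) ≤ 1/(1+‖y‖²) -/
theorem cut_scale {k : ℕ} {M ϱ R : ℝ} {χ : R12 → ℂ} (hc : Cut k M ϱ R χ) (hM : 0 ≤ M) {τ : ℝ} (hτ : 0 < τ)
    (hτ1 : τ ≤ 1) {j : ℕ} (h1 : 1 ≤ j) (hj : j ≤ k) (y : R12) :
    ‖iteratedFDeriv ℝ j (fun y => χ (Real.sqrt τ • y)) y‖ ≤ M * (1 + PP 0 y) ^ (-(j : ℝ) / 2) := by
  have hs : 0 < Real.sqrt τ := Real.sqrt_pos.2 hτ
  have h0 := norm_iteratedFDeriv_affine (hc.smooth.of_le (red_le j)) hs 0 y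
  simp only [zero_add] at h0
  rw [h0, PP_zero]
  refine (mul_le_mul_of_nonneg_left (hc.der j h1 hj _) (by positivity)).trans ?_
  rw [mul_left_comm]
  refine mul_le_mul_of_nonneg_left ?_ hM
  have e1 : Real.sqrt τ ^ j = (τ⁻¹) ^ (-(j : ℝ) / 2) := by
    rw [Real.inv_rpow hτ.le, ← Real.rpow_neg hτ.le, Real.sqrt_eq_rpow, ← Real.rpow_natCast,
      ← Real.rpow_mul hτ.le]
    congr 1
    ring
  rw [e1, ← Real.mul_rpow (by positivity) (by positivity), norm_smul, mul_pow, Real.norm_eq_abs,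
    sq_abs, Real.sq_sqrt hτ.le]
  refine Real.rpow_le_rpow_of_nonpos (by positivity) ?_ ?_
  · have : 1 ≤ τ⁻¹ := one_le_inv_iff₀.2 ⟨hτ, hτ1⟩
    rw [mul_add, mul_one, ← mul_assoc, inv_mul_cancel₀ hτ.ne', one_mul]
    linarith
  · have : (0 : ℝ) ≤ j := Nat.cast_nonneg j
    linarith

private theorem red_Zs_mul (n : ℕ) (b τ : ℝ) (χ f : R12 → ℂ) :
    Zs n b τ 0 0 (fun y => χ y * f y) = fun y => χ (Real.sqrt τ • y) * Zs n b τ 0 0 f y := by
  funext y
  simp only [Zs, zero_add]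
  ring

private theorem red_contDiff {k : WithTop ℕ∞} {χ : R12 → ℂ} (h : ContDiff ℝ k χ) (l : ℝ) :
    ContDiff ℝ k (fun y => χ (l • y)) := by
  simpa only [zero_add] using scale_contDiff_affine h l 0

/-- Zs τ (χ f) = χ(√τ ·) Zs τ f, `nrm_mul_le` -/
theorem nrmT_cut_le (n : ℕ) (b : ℝ) (k : ℕ) : ∃ C : ℝ, 0 < C ∧ ∀ (M ϱ R : ℝ) (χ f : R12 → ℂ) (t B : ℝ),
    0 ≤ M → M ≤ 1 → Cut (k + 2) M ϱ R χ → t ∈ Ico (0 : ℝ) 1 → 0 ≤ B → ContDiff ℝ k f →
    nrmT n b k 0 t f ≤ ENNReal.ofReal B →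
    nrmT n b k 0 t (fun y => χ y * f y) ≤ ENNReal.ofReal (C * B) := by
  obtain ⟨C, hC, H⟩ := nrm_mul_le k
  refine ⟨C, hC, fun M ϱ R χ f t B hM hM1 hc ht hB hf hfB => ?_⟩
  have hτ : 0 < 1 - t := sub_pos.2 ht.2
  have hτ1 : 1 - t ≤ 1 := by linarith [ht.1]
  unfold nrmT at hfB ⊢
  rw [zero_mul] at hfB ⊢
  rw [red_Zs_mul]
  have h1 := H 0 (fun y => χ (Real.sqrt (1 - t) • y)) (Zs n b (1 - t) 0 0 f) 1 B zero_le_one hB
    (red_contDiff (hc.smooth.of_le (red_le k)) _) (contDiff_Zs n b _ 0 0 hf) (fun j hj y => ?_) hfB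
  · simpa only [mul_one] using h1
  · rcases Nat.eq_zero_or_pos j with rfl | h1
    · simpa using hc.le_one _
    · exact (cut_scale hc hM hτ hτ1 h1 (by omega) y).trans
        (mul_le_mul_of_nonneg_right hM1 (Real.rpow_nonneg (nrm_rho_pos 0 y).le _))

private theorem red_Zs_comm (n : ℕ) (b : ℝ) {τ : ℝ} (hτ : 0 < τ) {χ f : R12 → ℂ}
    (hχ : ContDiff ℝ 2 χ) (hf : Differentiable ℝ f) :
    Zs n b τ 0 0 (fun y => ((τ : ℝ) : ℂ) * comm χ f y) =
      comm (fun y => χ (Real.sqrt τ • y)) (Zs n b τ 0 0 f) := by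
  funext y
  have hs : ((Real.sqrt τ : ℝ) : ℂ) ^ 2 = τ := by
    rw [← Complex.ofReal_pow, Real.sq_sqrt hτ.le]
  have e1 : ∀ l, pd l (fun y => χ (Real.sqrt τ • y)) y = Real.sqrt τ * pd l χ (Real.sqrt τ • y) := by
    intro l
    simpa only [one_mul, zero_add] using
      pd_affine (hχ.differentiable (by norm_num)) 1 (Real.sqrt τ) 0 l y
  have e2 : lap (fun y => χ (Real.sqrt τ • y)) y = τ * lap χ (Real.sqrt τ • y) := by
    simpa only [one_mul, zero_add, hs] using lap_affine hχ 1 (Real.sqrt τ) 0 y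
  have e3 : ∀ l, pd l (Zs n b τ 0 0 f) y =
      Complex.exp (-Complex.I * (0 : ℝ)) * cp τ ((aa n : ℂ) - Complex.I * b) * Real.sqrt τ *
        pd l f (Real.sqrt τ • y) := by
    intro l
    refine (pd_affine hf (Complex.exp (-Complex.I * (0 : ℝ)) * cp τ ((aa n : ℂ) - Complex.I * b))
      (Real.sqrt τ) 0 l y).trans ?_
    rw [zero_add]
  simp only [comm, e1, e2, e3]
  simp only [Zs, zero_add, Finset.mul_sum, mul_add]
  congr 1
  · refine Finset.sum_congr rfl fun l _ => ?_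
    rw [← hs]
    ring
  · ring

/-- Zs τ (τ comm χ f) = comm χ_τ (Zs τ f) (`pd_affine`, `lap_affine`), `nrm_mul_pd_le`, `nrm_mul_le`,
`norm_iteratedFDeriv_pd_le`, `norm_iteratedFDeriv_lap_le` -/
theorem nrmT_comm_le (n : ℕ) (b : ℝ) (k : ℕ) : ∃ C : ℝ, 0 < C ∧ ∀ (M ϱ R : ℝ) (χ f : R12 → ℂ) (t B : ℝ),
    0 ≤ M → Cut (k + 2) M ϱ R χ → t ∈ Ico (0 : ℝ) 1 → 0 ≤ B → ContDiff ℝ (k + 1 : ℕ) f →
    nrmT n b (k + 1) 0 t f ≤ ENNReal.ofReal B →
    nrmT n b k 0 t (fun y => ((1 - t : ℝ) : ℂ) * comm χ f y) ≤ ENNReal.ofReal (C * M * B) := by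
  obtain ⟨C₁, hC₁, H₁⟩ := nrm_mul_le k
  obtain ⟨C₂, hC₂, H₂⟩ := nrm_mul_pd_le k
  refine ⟨24 * C₂ + 12 * C₁, by positivity, fun M ϱ R χ f t B hM hc ht hB hf hfB => ?_⟩
  have hτ : 0 < 1 - t := sub_pos.2 ht.2
  have hτ1 : 1 - t ≤ 1 := by linarith [ht.1]
  unfold nrmT at hfB ⊢
  rw [zero_mul] at hfB ⊢
  rw [red_Zs_comm n b hτ (hc.smooth.of_le (red_le 2)) (hf.differentiable (by simp))]
  set X : R12 → ℂ := fun y => χ (Real.sqrt (1 - t) • y) with hX
  set F : R12 → ℂ := Zs n b (1 - t) 0 0 f with hF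
  have hXs : ∀ j : ℕ, ContDiff ℝ j X := fun j => red_contDiff (hc.smooth.of_le (red_le j)) _
  have hFs : ContDiff ℝ (k + 1 : ℕ) F := contDiff_Zs n b _ 0 0 hf
  have hFk : ContDiff ℝ k F := hFs.of_le (by exact_mod_cast Nat.le_succ k)
  have hterm : ∀ l : Fin 12, ContDiff ℝ k (fun y => pd l X y * pd l F y) := fun l =>
    (contDiff_pd (hXs _) l).mul (contDiff_pd hFs l)
  have hsum : ContDiff ℝ k (fun y => ∑ l : Fin 12, pd l X y * pd l F y) :=
    ContDiff.sum fun l _ => hterm l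
  have b1 : ∀ l : Fin 12, nrm k 0 (fun y => pd l X y * pd l F y) ≤ ENNReal.ofReal (C₂ * M * B) := by
    intro l
    refine H₂ 0 _ F l M B hM hB (contDiff_pd (hXs _) l) hFs (fun j hj y => ?_) hfB
    refine (norm_iteratedFDeriv_pd_le (hXs _) l y).trans ?_
    have := cut_scale hc hM hτ hτ1 (j := j + 1) (by omega) (by omega) y
    push_cast at this
    exact this
  have b2 : nrm k 0 (fun y => lap X y * F y) ≤ ENNReal.ofReal (C₁ * (12 * M) * B) := by
    refine H₁ 0 _ F (12 * M) B (by positivity) hB (contDiff_lap (hXs _)) hFk (fun j hj y => ?_)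
      ((nrm_mono (Nat.le_succ k) 0 F).trans hfB)
    refine (norm_iteratedFDeriv_lap_le (hXs _) y).trans ?_
    have h1 := cut_scale hc hM hτ hτ1 (j := j + 2) (by omega) (by omega) y
    rw [mul_assoc]
    refine mul_le_mul_of_nonneg_left (h1.trans (mul_le_mul_of_nonneg_left ?_ hM)) (by norm_num)
    refine Real.rpow_le_rpow_of_exponent_le (nrm_rho_one 0 y) ?_
    push_cast
    linarith
  have b3 : nrm k 0 (fun y => ∑ l : Fin 12, pd l X y * pd l F y)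
      ≤ ENNReal.ofReal (12 * (C₂ * M * B)) := by
    refine (nrm_sum_le 0 Finset.univ (f := fun l y => pd l X y * pd l F y)
      fun l _ => hterm l).trans ?_
    refine (Finset.sum_le_sum fun l _ => b1 l).trans (le_of_eq ?_)
    rw [Finset.sum_const, Finset.card_univ, Fintype.card_fin, nsmul_eq_mul,
      ENNReal.ofReal_mul (by norm_num : (0 : ℝ) ≤ 12)]
    norm_num
  unfold comm
  refine (nrm_add_le 0 (contDiff_const.mul hsum) ((contDiff_lap (hXs _)).mul hFk)).trans ?_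
  rw [nrm_const_mul 0 2 hsum]
  refine (add_le_add (mul_le_mul_right b3 _) b2).trans (le_of_eq ?_)
  rw [← ENNReal.ofReal_mul (norm_nonneg _), ← ENNReal.ofReal_add (by positivity) (by positivity)]
  congr 1
  simp only [Complex.norm_ofNat]
  ring

theorem nrmT_add_le (n : ℕ) (b : ℝ) {k : ℕ} (h t : ℝ) {f g : R12 → ℂ} (hf : ContDiff ℝ k f)
    (hg : ContDiff ℝ k g) :
    nrmT n b k h t (fun y => f y + g y) ≤ nrmT n b k h t f + nrmT n b k h t g := by
  unfold nrmT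
  refine le_trans (le_of_eq ?_) (nrm_add_le _ (contDiff_Zs n b _ 0 0 hf) (contDiff_Zs n b _ 0 0 hg))
  congr 1
  funext y
  simp only [Zs, mul_add]

theorem lowT_cut_le (n : ℕ) (b h t : ℝ) {χ : R12 → ℂ} (h1 : ∀ y, ‖χ y‖ ≤ 1) (f : R12 → ℂ) :
    lowT n b h t (fun y => χ y * f y) ≤ lowT n b h t f := by
  unfold lowT
  refine low_mono _ fun y => ?_
  rw [red_Zs_mul, norm_mul]
  exact mul_le_of_le_one_left (norm_nonneg _) (h1 _)

/-- `fatou` with hs = 0: near any point the cut-offs are eventually 1 -/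
theorem nrmT_le_of_cut (n : ℕ) (b : ℝ) {k : ℕ} {t : ℝ} (ht : t < 1) {f : R12 → ℂ} (hf : ContDiff ℝ k f)
    {χ : ℕ → R12 → ℂ} (hχ : ∀ l, ContDiff ℝ ∞ (χ l)) (h1 : ∀ (l : ℕ) (y : R12), ‖y‖ < l → χ l y = 1)
    {B : ℝ≥0∞} (hB : ∀ᶠ l in atTop, nrmT n b k 0 t (fun y => χ l y * f y) ≤ B) :
    nrmT n b k 0 t f ≤ B := by
  unfold nrmT at hB ⊢
  rw [zero_mul] at hB ⊢
  refine fatou k (fun _ => 0) (fun l => Zs n b (1 - t) 0 0 (fun y => χ l y * f y)) _ B
    (fun _ => le_rfl) tendsto_const_nhds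
    (fun l => contDiff_Zs n b _ 0 0 (((hχ l).of_le (red_le k)).mul hf)) (fun j _ y => ?_) hB
  refine tendsto_const_nhds.congr' ?_
  obtain ⟨N, hN⟩ := exists_nat_gt ‖Real.sqrt (1 - t) • y‖
  filter_upwards [eventually_ge_atTop N] with l hl
  have hlt : ‖Real.sqrt (1 - t) • y‖ < l := hN.trans_le (by exact_mod_cast hl)
  have hev : ∀ᶠ x in 𝓝 y, ‖Real.sqrt (1 - t) • x‖ < l :=
    (by fun_prop : Continuous fun x : R12 => ‖Real.sqrt (1 - t) • x‖).continuousAt.eventually_lt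
      continuousAt_const hlt
  have hee : Zs n b (1 - t) 0 0 f =ᶠ[𝓝 y] Zs n b (1 - t) 0 0 (fun y => χ l y * f y) := by
    filter_upwards [hev] with x hx
    rw [red_Zs_mul]
    simp only [h1 l _ hx, one_mul]
  exact (hee.iteratedFDeriv ℝ j).eq_of_nhds

end

end Crest.Agent.R086.E
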