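import Crest.Agent.R086.E.EnCore
import Crest.Agent.R086.E.Red
import Crest.Agent.R086.E.Dom

open MeasureTheory Set Filter Topology
open scoped ContDiff ComplexConjugate ENNReal
open Crest.AnalysisR.PDE.NLS

namespace Crest.Agent.R086.E

noncomputable section

/-! # E9 -/

private theorem lin0_of_lin {n : ℕ} {b : ℝ} {q : ℝ → ℂ} {k : ℕ} {h : ℝ} {J : Set ℝ} {z S : ℝ → R12 → ℂ}
    (hl : Lin n b q k h J z S) : Lin0 n b q k h J z S := ⟨hl.reg, hl.regS, hl.eqn⟩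

private theorem le_of_eps {x : ℝ≥0∞} {c K : ℝ} (_hK : 0 ≤ K)
    (h : ∀ ε : ℝ, 0 < ε → x ≤ ENNReal.ofReal (c + K * ε)) : x ≤ ENNReal.ofReal c := by
  have ht : Tendsto (fun ε : ℝ => ENNReal.ofReal (c + K * ε)) (𝓝[>] 0) (𝓝 (ENNReal.ofReal c)) := by
    apply ENNReal.tendsto_ofReal
    have : Tendsto (fun ε : ℝ => c + K * ε) (𝓝 0) (𝓝 (c + K * 0)) :=
      (continuous_const.add (continuous_const.mul continuous_id)).tendsto 0
    rw [mul_zero, add_zero] at this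
    exact this.mono_left nhdsWithin_le_nhds
  exact ge_of_tendsto ht (eventually_nhdsWithin_of_forall fun ε hε => h ε hε)

private theorem contDiff_comm {k : ℕ} {χ f : R12 → ℂ} (hχ : ContDiff ℝ ∞ χ) (hf : ContDiff ℝ (k + 1 : ℕ) f) :
    ContDiff ℝ k (comm χ f) := by
  unfold comm
  have h1 : ContDiff ℝ k (lap χ) := contDiff_lap (contDiff_infty.1 hχ (k + 2))
  have h2 : ContDiff ℝ k f := hf.of_le (by exact_mod_cast Nat.le_succ k)
  refine (contDiff_const.mul (ContDiff.sum fun l _ => ?_)).add (h1.mul h2)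
  exact ((contDiff_pd_infty hχ l).of_le (by exact_mod_cast le_top)).mul (contDiff_pd hf l)

private theorem energy_zero {n : ℕ} {b : ℝ} {q : ℝ → ℂ} {k : ℕ} {μ C : ℝ} (hC : 0 < C)
    (core : ∀ t₁ t₂ : ℝ, 0 ≤ t₁ → t₁ ≤ t₂ → t₂ < 1 →
      ∀ (z S : ℝ → R12 → ℂ) (D : Set R12), Lin0 n b q k 0 (Icc t₁ t₂) z S →
      (∀ t ∈ Icc t₁ t₂, SDom 0 D k (z t)) → EnConcl n b k μ C 0 t₁ t₂ z S) :
    ∃ C₁ : ℝ, 1 ≤ C₁ ∧ ∀ t₁ t₂ : ℝ, 0 ≤ t₁ → t₁ ≤ t₂ → t₂ < 1 → ∀ (z S : ℝ → R12 → ℂ),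
      Lin n b q k 0 (Icc t₁ t₂) z S → ∀ A B : ℝ, 0 ≤ A → 0 ≤ B →
      nrmT n b k 0 t₁ (z t₁) ≤ ENNReal.ofReal A →
      (∀ s ∈ Icc t₁ t₂, nrmT n b k 0 s (fun y => ((1 - s : ℝ) : ℂ) * S s y) ≤ ENNReal.ofReal B) →
      nrmT n b k 0 t₂ (z t₂) ≤ ENNReal.ofReal (C * ((1 - t₁) / (1 - t₂)) ^ C * (C₁ * A + C₁ * B)) ∧
      ∀ D : ℝ, 0 ≤ D → (∀ s ∈ Icc t₁ t₂, lowT n b 0 s (z s) ≤ ENNReal.ofReal D) →
        nrmT n b k 0 t₂ (z t₂) ≤
          ENNReal.ofReal (C * (((1 - t₂) / (1 - t₁)) ^ μ * (C₁ * A) + C₁ * B + D)) := by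
  obtain ⟨Cc, hCc, hcut⟩ := exists_cut (k + 2)
  obtain ⟨C₁, hC₁, hmul⟩ := nrmT_cut_le n b k
  obtain ⟨C₂, hC₂, hcomm⟩ := nrmT_comm_le n b k
  refine ⟨max C₁ 1, le_max_right _ _, ?_⟩
  intro t₁ t₂ h0 h12 h2 z S hl A B hA hB hzA hSB
  obtain ⟨F₀, hF₀⟩ := hl.fin rfl
  set F : ℝ := max F₀ 0 with hFdef
  have hF : ∀ t ∈ Icc t₁ t₂, nrmT n b (k + 1) 0 t (z t) ≤ ENNReal.ofReal F := fun t ht =>
    (hF₀ t ht).trans (ENNReal.ofReal_le_ofReal (le_max_left _ _))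
  have hFn : 0 ≤ F := le_max_right _ _
  have hmem : ∀ t ∈ Icc t₁ t₂, t ∈ Ico (0 : ℝ) 1 := fun t ht => ⟨h0.trans ht.1, ht.2.trans_lt h2⟩
  have hzk : ∀ t ∈ Icc t₁ t₂, ContDiff ℝ k (z t) := fun t ht =>
    (hl.reg.diff t ht).of_le (by exact_mod_cast Nat.le_add_right k 2)
  have hzk1 : ∀ t ∈ Icc t₁ t₂, ContDiff ℝ (k + 1 : ℕ) (z t) := fun t ht =>
    (hl.reg.diff t ht).of_le (by exact_mod_cast Nat.le_succ (k + 1))
  have hC1 : C₁ ≤ max C₁ 1 := le_max_left _ _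
  have hC1' : 0 ≤ max C₁ 1 := hC₁.le.trans hC1
  -- the estimate for cut-off solutions
  have key : ∀ ε : ℝ, 0 < ε → ∀ l : ℕ, ∃ χ : R12 → ℂ, ContDiff ℝ ∞ χ ∧ (∀ y, ‖y‖ < l → χ y = 1) ∧
      nrmT n b k 0 t₂ (fun y => χ y * z t₂ y) ≤
        ENNReal.ofReal (C * ((1 - t₁) / (1 - t₂)) ^ C * (max C₁ 1 * A + (max C₁ 1 * B + ε))) ∧
      ∀ D : ℝ, 0 ≤ D → (∀ s ∈ Icc t₁ t₂, lowT n b 0 s (z s) ≤ ENNReal.ofReal D) →
        nrmT n b k 0 t₂ (fun y => χ y * z t₂ y) ≤ ENNReal.ofReal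
          (C * (((1 - t₂) / (1 - t₁)) ^ μ * (max C₁ 1 * A) + (max C₁ 1 * B + ε) + D)) := by
    intro ε hε l
    set η : ℝ := min 1 (min (1 / Cc) (ε / (C₂ * Cc * (F + 1)))) with hη
    have hηp : 0 < η := lt_min one_pos (lt_min (by positivity) (by positivity))
    have hη1 : η ≤ 1 := min_le_left _ _
    have hη2 : η ≤ 1 / Cc := (min_le_right _ _).trans (min_le_left _ _)
    have hη3 : η ≤ ε / (C₂ * Cc * (F + 1)) := (min_le_right _ _).trans (min_le_right _ _)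
    have hM1 : Cc * η ≤ 1 := by rw [le_div_iff₀ hCc] at hη2; linarith
    have hM2 : C₂ * (Cc * η) * F ≤ ε := by
      rw [le_div_iff₀ (by positivity)] at hη3
      have : 0 ≤ C₂ * Cc * η := by positivity
      nlinarith
    have hM0 : 0 ≤ Cc * η := by positivity
    obtain ⟨R, χ₀, hχ₀⟩ := hcut η l hηp hη1
    have hχ := cut_real hχ₀
    set χ : R12 → ℂ := fun y => ((χ₀ y).re : ℂ) with hχdef
    have hreal : ∀ y, conj (χ y) = χ y := fun y => Complex.conj_ofReal _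
    have hl' := lin0_cut (lin0_of_lin hl) hχ.smooth hreal
    have hD : ∀ t ∈ Icc t₁ t₂, SDom 0 (Metric.closedBall (0 : R12) R) k (fun y => χ y * z t y) := by
      intro t ht
      refine sdom_ball (hl'.reg.diff t ht) fun y hy => ?_
      rw [hχ.zero y hy, zero_mul]
    have hc := core t₁ t₂ h0 h12 h2 _ _ _ hl' hD (max C₁ 1 * A) (max C₁ 1 * B + ε) (by positivity)
      (by positivity) ?_ ?_
    · refine ⟨χ, hχ.smooth, hχ.one, hc.1, fun D hD0 hD' => hc.2 D hD0 fun s hs => ?_⟩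
      exact (lowT_cut_le n b 0 s hχ.le_one (z s)).trans (hD' s hs)
    · have ht : t₁ ∈ Icc t₁ t₂ := ⟨le_rfl, h12⟩
      refine (hmul _ _ _ χ (z t₁) t₁ A hM0 hM1 hχ (hmem _ ht) hA (hzk _ ht) hzA).trans ?_
      exact ENNReal.ofReal_le_ofReal (mul_le_mul_of_nonneg_right hC1 hA)
    · intro s hs
      have hS : ContDiff ℝ k (fun y => ((1 - s : ℝ) : ℂ) * S s y) :=
        contDiff_const.mul (hl.regS.diff s hs)
      have e : (fun y => ((1 - s : ℝ) : ℂ) * (χ y * S s y + comm χ (z s) y)) =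
          fun y => χ y * (((1 - s : ℝ) : ℂ) * S s y) + ((1 - s : ℝ) : ℂ) * comm χ (z s) y := by
        funext y; ring
      rw [e]
      refine (nrmT_add_le n b 0 s ((hχ.smooth.of_le (by exact_mod_cast le_top)).mul hS)
        (contDiff_const.mul (contDiff_comm hχ.smooth (hzk1 s hs)))).trans ?_
      have a1 := hmul _ _ _ χ _ s B hM0 hM1 hχ (hmem _ hs) hB hS (hSB s hs)
      have a2 := hcomm _ _ _ χ (z s) s F hM0 hχ (hmem _ hs) hFn (hzk1 s hs) (hF s hs)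
      refine (add_le_add a1 a2).trans ?_
      rw [← ENNReal.ofReal_add (by positivity) (by positivity)]
      apply ENNReal.ofReal_le_ofReal
      have := mul_le_mul_of_nonneg_right hC1 hB
      linarith
  have ht2 : t₂ ∈ Icc t₁ t₂ := ⟨h12, le_rfl⟩
  have hr : 0 ≤ ((1 - t₁) / (1 - t₂)) ^ C :=
    Real.rpow_nonneg (div_nonneg (by linarith) (by linarith)) _
  constructor
  · refine le_of_eps (K := C * ((1 - t₁) / (1 - t₂)) ^ C) (by positivity) fun ε hε => ?_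
    choose χ hχ1 hχ2 hχ3 _ using key ε hε
    refine nrmT_le_of_cut n b h2 (hzk _ ht2) hχ1 hχ2 (Eventually.of_forall fun l => ?_)
    refine (hχ3 l).trans (le_of_eq ?_)
    congr 1; ring
  · intro D hD0 hD
    refine le_of_eps (K := C) hC.le fun ε hε => ?_
    choose χ hχ1 hχ2 _ hχ4 using key ε hε
    refine nrmT_le_of_cut n b h2 (hzk _ ht2) hχ1 hχ2 (Eventually.of_forall fun l => ?_)
    refine (hχ4 l D hD0 hD).trans (le_of_eq ?_)
    congr 1; ring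

/-- h > 0: `energy_core` with D = cell h (`sdom_cell`).  h = 0: apply `energy_core` to χ_l z on a ball
(`exists_cut` with η_l → 0, ϱ = l; `lin0_cut`, `sdom_ball`), with A' = C₁ A and B' = C₁ B + C₂ M_l B_fin;
`nrmT_le_of_cut` with an extra ε; let ε → 0 (`ENNReal.le_of_forall_pos_le_add`). -/
theorem energy : EnergyStmt := by
  intro n b q hq
  obtain ⟨k₀, hk₀⟩ := energy_core hq
  refine ⟨k₀, fun k hk => ?_⟩
  obtain ⟨μ, C, hμ, hC, core⟩ := hk₀ k hk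
  obtain ⟨C₁, hC₁, hzero⟩ := energy_zero hC (core 0 ⟨le_rfl, zero_le_one⟩)
  refine ⟨μ, C * C₁, hμ, by positivity, ?_⟩
  intro h hh t₁ t₂ h0 h12 h2 z S hl A B hA hB hzA hSB
  have hr1 : 1 ≤ (1 - t₁) / (1 - t₂) := by
    rw [le_div_iff₀ (by linarith)]; linarith
  have hCC : C ≤ C * C₁ := le_mul_of_one_le_right hC.le hC₁
  have hpow : ((1 - t₁) / (1 - t₂)) ^ C ≤ ((1 - t₁) / (1 - t₂)) ^ (C * C₁) :=
    Real.rpow_le_rpow_of_exponent_le hr1 hCC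
  have hr : 0 ≤ ((1 - t₁) / (1 - t₂)) ^ C := Real.rpow_nonneg (by linarith) _
  have hr' : 0 ≤ ((1 - t₂) / (1 - t₁)) ^ μ :=
    Real.rpow_nonneg (div_nonneg (by linarith) (by linarith)) _
  have main : nrmT n b k h t₂ (z t₂) ≤
        ENNReal.ofReal (C * ((1 - t₁) / (1 - t₂)) ^ C * (C₁ * A + C₁ * B)) ∧
      ∀ D : ℝ, 0 ≤ D → (∀ s ∈ Icc t₁ t₂, lowT n b h s (z s) ≤ ENNReal.ofReal D) →
        nrmT n b k h t₂ (z t₂) ≤
          ENNReal.ofReal (C * (((1 - t₂) / (1 - t₁)) ^ μ * (C₁ * A) + C₁ * B + D)) := by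
    rcases eq_or_lt_of_le hh.1 with h0' | hpos
    · subst h0'
      exact hzero t₁ t₂ h0 h12 h2 z S hl A B hA hB hzA hSB
    · have hA' : A ≤ C₁ * A := le_mul_of_one_le_left hA hC₁
      have hB' : B ≤ C₁ * B := le_mul_of_one_le_left hB hC₁
      exact core h hh t₁ t₂ h0 h12 h2 z S (cell h) (lin0_of_lin hl)
        (fun t ht => sdom_cell hpos (hl.reg.diff t ht) (hl.per t ht)) (C₁ * A) (C₁ * B)
        (hA.trans hA') (hB.trans hB') (hzA.trans (ENNReal.ofReal_le_ofReal hA'))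
        (fun s hs => (hSB s hs).trans (ENNReal.ofReal_le_ofReal hB'))
  refine ⟨main.1.trans (ENNReal.ofReal_le_ofReal ?_), fun D hD0 hD =>
    (main.2 D hD0 hD).trans (ENNReal.ofReal_le_ofReal ?_)⟩
  · have : C * ((1 - t₁) / (1 - t₂)) ^ C * (C₁ * A + C₁ * B) =
        C * C₁ * ((1 - t₁) / (1 - t₂)) ^ C * (A + B) := by ring
    rw [this]
    gcongr
  · have hD' : D ≤ C₁ * D := le_mul_of_one_le_left hD0 hC₁
    have : C * C₁ * (((1 - t₂) / (1 - t₁)) ^ μ * A + B + D) =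
        C * (((1 - t₂) / (1 - t₁)) ^ μ * (C₁ * A) + C₁ * B + C₁ * D) := by ring
    rw [this]
    gcongr

end

end Crest.Agent.R086.E
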