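import Crest.Agent.R086.E.Nrm
import Crest.Agent.R086.E.CkA

open MeasureTheory Set Filter Topology
open scoped ContDiff ComplexConjugate ENNReal
open Crest.AnalysisR.PDE.NLS

namespace Crest.Agent.R086.E

noncomputable section

/-! # Further algebra of `Zs`, `lap`, `Ck`; invariance under isometries (used by parts C and K) -/

theorem Zs_Zs (n : ℕ) (b : ℝ) {τ₁ τ₂ : ℝ} (h₁ : 0 < τ₁) (h₂ : 0 < τ₂) (x₁ x₂ : R12) (ϑ₁ ϑ₂ : ℝ)
    (f : R12 → ℂ) : Zs n b τ₁ x₁ ϑ₁ (Zs n b τ₂ x₂ ϑ₂ f) =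
      Zs n b (τ₁ * τ₂) (x₂ + Real.sqrt τ₂ • x₁) (ϑ₁ + ϑ₂) f := by
  funext y
  have e : Complex.exp (-Complex.I * ((ϑ₁ + ϑ₂ : ℝ) : ℂ)) =
      Complex.exp (-Complex.I * ϑ₁) * Complex.exp (-Complex.I * ϑ₂) := by
    rw [← Complex.exp_add]
    push_cast
    ring_nf
  simp only [Zs]
  rw [e, cp_mul h₁ h₂, Real.sqrt_mul h₁.le, smul_add, smul_smul, ← add_assoc,
    mul_comm (Real.sqrt τ₂)]
  ring

theorem Zs_one (n : ℕ) (b : ℝ) (f : R12 → ℂ) : Zs n b 1 0 0 f = f := by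
  funext y
  simp [Zs, cp_one_left]

theorem Zs_add (n : ℕ) (b τ : ℝ) (x : R12) (ϑ : ℝ) (f g : R12 → ℂ) :
    Zs n b τ x ϑ (fun y => f y + g y) = fun y => Zs n b τ x ϑ f y + Zs n b τ x ϑ g y := by
  funext y
  simp only [Zs]
  ring

theorem Zs_sub (n : ℕ) (b τ : ℝ) (x : R12) (ϑ : ℝ) (f g : R12 → ℂ) :
    Zs n b τ x ϑ (fun y => f y - g y) = fun y => Zs n b τ x ϑ f y - Zs n b τ x ϑ g y := by
  funext y
  simp only [Zs]
  ring

theorem Zs_const_mul (n : ℕ) (b τ : ℝ) (x : R12) (ϑ : ℝ) (c : ℂ) (f : R12 → ℂ) :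
    Zs n b τ x ϑ (fun y => c * f y) = fun y => c * Zs n b τ x ϑ f y := by
  funext y
  simp only [Zs]
  ring

theorem norm_Zs (n : ℕ) (b : ℝ) {τ : ℝ} (hτ : 0 < τ) (x : R12) (ϑ : ℝ) (f : R12 → ℂ) (y : R12) :
    ‖Zs n b τ x ϑ f y‖ = τ ^ aa n * ‖f (x + Real.sqrt τ • y)‖ := by
  simp [Zs, norm_cp hτ, Complex.norm_exp]

theorem lap_Zs (n : ℕ) (b : ℝ) {τ : ℝ} (hτ : 0 < τ) (x : R12) (ϑ : ℝ) {f : R12 → ℂ}
    (hf : ContDiff ℝ 2 f) (y : R12) : lap (Zs n b τ x ϑ f) y = (τ : ℂ) * Zs n b τ x ϑ (lap f) y := by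
  have h := lap_affine hf (Complex.exp (-Complex.I * ϑ) * cp τ ((aa n : ℂ) - Complex.I * b))
    (Real.sqrt τ) x y
  have e : ((Real.sqrt τ : ℝ) : ℂ) ^ 2 = τ := by
    rw [← Complex.ofReal_pow, Real.sq_sqrt hτ.le]
  rw [e] at h
  refine h.trans ?_
  simp only [Zs]
  ring

theorem Extra_pow {n : ℕ} (hn : 1 ≤ n) (b : ℝ) {τ : ℝ} (hτ : 0 < τ) (ϑ : ℝ) :
    (Complex.exp (-Complex.I * ϑ) * cp τ ((aa n : ℂ) - Complex.I * b) *
      conj (Complex.exp (-Complex.I * ϑ) * cp τ ((aa n : ℂ) - Complex.I * b))) ^ n = τ := by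
  have h : ‖Complex.exp (-Complex.I * ϑ) * cp τ ((aa n : ℂ) - Complex.I * b)‖ = τ ^ aa n := by
    simp [norm_cp hτ, Complex.norm_exp]
  have hn' : (n : ℝ) ≠ 0 := Nat.cast_ne_zero.2 (by omega)
  rw [Complex.mul_conj, Complex.normSq_eq_norm_sq, h, ← Complex.ofReal_pow, ← pow_mul,
    ← Real.rpow_natCast, ← Real.rpow_mul hτ.le]
  have e : aa n * ((2 * n : ℕ) : ℝ) = 1 := by
    unfold aa
    push_cast
    field_simp
  rw [e, Real.rpow_one]

theorem NL_Zs {n : ℕ} (hn : 1 ≤ n) (b : ℝ) {τ : ℝ} (hτ : 0 < τ) (x : R12) (ϑ : ℝ) (f : R12 → ℂ) (y : R12) :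
    NL n (Zs n b τ x ϑ f y) = (τ : ℂ) * Zs n b τ x ϑ (fun y => NL n (f y)) y := by
  have h := Extra_pow hn b hτ ϑ
  simp only [Zs, NL]
  generalize Complex.exp (-Complex.I * ϑ) * cp τ ((aa n : ℂ) - Complex.I * b) = c at h ⊢
  rw [map_mul, mul_pow, mul_pow, ← h, mul_pow]
  ring

/-- the linearised potential term scales like the nonlinearity -/
theorem V_Zs {n : ℕ} (hn : 1 ≤ n) (b : ℝ) {τ : ℝ} (hτ : 0 < τ) (x : R12) (ϑ : ℝ) (u f : R12 → ℂ) (y : R12) :
    V1 n (Zs n b τ x ϑ u y) * Zs n b τ x ϑ f y + V2 n (Zs n b τ x ϑ u y) * conj (Zs n b τ x ϑ f y) =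
      (τ : ℂ) * Zs n b τ x ϑ (fun y => V1 n (u y) * f y + V2 n (u y) * conj (f y)) y := by
  have h := Extra_pow hn b hτ ϑ
  obtain ⟨m, rfl⟩ : ∃ m, n = m + 1 := ⟨n - 1, by omega⟩
  simp only [Zs, V1, V2, Nat.add_sub_cancel]
  generalize Complex.exp (-Complex.I * ϑ) * cp τ ((aa (m + 1) : ℂ) - Complex.I * b) = c at h ⊢
  simp only [map_mul, mul_pow] at h ⊢
  rw [← h]
  ring

theorem lap_add {f g : R12 → ℂ} (hf : ContDiff ℝ 2 f) (hg : ContDiff ℝ 2 g) (y : R12) :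
    lap (fun y => f y + g y) y = lap f y + lap g y := by
  simp only [lap]
  rw [← Finset.sum_add_distrib]
  refine Finset.sum_congr rfl fun i _ => ?_
  rw [fun_iteratedFDeriv_add_apply (by exact_mod_cast hf.contDiffAt) (by exact_mod_cast hg.contDiffAt)]
  rfl

theorem lap_sub {f g : R12 → ℂ} (hf : ContDiff ℝ 2 f) (hg : ContDiff ℝ 2 g) (y : R12) :
    lap (fun y => f y - g y) y = lap f y - lap g y := by
  simp only [lap]
  rw [← Finset.sum_sub_distrib]
  refine Finset.sum_congr rfl fun i _ => ?_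
  rw [fun_iteratedFDeriv_sub_apply (by exact_mod_cast hf.contDiffAt) (by exact_mod_cast hg.contDiffAt)]
  rfl

theorem lap_const_mul (c : ℂ) {f : R12 → ℂ} (hf : ContDiff ℝ 2 f) (y : R12) :
    lap (fun y => c * f y) y = c * lap f y := by
  simp only [lap]
  rw [Finset.mul_sum]
  refine Finset.sum_congr rfl fun i _ => ?_
  rw [scale_iteratedFDeriv_const_mul (by exact_mod_cast hf)]
  rfl

theorem lap_conj {f : R12 → ℂ} (hf : ContDiff ℝ 2 f) (y : R12) :
    lap (fun y => conj (f y)) y = conj (lap f y) := by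
  simp only [lap]
  rw [map_sum]
  refine Finset.sum_congr rfl fun i _ => ?_
  have h := (Complex.conjCLE : ℂ →L[ℝ] ℂ).iteratedFDeriv_comp_left (hf.contDiffAt (x := y))
    (i := 2) le_rfl
  exact congrArg (fun A => A ![ee i, ee i]) h

/-- `lap` is Mathlib's `InnerProductSpace.laplacian` (`laplacian_eq_iteratedFDeriv_orthonormalBasis` for the
orthonormal bases `EuclideanSpace.basisFun` and its image under O); `ContinuousLinearMap.iteratedFDeriv_comp_right` -/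
theorem lap_isometry (O : R12 ≃ₗᵢ[ℝ] R12) {f : R12 → ℂ} (hf : ContDiff ℝ 2 f) (y : R12) :
    lap (fun y => f (O y)) y = lap f (O y) := by
  have h1 := congrFun (InnerProductSpace.laplacian_eq_iteratedFDeriv_orthonormalBasis f
    (EuclideanSpace.basisFun (Fin 12) ℝ)) (O y)
  have h2 := congrFun (InnerProductSpace.laplacian_eq_iteratedFDeriv_orthonormalBasis f
    ((EuclideanSpace.basisFun (Fin 12) ℝ).map O)) (O y)
  have h3 := (O.toContinuousLinearEquiv : R12 →L[ℝ] R12).iteratedFDeriv_comp_right hf y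
    (i := 2) le_rfl
  calc lap (fun y => f (O y)) y = ∑ i : Fin 12, iteratedFDeriv ℝ 2 f (O y) ![O (ee i), O (ee i)] := by
        refine Finset.sum_congr rfl fun i _ => ?_
        refine (congrArg (fun A => A ![ee i, ee i]) h3).trans ?_
        simp only [ContinuousMultilinearMap.compContinuousLinearMap_apply]
        congr 1
        funext j
        fin_cases j <;> rfl
    _ = lap f (O y) := by
        simp only [OrthonormalBasis.map_apply, EuclideanSpace.basisFun_apply] at h1 h2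
        exact h2.symm.trans h1

theorem Extra_iso {E : Type} [NormedAddCommGroup E] (O : R12 ≃ₗᵢ[ℝ] R12) (F : R12 → E) :
    eLpNorm (fun y => F (O y)) 2 (volume.restrict (cell 0)) =
      eLpNorm F 2 (volume.restrict (cell 0)) := by
  have h : cell 0 = univ := if_pos rfl
  rw [h, Measure.restrict_univ]
  have h2 := O.toHomeomorph.measurableEmbedding.eLpNorm_map_measure (g := F) (p := 2) (μ := volume)
  have h3 : Measure.map O.toHomeomorph volume = volume := O.measurePreserving.map_eq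
  rw [h3] at h2
  exact h2.symm

/-- `LinearIsometryEquiv.norm_iteratedFDeriv_comp_right`, `LinearIsometryEquiv.measurePreserving`, `PP_zero` -/
theorem nrm_isometry (k : ℕ) (O : R12 ≃ₗᵢ[ℝ] R12) (f : R12 → ℂ) :
    nrm k 0 (fun y => f (O y)) = nrm k 0 f := by
  refine Finset.sum_congr rfl fun j _ => ?_
  rw [← Extra_iso O fun y => (1 + PP 0 y) ^ (ew j / 2) • iteratedFDeriv ℝ j f y]
  refine eLpNorm_congr_norm_ae (Eventually.of_forall fun y => ?_)
  rw [norm_smul, norm_smul, PP_zero, PP_zero, O.norm_map]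
  exact congrArg _ (O.norm_iteratedFDeriv_comp_right f y j)

theorem low_isometry (O : R12 ≃ₗᵢ[ℝ] R12) (f : R12 → ℂ) : low 0 (fun y => f (O y)) = low 0 f := by
  unfold low
  rw [← Extra_iso O fun y => (1 + PP 0 y) ^ (-(7 : ℝ)) • f y]
  simp only [PP_zero, O.norm_map]

/-- induction on k is not needed: D^j(f ∘ (x + L ·)) y = (D^j f (x + L y)).compContinuousLinearMap (fun _ => L) -/
theorem ck_affine {k : ℕ} {J J' : Set ℝ} {z : ℝ → R12 → ℂ} (h : Ck k J z) {φ : ℝ → ℝ} {x : ℝ → R12}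
    (hφ : ContinuousOn φ J') (hJ : ∀ s ∈ J', φ s ∈ J) (hx : ContinuousOn x J')
    {L : ℝ → R12 →L[ℝ] R12} (hL : ContinuousOn L J') :
    Ck k J' (fun s y => z (φ s) (x s + L s y)) := by
  refine ⟨fun s hs => (h.diff _ (hJ s hs)).comp (contDiff_const.add (L s).contDiff),
    fun j hj => ?_⟩
  have hfst : ∀ {α : Type} [TopologicalSpace α] {g : ℝ → α}, ContinuousOn g J' →
      ContinuousOn (fun p : ℝ × R12 => g p.1) (J' ×ˢ univ) := fun hg =>
    hg.comp continuousOn_fst fun p hp => hp.1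
  have h1 : ContinuousOn (fun p : ℝ × R12 => iteratedFDeriv ℝ j (z (φ p.1)) (x p.1 + L p.1 p.2))
      (J' ×ˢ univ) :=
    (h.cont j hj).comp (f := fun p : ℝ × R12 => (φ p.1, x p.1 + L p.1 p.2))
      ((hfst hφ).prodMk ((hfst hx).add ((hfst hL).clm_apply continuousOn_snd)))
      fun p hp => ⟨hJ _ hp.1, mem_univ _⟩
  have h2 : ContinuousOn (fun p : ℝ × R12 =>
      ContinuousMultilinearMap.compContinuousLinearMapContinuousMultilinear ℝ (fun _ : Fin j => R12)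
        (fun _ : Fin j => R12) ℂ (fun _ => L p.1)) (J' ×ˢ univ) :=
    (ContinuousMultilinearMap.coe_continuous _).comp_continuousOn
      (continuousOn_pi.2 fun _ => hfst hL)
  refine (h2.clm_apply h1).congr fun p hp => ?_
  have hd : ContDiff ℝ k fun y => z (φ p.1) (x p.1 + y) :=
    (h.diff _ (hJ _ hp.1)).comp (contDiff_const.add contDiff_id)
  have h3 := (L p.1).iteratedFDeriv_comp_right hd p.2 (i := j) (by exact_mod_cast hj)
  rw [iteratedFDeriv_comp_add_left] at h3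
  exact h3

theorem ck_isometry {k : ℕ} {J : Set ℝ} {z : ℝ → R12 → ℂ} (h : Ck k J z) (O : R12 ≃ₗᵢ[ℝ] R12) :
    Ck k J (fun t y => z t (O y)) := by
  have h1 := ck_affine (J' := J) h (φ := fun s => s) (x := fun _ => 0) continuousOn_id
    (fun _ hs => hs) continuousOn_const
    (L := fun _ => (O.toContinuousLinearEquiv : R12 →L[ℝ] R12)) continuousOn_const
  exact ck_congr h1 fun t _ y => by simp

theorem ck_Zs (n : ℕ) (b τ : ℝ) (x : R12) (ϑ t₀ : ℝ) {k : ℕ} {J J' : Set ℝ} {z : ℝ → R12 → ℂ}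
    (h : Ck k J z) (hJ : ∀ s ∈ J', t₀ + τ * s ∈ J) :
    Ck k J' (fun s => Zs n b τ x ϑ (z (t₀ + τ * s))) := by
  have h1 := ck_affine (J' := J') h (φ := fun s => t₀ + τ * s) (x := fun _ => x) (by fun_prop) hJ
    continuousOn_const (L := fun _ => Real.sqrt τ • ContinuousLinearMap.id ℝ R12) continuousOn_const
  exact ck_const_mul _ h1

/-- `ContinuousOn.union_of_isClosed` -/
theorem ck_union {k : ℕ} {J J' : Set ℝ} {z : ℝ → R12 → ℂ} (hJ : IsClosed J) (hJ' : IsClosed J')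
    (h : Ck k J z) (h' : Ck k J' z) : Ck k (J ∪ J') z := by
  refine ⟨fun t ht => ht.elim (h.diff t) (h'.diff t), fun j hj => ?_⟩
  rw [union_prod]
  exact (h.cont j hj).union_of_isClosed (h'.cont j hj) (hJ.prod isClosed_univ)
    (hJ'.prod isClosed_univ)

theorem ck_glue {k : ℕ} {a b c : ℝ} (hab : a ≤ b) (hbc : b ≤ c) {z w : ℝ → R12 → ℂ}
    (h : Ck k (Icc a b) z) (h' : Ck k (Icc b c) w) (hb : z b = w b) :
    Ck k (Icc a c) (fun t => if t ≤ b then z t else w t) := by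
  rw [← Icc_union_Icc_eq_Icc hab hbc]
  refine ck_union isClosed_Icc isClosed_Icc (ck_congr h fun t ht y => ?_)
    (ck_congr h' fun t ht y => ?_)
  · rw [if_pos ht.2]
  · split_ifs with h1
    · rw [le_antisymm h1 ht.1, hb]
    · rfl

end

end Crest.Agent.R086.E
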