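import Crest.Agent.R086.E.Defs

open MeasureTheory Set Filter Topology
open scoped ContDiff ComplexConjugate ENNReal
open Crest.AnalysisR.PDE.NLS

namespace Crest.Agent.R086.E

noncomputable section

/-! # psi and PP -/

theorem psi_nonneg (h s : ℝ) : 0 ≤ psi h s := by
  unfold psi
  split_ifs
  · positivity
  · exact div_nonneg (by linarith [Real.cos_le_one (h * s)]) (sq_nonneg _)

theorem psi_le_sq (h s : ℝ) : psi h s ≤ s ^ 2 := by
  unfold psi
  split_ifs with h0
  · exact le_rfl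
  · rw [div_le_iff₀ (by positivity)]
    nlinarith [Real.one_sub_sq_div_two_le_cos (x := h * s)]

theorem sq_mul_psi_le (h s : ℝ) : h ^ 2 * psi h s ≤ 4 := by
  unfold psi
  split_ifs with h0
  · simp [h0]
  · rw [mul_div_cancel₀ _ (by positivity)]
    linarith [Real.neg_one_le_cos (h * s)]

/-- `Real.cos_le_one_sub_mul_cos_sq` -/
theorem psi_ge {h s : ℝ} (hs : |h * s| ≤ Real.pi) : 4 / Real.pi ^ 2 * s ^ 2 ≤ psi h s := by
  have hp := Real.pi_pos
  unfold psi
  split_ifs with h0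
  · have h1 : 4 / Real.pi ^ 2 ≤ 1 := by
      rw [div_le_one (by positivity)]
      nlinarith [Real.two_le_pi]
    nlinarith [sq_nonneg s]
  · rw [le_div_iff₀ (by positivity)]
    have h1 := Real.cos_le_one_sub_mul_cos_sq hs
    have e : 4 / Real.pi ^ 2 * s ^ 2 * h ^ 2 = 2 * (2 / Real.pi ^ 2 * (h * s) ^ 2) := by ring
    linarith

theorem psi_scale (h s : ℝ) {l : ℝ} (hl : l ≠ 0) : psi (h * l) s = psi h (l * s) / l ^ 2 := by
  unfold psi
  by_cases h0 : h = 0
  · simp only [h0, zero_mul, if_true]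
    field_simp
  · rw [if_neg (mul_ne_zero h0 hl), if_neg h0, mul_assoc]
    field_simp

/-- psi h s = (2 sin(hs/2)/h)², and |sin (u+v)| ≤ |sin u| + |v| -/
theorem psi_add_le (h s t : ℝ) : psi h (s + t) ≤ 2 * psi h s + 2 * t ^ 2 := by
  have key : psi h (s + t) ≤ 2 * psi h s + 2 * psi h t := by
    unfold psi
    split_ifs with h0
    · nlinarith [sq_nonneg (s - t)]
    · rw [← mul_div_assoc, ← mul_div_assoc, ← add_div, mul_add h, Real.cos_add]
      gcongr
      nlinarith [sq_nonneg (Real.cos (h * s) + Real.cos (h * t) - 2),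
        sq_nonneg (Real.sin (h * s) - Real.sin (h * t)), Real.sin_sq_add_cos_sq (h * s),
        Real.sin_sq_add_cos_sq (h * t)]
  linarith [psi_le_sq h t]

theorem psi_periodic {h : ℝ} (hh : h ≠ 0) (s : ℝ) : psi h (s + 2 * Real.pi / h) = psi h s := by
  unfold psi
  rw [if_neg hh, if_neg hh, mul_add, mul_div_cancel₀ _ hh, Real.cos_add_two_pi]

theorem contDiff_psi (h : ℝ) : ContDiff ℝ ∞ (psi h) := by
  unfold psi
  split_ifs
  · fun_prop
  · fun_prop

theorem hasDerivAt_psi (h s : ℝ) : HasDerivAt (psi h) (dpsi h s) s := by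
  unfold psi dpsi
  split_ifs with h0
  · simpa using hasDerivAt_pow 2 s
  · have h1 := ((((hasDerivAt_id s).const_mul h).cos.const_mul 2).const_sub 2).div_const (h ^ 2)
    refine h1.congr_deriv ?_
    simp only [id]
    field_simp

theorem hasDerivAt_dpsi (h s : ℝ) : HasDerivAt (dpsi h) (2 - h ^ 2 * psi h s) s := by
  unfold psi dpsi
  split_ifs with h0
  · simpa [h0] using (hasDerivAt_id s).const_mul 2
  · have h1 := (((hasDerivAt_id s).const_mul h).sin.const_mul 2).div_const h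
    refine h1.congr_deriv ?_
    simp only [id]
    field_simp
    ring

theorem dpsi_sq (h s : ℝ) : dpsi h s ^ 2 = 4 * psi h s - h ^ 2 * psi h s ^ 2 := by
  unfold psi dpsi
  split_ifs with h0
  · simp only [h0]
    ring
  · field_simp
    nlinarith [Real.sin_sq_add_cos_sq (h * s)]

theorem abs_dpsi_le (h s : ℝ) : |dpsi h s| ≤ 2 * Real.sqrt (psi h s) := by
  have h1 : dpsi h s ^ 2 ≤ (2 * Real.sqrt (psi h s)) ^ 2 := by
    rw [mul_pow, Real.sq_sqrt (psi_nonneg h s), dpsi_sq]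
    nlinarith [mul_nonneg (sq_nonneg h) (sq_nonneg (psi h s))]
  exact abs_le_of_sq_le_sq h1 (by positivity)

/-- derivatives of order ≥ 2 (the second derivative is 2 cos(hs), also for h = 0) -/
theorem iteratedDeriv_psi_le (h s : ℝ) (j : ℕ) : |iteratedDeriv (j + 2) (psi h) s| ≤ 2 * |h| ^ j := by
  have h1 : deriv (psi h) = dpsi h := funext fun s => (hasDerivAt_psi h s).deriv
  have h2 : deriv (dpsi h) = fun s => 2 * Real.cos (h * s) := by
    funext s
    rw [(hasDerivAt_dpsi h s).deriv, psi]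
    split_ifs with h0
    · simp [h0]
    · field_simp
      ring
  rw [iteratedDeriv_succ', iteratedDeriv_succ', h1, h2, iteratedDeriv_const_mul_field,
    iteratedDeriv_comp_const_mul Real.contDiff_cos, abs_mul, abs_mul, abs_pow, abs_two]
  have := Real.abs_iteratedDeriv_cos_le_one j (h * s)
  have h3 : 0 ≤ |h| ^ j := by positivity
  nlinarith

theorem tendsto_psi {hs : ℕ → ℝ} (h0 : Tendsto hs atTop (𝓝 0)) (s : ℝ) :
    Tendsto (fun l => psi (hs l) s) atTop (𝓝 (s ^ 2)) := by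
  have e : ∀ h : ℝ, psi h s = (s * Real.sinc (h * s / 2)) ^ 2 := by
    intro h
    unfold psi
    split_ifs with hh
    · simp [hh]
    · by_cases hs : s = 0
      · simp [hs]
      · rw [Real.sinc_of_ne_zero (by positivity)]
        have h1 := Real.cos_two_mul (h * s / 2)
        rw [mul_div_cancel₀ _ two_ne_zero] at h1
        have h2 := Real.sin_sq_add_cos_sq (h * s / 2)
        rw [h1]
        field_simp
        nlinarith
  simp only [e]
  have hc : Continuous fun h : ℝ => (s * Real.sinc (h * s / 2)) ^ 2 :=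
    (continuous_const.mul (Real.continuous_sinc.comp (by fun_prop))).pow 2
  simpa [Function.comp_def] using (hc.tendsto 0).comp h0

theorem PP_nonneg (h : ℝ) (y : R12) : 0 ≤ PP h y := by
  exact Finset.sum_nonneg fun i _ => psi_nonneg _ _

theorem psi_le_PP (h : ℝ) (y : R12) (i : Fin 12) : psi h (y i) ≤ PP h y := by
  exact Finset.single_le_sum (f := fun i => psi h (y i)) (fun i _ => psi_nonneg _ _)
    (Finset.mem_univ i)

theorem PP_zero (y : R12) : PP 0 y = ‖y‖ ^ 2 := by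
  simp [PP, psi, EuclideanSpace.real_norm_sq_eq]

theorem PP_le_sq (h : ℝ) (y : R12) : PP h y ≤ ‖y‖ ^ 2 := by
  rw [EuclideanSpace.real_norm_sq_eq]
  exact Finset.sum_le_sum fun i _ => psi_le_sq _ _

theorem sq_mul_PP_le (h : ℝ) (y : R12) : h ^ 2 * PP h y ≤ 48 := by
  rw [PP, Finset.mul_sum]
  refine (Finset.sum_le_sum fun i _ => sq_mul_psi_le h (y i)).trans ?_
  norm_num

theorem PP_scale (h : ℝ) (y : R12) {l : ℝ} (hl : l ≠ 0) : PP (h * l) y = PP h (l • y) / l ^ 2 := by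
  simp only [PP, Finset.sum_div, psi_scale _ _ hl, PiLp.smul_apply, smul_eq_mul]

theorem PP_add_le (h : ℝ) (y x : R12) : PP h (y + x) ≤ 2 * PP h y + 2 * ‖x‖ ^ 2 := by
  rw [EuclideanSpace.real_norm_sq_eq, PP, PP, Finset.mul_sum, Finset.mul_sum,
    ← Finset.sum_add_distrib]
  exact Finset.sum_le_sum fun i _ => psi_add_le h (y i) (x i)

theorem contDiff_PP (h : ℝ) : ContDiff ℝ ∞ (PP h) := by
  exact ContDiff.sum fun i _ =>
    (contDiff_psi h).comp (EuclideanSpace.proj (𝕜 := ℝ) i : R12 →L[ℝ] ℝ).contDiff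

theorem perG_PP (h : ℝ) : PerG h (PP h) := by
  intro hh y i
  refine Finset.sum_congr rfl fun j _ => ?_
  by_cases hj : j = i
  · subst hj
    simpa using psi_periodic hh (y j)
  · simp [hj]

theorem fderiv_PP (h : ℝ) (y : R12) (l : Fin 12) : fderiv ℝ (PP h) y (ee l) = dpsi h (y l) := by
  have h1 : HasFDerivAt (PP h)
      (∑ i : Fin 12, dpsi h (y i) • (EuclideanSpace.proj (𝕜 := ℝ) i : R12 →L[ℝ] ℝ)) y :=
    HasFDerivAt.fun_sum fun i _ => HasDerivAt.comp_hasFDerivAt (h₂ := psi h) y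
      (hasDerivAt_psi h _) (EuclideanSpace.proj (𝕜 := ℝ) i : R12 →L[ℝ] ℝ).hasFDerivAt
  rw [h1.fderiv]
  simp [ee]

theorem tendsto_PP {hs : ℕ → ℝ} (h0 : Tendsto hs atTop (𝓝 0)) (y : R12) :
    Tendsto (fun l => PP (hs l) y) atTop (𝓝 (PP 0 y)) := by
  have := tendsto_finsetSum Finset.univ fun (i : Fin 12) _ => tendsto_psi h0 (y i)
  simpa [PP, psi] using this

theorem one_le_rho (h : ℝ) {τ : ℝ} (hτ : 0 < τ) (y : R12) : 1 ≤ 1 + PP h y / τ := by
  have := PP_nonneg h y
  have : 0 ≤ PP h y / τ := by positivity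
  linarith

/-- the weight as a complex function is smooth -/
theorem contDiff_weight (h θ : ℝ) {τ : ℝ} (hτ : 0 < τ) :
    ContDiff ℝ ∞ (fun y : R12 => (((1 + PP h y / τ) ^ θ : ℝ) : ℂ)) := by
  exact Complex.ofRealCLM.contDiff.comp ((contDiff_const.add ((contDiff_PP h).div_const τ)).rpow_const_of_ne
    fun y => (zero_lt_one.trans_le (one_le_rho h hτ y)).ne')

private theorem pd_weight_eq (h θ : ℝ) {τ : ℝ} (hτ : 0 < τ) (l : Fin 12) (y : R12) :
    pd l (fun y : R12 => (((1 + PP h y / τ) ^ θ : ℝ) : ℂ)) y =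
      ((θ * (1 + PP h y / τ) ^ (θ - 1) * (dpsi h (y l) / τ) : ℝ) : ℂ) := by
  have h0 : HasFDerivAt (PP h) (fderiv ℝ (PP h) y) y :=
    ((contDiff_PP h).differentiable (by simp) y).hasFDerivAt
  have h1 := ((h0.mul_const τ⁻¹).const_add 1).rpow_const (p := θ)
    (Or.inl (zero_lt_one.trans_le (one_le_rho h hτ y)).ne')
  have h2 := Complex.ofRealCLM.hasFDerivAt.comp y h1
  have h3 : HasFDerivAt (fun y : R12 => (((1 + PP h y / τ) ^ θ : ℝ) : ℂ)) _ y := h2
  rw [pd, h3.fderiv]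
  simp [fderiv_PP, div_eq_mul_inv, mul_comm]

theorem norm_pd_weight_le (h θ : ℝ) {τ : ℝ} (hτ : 0 < τ) (l : Fin 12) (y : R12) :
    ‖pd l (fun y : R12 => (((1 + PP h y / τ) ^ θ : ℝ) : ℂ)) y‖ ≤
      2 * |θ| * (1 + PP h y / τ) ^ (θ - 1 / 2) / Real.sqrt τ := by
  have h1 := one_le_rho h hτ y
  have h0 : 0 < 1 + PP h y / τ := zero_lt_one.trans_le h1
  have hs := Real.sqrt_pos.2 hτ
  have h2 : |dpsi h (y l)| ≤ 2 * (Real.sqrt τ * (1 + PP h y / τ) ^ (1 / 2 : ℝ)) := by
    refine (abs_dpsi_le _ _).trans ?_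
    rw [← Real.sqrt_eq_rpow, ← Real.sqrt_mul hτ.le]
    gcongr
    rw [mul_add, mul_div_cancel₀ _ hτ.ne']
    linarith [psi_le_PP h y l]
  rw [pd_weight_eq h θ hτ, Complex.norm_real, Real.norm_eq_abs, abs_mul, abs_mul, abs_div,
    abs_of_pos hτ, abs_of_pos (Real.rpow_pos_of_pos h0 _),
    show θ - 1 / 2 = θ - 1 + 1 / 2 by ring, Real.rpow_add h0]
  have h3 := Real.rpow_pos_of_pos h0 (θ - 1)
  calc _ ≤ |θ| * (1 + PP h y / τ) ^ (θ - 1) *
        (2 * (Real.sqrt τ * (1 + PP h y / τ) ^ (1 / 2 : ℝ)) / τ) := by gcongr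
    _ = _ := by
      generalize (1 + PP h y / τ) ^ (θ - 1) = a
      generalize (1 + PP h y / τ) ^ (1 / 2 : ℝ) = b
      have h4 := Real.mul_self_sqrt hτ.le
      generalize Real.sqrt τ = r at *
      subst h4
      field_simp

/-- the partial derivatives of the weight are real -/
theorem pd_weight_im (h θ : ℝ) {τ : ℝ} (hτ : 0 < τ) (l : Fin 12) (y : R12) :
    (pd l (fun y : R12 => (((1 + PP h y / τ) ^ θ : ℝ) : ℂ)) y).im = 0 := by
  rw [pd_weight_eq h θ hτ, Complex.ofReal_im]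

end

end Crest.Agent.R086.E
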