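import Crest.Agent.R086.E.GeoA

open MeasureTheory Set Filter Topology
open scoped ContDiff ComplexConjugate ENNReal
open Crest.AnalysisR.PDE.NLS

namespace Crest.Agent.R086.E

noncomputable section

/-! # cells, the exponents `ew`, periodicity, `pd` and `lap` -/

theorem measurableSet_cell (h : ℝ) : MeasurableSet (cell h) := by
  unfold cell
  split_ifs
  · exact MeasurableSet.univ
  · rw [setOf_forall]
    exact MeasurableSet.iInter fun i =>
      (by fun_prop : Measurable fun y : R12 => y i) measurableSet_Ico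

theorem cell_zero : cell 0 = univ := by
  simp [cell]

theorem norm_le_of_mem_cell {h : ℝ} (hh : 0 < h) {y : R12} (hy : y ∈ cell h) :
    ‖y‖ ≤ 12 * Real.pi / h := by
  rw [cell, if_neg hh.ne'] at hy
  have hp : 0 < Real.pi / h := div_pos Real.pi_pos hh
  have h1 : ‖y‖ ^ 2 ≤ 12 * (Real.pi / h) ^ 2 := by
    rw [EuclideanSpace.real_norm_sq_eq]
    refine (Finset.sum_le_card_nsmul _ _ ((Real.pi / h) ^ 2) fun i _ => ?_).trans (by simp)
    exact sq_le_sq' (hy i).1 (hy i).2.le
  rw [mul_div_assoc]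
  refine (abs_le.1 (abs_le_of_sq_le_sq (h1.trans ?_) (by positivity))).2
  nlinarith [sq_nonneg (Real.pi / h)]

theorem isBounded_cell {h : ℝ} (hh : 0 < h) : Bornology.IsBounded (cell h) := by
  exact (Metric.isBounded_closedBall (x := (0 : R12)) (r := 12 * Real.pi / h)).subset fun y hy =>
    mem_closedBall_zero_iff.2 (norm_le_of_mem_cell hh hy)

theorem PP_ge {h : ℝ} (hh : 0 ≤ h) {y : R12} (hy : y ∈ cell h) :
    4 / Real.pi ^ 2 * ‖y‖ ^ 2 ≤ PP h y := by
  rw [EuclideanSpace.real_norm_sq_eq, Finset.mul_sum, PP]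
  refine Finset.sum_le_sum fun i _ => psi_ge ?_
  rcases hh.eq_or_lt with rfl | hh
  · simpa using Real.pi_pos.le
  · rw [cell, if_neg hh.ne'] at hy
    rw [abs_mul, abs_of_pos hh, mul_comm, ← le_div_iff₀ hh]
    exact abs_le.2 ⟨(hy i).1, (hy i).2.le⟩

theorem mem_cell_scale (h : ℝ) {l : ℝ} (hl : 0 < l) (y : R12) : y ∈ cell (h * l) ↔ l • y ∈ cell h := by
  by_cases hh : h = 0
  · simp [hh, cell]
  · rw [cell, cell, if_neg hh, if_neg (mul_ne_zero hh hl.ne')]
    refine forall_congr' fun i => ?_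
    have e : Real.pi / (h * l) = Real.pi / h / l := by rw [div_div]
    rw [e, PiLp.smul_apply, smul_eq_mul, mem_Ico, mem_Ico, ← neg_div l, div_le_iff₀ hl,
      lt_div_iff₀ hl, mul_comm l]

theorem eventually_mem_cell {hs : ℕ → ℝ} (hp : ∀ l, 0 ≤ hs l) (h0 : Tendsto hs atTop (𝓝 0)) (y : R12) :
    ∀ᶠ l in atTop, y ∈ cell (hs l) := by
  have h1 : Tendsto (fun l => hs l * ‖y‖) atTop (𝓝 0) := by simpa using h0.mul_const ‖y‖
  filter_upwards [h1.eventually_lt_const Real.pi_pos] with l hl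
  rcases (hp l).eq_or_lt with h | h
  · rw [← h, cell_zero]; trivial
  · rw [cell, if_neg h.ne']
    intro i
    have h2 : |y i| < Real.pi / hs l := by
      rw [lt_div_iff₀ h, mul_comm]
      exact (mul_le_mul_of_nonneg_left (PiLp.norm_apply_le y i) h.le).trans_lt hl
    exact ⟨(abs_lt.1 h2).1.le, (abs_lt.1 h2).2⟩

theorem measurableSet_cube (x : R12) (r : ℝ) : MeasurableSet (cube x r) := by
  rw [cube, setOf_forall]
  exact MeasurableSet.iInter fun i =>
    (by fun_prop : Measurable fun y : R12 => y i) measurableSet_Ico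

theorem norm_sub_le_of_mem_cube {x y : R12} {r : ℝ} (hy : y ∈ cube x r) : ‖y - x‖ ^ 2 ≤ 12 * r ^ 2 := by
  rw [EuclideanSpace.real_norm_sq_eq]
  refine (Finset.sum_le_card_nsmul _ _ (r ^ 2) fun i _ => ?_).trans (by simp)
  obtain ⟨h1, h2⟩ := hy i
  rw [PiLp.sub_apply]
  exact pow_le_pow_left₀ (by linarith) (by linarith) 2

theorem ew_le (j : ℕ) : ew j ≤ (j : ℝ) - 6 := by
  exact min_le_left _ _

theorem ew_eq {j : ℕ} (hj : j ≤ 40) : ew j = (j : ℝ) - 6 := by
  have : (j : ℝ) ≤ 40 := by exact_mod_cast hj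
  exact min_eq_left (le_max_of_le_right (by linarith))

theorem ew_eq_zero {j : ℕ} (hj : 74 ≤ j) : ew j = 0 := by
  have : (74 : ℝ) ≤ j := by exact_mod_cast hj
  rw [ew, max_eq_left (by linarith), min_eq_right (by linarith)]

theorem ew_nonneg {j : ℕ} (hj : 6 ≤ j) : 0 ≤ ew j := by
  have : (6 : ℝ) ≤ j := by exact_mod_cast hj
  exact le_min (by linarith) (le_max_left _ _)

theorem ew_bounds (j : ℕ) : -6 ≤ ew j ∧ ew j ≤ 34 := by
  have : (0 : ℝ) ≤ j := Nat.cast_nonneg j
  simp only [ew, min_def, max_def]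
  split_ifs <;> constructor <;> linarith

theorem ew_le_add {i j : ℕ} (hij : i ≤ j) : ew j ≤ ew i + ((j : ℝ) - i) := by
  have : (i : ℝ) ≤ j := by exact_mod_cast hij
  simp only [ew, min_def, max_def]
  split_ifs <;> linarith

theorem ew_succ_ge (j : ℕ) : ew j - 1 ≤ ew (j + 1) := by
  simp only [ew, min_def, max_def]
  push_cast
  split_ifs <;> linarith

theorem ew_anti {i j : ℕ} (hi : 29 ≤ i) (hij : i ≤ j) (hj : 58 ≤ j) : ew j ≤ ew i := by
  have : (i : ℝ) ≤ j := by exact_mod_cast hij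
  have : (29 : ℝ) ≤ i := by exact_mod_cast hi
  have : (58 : ℝ) ≤ j := by exact_mod_cast hj
  simp only [ew, min_def, max_def]
  split_ifs <;> linarith

theorem perG_iteratedFDeriv {E : Type} [NormedAddCommGroup E] [NormedSpace ℝ E] {h : ℝ} {f : R12 → E}
    (hf : PerG h f) (j : ℕ) : PerG h (iteratedFDeriv ℝ j f) := by
  intro hh y i
  rw [← iteratedFDeriv_comp_add_right]
  congr 1
  exact funext fun x => hf hh x i

theorem perG_pd {h : ℝ} {f : R12 → ℂ} (hf : PerG h f) (i : Fin 12) : PerG h (pd i f) := by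
  intro hh y l
  rw [pd, pd, ← fderiv_comp_add_right]
  congr 2
  exact funext fun x => hf hh x l

theorem perG_BB {h : ℝ} (j : ℕ) {f g : R12 → ℂ} (hf : PerG h f) (hg : PerG h g) : PerG h (BB j f g) := by
  induction j generalizing f g with
  | zero =>
    intro hh y i
    simp only [BB, hf hh y i, hg hh y i]
  | succ j ih =>
    intro hh y i
    simp only [BB]
    exact Finset.sum_congr rfl fun l _ => ih (perG_pd hf l) (perG_pd hg l) hh y i

theorem perG_map₂ {α β γ : Type} {h : ℝ} {f : R12 → α} {g : R12 → β} (hf : PerG h f) (hg : PerG h g)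
    (F : α → β → γ) : PerG h (fun y => F (f y) (g y)) := by
  intro hh y i
  simp only [hf hh y i, hg hh y i]

theorem perG_scale {α : Type} {h l : ℝ} (hl : 0 < l) {f : R12 → α} (hf : PerG h f) (x : R12) :
    PerG (h * l) (fun y => f (x + l • y)) := by
  intro hh y i
  have h0 : h ≠ 0 := left_ne_zero_of_mul hh
  have e : l • (EuclideanSpace.single i (2 * Real.pi / (h * l)) : R12) =
      EuclideanSpace.single i (2 * Real.pi / h) := by
    ext j
    simp only [PiLp.smul_apply, EuclideanSpace.single_apply, smul_eq_mul]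
    split_ifs
    · field_simp
    · simp
  simp only [smul_add, e, ← add_assoc]
  exact hf h0 _ i

theorem norm_ee (i : Fin 12) : ‖ee i‖ = 1 := by
  simp [ee]

theorem contDiff_pd {k : ℕ} {f : R12 → ℂ} (hf : ContDiff ℝ (k + 1 : ℕ) f) (i : Fin 12) :
    ContDiff ℝ k (pd i f) := by
  exact (hf.fderiv_right (by push_cast; exact le_rfl)).clm_apply contDiff_const

theorem contDiff_pd_infty {f : R12 → ℂ} (hf : ContDiff ℝ ∞ f) (i : Fin 12) :
    ContDiff ℝ ∞ (pd i f) := by
  exact (hf.fderiv_right (by simp)).clm_apply contDiff_const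

theorem GeoB_pd_pd {f : R12 → ℂ} (hf : ContDiff ℝ 2 f) (i l : Fin 12) (y : R12) :
    pd i (pd l f) y = fderiv ℝ (fderiv ℝ f) y (ee i) (ee l) := by
  have h1 : DifferentiableAt ℝ (fderiv ℝ f) y :=
    ((hf.fderiv_right (m := 1) le_rfl).differentiable one_ne_zero) y
  have h2 : pd l f = fun x => fderiv ℝ f x (ee l) := rfl
  rw [pd, h2, fderiv_clm_apply h1 (differentiableAt_const _)]
  simp

theorem lap_eq {f : R12 → ℂ} (hf : ContDiff ℝ 2 f) (y : R12) :
    lap f y = ∑ i : Fin 12, pd i (pd i f) y := by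
  refine Finset.sum_congr rfl fun i _ => ?_
  rw [GeoB_pd_pd hf, iteratedFDeriv_two_apply]
  rfl

theorem contDiff_lap {k : ℕ} {f : R12 → ℂ} (hf : ContDiff ℝ (k + 2 : ℕ) f) : ContDiff ℝ k (lap f) := by
  have h2 : ContDiff ℝ 2 f := hf.of_le (by exact_mod_cast Nat.le_add_left 2 k)
  rw [show lap f = fun y => ∑ i : Fin 12, pd i (pd i f) y from funext (lap_eq h2)]
  exact ContDiff.sum fun i _ => contDiff_pd (contDiff_pd (k := k + 1) hf i) i

theorem pd_comm {f : R12 → ℂ} (hf : ContDiff ℝ 2 f) (i l : Fin 12) : pd i (pd l f) = pd l (pd i f) := by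
  funext y
  rw [GeoB_pd_pd hf, GeoB_pd_pd hf]
  exact hf.contDiffAt.isSymmSndFDerivAt (by simp) _ _

theorem pd_mul {f g : R12 → ℂ} (hf : Differentiable ℝ f) (hg : Differentiable ℝ g) (i : Fin 12) :
    pd i (fun y => f y * g y) = fun y => pd i f y * g y + f y * pd i g y := by
  funext y
  rw [pd, fderiv_fun_mul (hf y) (hg y)]
  simp only [pd, ContinuousLinearMap.add_apply, ContinuousLinearMap.smul_apply, smul_eq_mul]
  ring

theorem lap_mul {f g : R12 → ℂ} (hf : ContDiff ℝ 2 f) (hg : ContDiff ℝ 2 g) (y : R12) :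
    lap (fun y => f y * g y) y = f y * lap g y + comm f g y := by
  have hf1 : Differentiable ℝ f := hf.differentiable two_ne_zero
  have hg1 : Differentiable ℝ g := hg.differentiable two_ne_zero
  have hf2 : ∀ i, Differentiable ℝ (pd i f) := fun i =>
    (contDiff_pd (k := 1) hf i).differentiable (by simp)
  have hg2 : ∀ i, Differentiable ℝ (pd i g) := fun i =>
    (contDiff_pd (k := 1) hg i).differentiable (by simp)
  rw [lap_eq (hf.mul hg), comm, lap_eq hf, lap_eq hg, Finset.mul_sum, Finset.mul_sum,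
    Finset.sum_mul, ← Finset.sum_add_distrib, ← Finset.sum_add_distrib]
  refine Finset.sum_congr rfl fun i _ => ?_
  have h1 := congrFun (pd_mul (hf2 i) hg1 i) y
  have h2 := congrFun (pd_mul hf1 (hg2 i) i) y
  rw [pd_mul hf1 hg1, pd, fderiv_fun_add (((hf2 i).fun_mul hg1) y) ((hf1.fun_mul (hg2 i)) y),
    ContinuousLinearMap.add_apply]
  change pd i (fun y => pd i f y * g y) y + pd i (fun y => f y * pd i g y) y = _
  rw [h1, h2]
  ring

theorem norm_iteratedFDeriv_pd_le {j : ℕ} {f : R12 → ℂ} (hf : ContDiff ℝ (j + 1 : ℕ) f) (i : Fin 12)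
    (y : R12) : ‖iteratedFDeriv ℝ j (pd i f) y‖ ≤ ‖iteratedFDeriv ℝ (j + 1) f y‖ := by
  have h := norm_iteratedFDeriv_clm_apply_const (𝕜 := ℝ) (f := fderiv ℝ f) (c := ee i) (x := y)
    (N := j) (n := j) (hf.fderiv_right (by push_cast; exact le_rfl)).contDiffAt le_rfl
  rwa [norm_ee, one_mul, norm_iteratedFDeriv_fderiv] at h

/-- `fderiv f = Σ_i (pd i f) • proj i` -/
theorem norm_iteratedFDeriv_succ_le {j : ℕ} {f : R12 → ℂ} (hf : ContDiff ℝ (j + 1 : ℕ) f) (y : R12) :
    ‖iteratedFDeriv ℝ (j + 1) f y‖ ≤ ∑ i : Fin 12, ‖iteratedFDeriv ℝ j (pd i f) y‖ := by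
  let L : Fin 12 → ℂ →L[ℝ] R12 →L[ℝ] ℂ := fun i =>
    ContinuousLinearMap.smulRightL ℝ R12 ℂ (EuclideanSpace.proj i)
  have hL : ∀ i, ‖L i‖ ≤ 1 := fun i => by
    refine ContinuousLinearMap.opNorm_le_bound _ zero_le_one fun c => ?_
    refine ContinuousLinearMap.opNorm_le_bound _ (by positivity) fun v => ?_
    change ‖v i • c‖ ≤ _
    rw [norm_smul, one_mul, mul_comm]
    exact mul_le_mul_of_nonneg_left (PiLp.norm_apply_le v i) (norm_nonneg _)
  have e : fderiv ℝ f = fun x => ∑ i, (L i ∘ pd i f) x := by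
    funext x
    ext v
    have hv : v = ∑ i, v i • ee i := by
      ext l
      simp [ee, Pi.single_apply]
    conv_lhs => rw [hv]
    rw [map_sum, ContinuousLinearMap.sum_apply]
    refine Finset.sum_congr rfl fun i _ => ?_
    rw [map_smul]
    rfl
  rw [← norm_iteratedFDeriv_fderiv, e, iteratedFDeriv_fun_sum_apply
    fun i _ => ((L i).contDiff.comp (contDiff_pd hf i)).contDiffAt]
  refine (norm_sum_le _ _).trans (Finset.sum_le_sum fun i _ => ?_)
  exact ((L i).norm_iteratedFDeriv_comp_left (contDiff_pd hf i).contDiffAt le_rfl).trans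
    (mul_le_of_le_one_left (norm_nonneg _) (hL i))

theorem norm_iteratedFDeriv_lap_le {j : ℕ} {f : R12 → ℂ} (hf : ContDiff ℝ (j + 2 : ℕ) f) (y : R12) :
    ‖iteratedFDeriv ℝ j (lap f) y‖ ≤ 12 * ‖iteratedFDeriv ℝ (j + 2) f y‖ := by
  have h2 : ContDiff ℝ 2 f := hf.of_le (by exact_mod_cast Nat.le_add_left 2 j)
  rw [show lap f = fun y => ∑ i : Fin 12, pd i (pd i f) y from funext (lap_eq h2),
    iteratedFDeriv_fun_sum_apply
      fun i _ => (contDiff_pd (contDiff_pd (k := j + 1) hf i) i).contDiffAt]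
  refine (norm_sum_le _ _).trans ((Finset.sum_le_card_nsmul _ _
    ‖iteratedFDeriv ℝ (j + 2) f y‖ fun i _ => ?_).trans (by simp))
  exact (norm_iteratedFDeriv_pd_le (contDiff_pd (k := j + 1) hf i) i y).trans
    (norm_iteratedFDeriv_pd_le (j := j + 1) hf i y)

theorem norm_iteratedFDeriv_conj (j : ℕ) (f : R12 → ℂ) (y : R12) :
    ‖iteratedFDeriv ℝ j (fun y => conj (f y)) y‖ = ‖iteratedFDeriv ℝ j f y‖ := by
  exact Complex.conjLIE.norm_iteratedFDeriv_comp_left f y j

end

end Crest.Agent.R086.E
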