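import Crest.Agent.R086.E.Scale

open MeasureTheory Set Filter Topology
open scoped ContDiff ComplexConjugate ENNReal
open Crest.AnalysisR.PDE.NLS

namespace Crest.Agent.R086.E

noncomputable section

/-! # The forms `BB`, `HH`, `NN`: algebra (all by induction on j, generalising the functions) -/

private theorem h93_diff {j : ℕ} {f : R12 → ℂ} (hf : ContDiff ℝ (j + 1 : ℕ) f) :
    Differentiable ℝ f := hf.differentiable (by exact_mod_cast Nat.succ_ne_zero j)

private theorem h93_pd_add {f g : R12 → ℂ} (hf : Differentiable ℝ f) (hg : Differentiable ℝ g)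
    (i : Fin 12) : pd i (fun y => f y + g y) = fun y => pd i f y + pd i g y := by
  funext y
  simp only [pd]
  rw [fderiv_fun_add (hf y) (hg y)]
  rfl

private theorem h93_pd_const_mul (c : ℂ) {f : R12 → ℂ} (hf : Differentiable ℝ f) (i : Fin 12) :
    pd i (fun y => c * f y) = fun y => c * pd i f y := by
  funext y
  simp only [pd]
  rw [fderiv_const_mul (hf y)]
  rfl

private theorem h93_pd_conj (f : R12 → ℂ) (i : Fin 12) :
    pd i (fun y => conj (f y)) = fun y => conj (pd i f y) := by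
  funext y
  have h := Complex.conjCLE.comp_fderiv (f := f) (x := y)
  exact congrArg (fun L : R12 →L[ℝ] ℂ => L (ee i)) h

private theorem h93_BB_zero (j : ℕ) (g : R12 → ℂ) (y : R12) : BB j (fun _ => 0) g y = 0 := by
  induction j generalizing g with
  | zero => simp [BB]
  | succ j ih =>
    have : ∀ i, pd i (fun _ => 0) = fun _ => 0 := fun i => by funext y; simp [pd]
    simp only [BB, this, ih, Finset.sum_const_zero]

theorem HH_zero (f : R12 → ℂ) (y : R12) : HH 0 f y = ‖f y‖ ^ 2 := by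
  simp only [HH, BB, Complex.mul_conj, Complex.ofReal_re, Complex.normSq_eq_norm_sq]

theorem HH_succ (j : ℕ) (f : R12 → ℂ) (y : R12) : HH (j + 1) f y = ∑ i : Fin 12, HH j (pd i f) y := by
  simp only [HH, BB, Complex.re_sum]

theorem HH_nonneg (j : ℕ) (f : R12 → ℂ) (y : R12) : 0 ≤ HH j f y := by
  induction j generalizing f with
  | zero => rw [HH_zero]; positivity
  | succ j ih => rw [HH_succ]; exact Finset.sum_nonneg fun i _ => ih _

theorem BB_self (j : ℕ) (f : R12 → ℂ) (y : R12) : BB j f f y = (HH j f y : ℂ) := by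
  induction j generalizing f with
  | zero => simp only [HH, BB, Complex.mul_conj, Complex.ofReal_re]
  | succ j ih => rw [HH_succ]; simp only [BB, ih, Complex.ofReal_sum]

theorem BB_swap (j : ℕ) (f g : R12 → ℂ) (y : R12) : BB j g f y = conj (BB j f g y) := by
  induction j generalizing f g with
  | zero => simp only [BB, map_mul, Complex.conj_conj, mul_comm]
  | succ j ih => simp only [BB, map_sum]; exact Finset.sum_congr rfl fun i _ => ih _ _

theorem NN_nonneg (j : ℕ) (f : R12 → ℂ) (y : R12) : 0 ≤ NN j f y := Real.sqrt_nonneg _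

theorem NN_sq (j : ℕ) (f : R12 → ℂ) (y : R12) : NN j f y ^ 2 = HH j f y := Real.sq_sqrt (HH_nonneg j f y)

theorem NN_zero (f : R12 → ℂ) (y : R12) : NN 0 f y = ‖f y‖ := by
  rw [NN, HH_zero, Real.sqrt_sq (norm_nonneg _)]

/-- Cauchy–Schwarz (`Real.sum_mul_le_sqrt_mul_sqrt` / `Finset.inner_mul_le_norm_mul_norm`) -/
theorem norm_BB_le (j : ℕ) (f g : R12 → ℂ) (y : R12) : ‖BB j f g y‖ ≤ NN j f y * NN j g y := by
  induction j generalizing f g with
  | zero => simp only [BB, NN_zero, norm_mul, Complex.norm_conj, le_refl]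
  | succ j ih =>
    refine (norm_sum_le _ _).trans ((Finset.sum_le_sum fun i _ => ih _ _).trans ?_)
    refine (Real.sum_mul_le_sqrt_mul_sqrt _ _ _).trans (le_of_eq ?_)
    simp only [NN_sq]
    rw [NN, NN, HH_succ, HH_succ]

theorem BB_add_left (j : ℕ) {f f' : R12 → ℂ} (hf : ContDiff ℝ j f) (hf' : ContDiff ℝ j f') (g : R12 → ℂ)
    (y : R12) : BB j (fun y => f y + f' y) g y = BB j f g y + BB j f' g y := by
  induction j generalizing f f' g with
  | zero => simp only [BB, add_mul]
  | succ j ih =>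
    simp only [BB, ← Finset.sum_add_distrib]
    refine Finset.sum_congr rfl fun i _ => ?_
    rw [h93_pd_add (h93_diff hf) (h93_diff hf'), ih (contDiff_pd hf i) (contDiff_pd hf' i)]

theorem BB_sub_left (j : ℕ) {f f' : R12 → ℂ} (hf : ContDiff ℝ j f) (hf' : ContDiff ℝ j f') (g : R12 → ℂ)
    (y : R12) : BB j (fun y => f y - f' y) g y = BB j f g y - BB j f' g y := by
  have h := BB_add_left j (hf.sub hf') hf' g y
  simp only [sub_add_cancel] at h
  exact eq_sub_of_add_eq h.symm

theorem BB_const_mul_left (j : ℕ) (c : ℂ) {f : R12 → ℂ} (hf : ContDiff ℝ j f) (g : R12 → ℂ) (y : R12) :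
    BB j (fun y => c * f y) g y = c * BB j f g y := by
  induction j generalizing f g with
  | zero => simp only [BB, mul_assoc]
  | succ j ih =>
    simp only [BB, Finset.mul_sum]
    refine Finset.sum_congr rfl fun i _ => ?_
    rw [h93_pd_const_mul c (h93_diff hf), ih (contDiff_pd hf i)]

theorem BB_sum_left (j : ℕ) {α : Type} (s : Finset α) {f : α → R12 → ℂ} (hf : ∀ a ∈ s, ContDiff ℝ j (f a))
    (g : R12 → ℂ) (y : R12) : BB j (fun y => ∑ a ∈ s, f a y) g y = ∑ a ∈ s, BB j (f a) g y := by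
  classical
  induction s using Finset.induction_on with
  | empty => simp only [Finset.sum_empty, h93_BB_zero]
  | insert a s ha ih =>
    have hs : ∀ b ∈ s, ContDiff ℝ j (f b) := fun b hb => hf b (Finset.mem_insert_of_mem hb)
    simp only [Finset.sum_insert ha]
    rw [BB_add_left j (hf a (Finset.mem_insert_self _ _)) (ContDiff.sum hs), ih hs]

theorem NN_add_le (j : ℕ) {f g : R12 → ℂ} (hf : ContDiff ℝ j f) (hg : ContDiff ℝ j g) (y : R12) :
    NN j (fun y => f y + g y) y ≤ NN j f y + NN j g y := by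
  have h1 : HH j (fun y => f y + g y) y = HH j f y + HH j g y + 2 * (BB j f g y).re := by
    rw [HH, BB_add_left j hf hg, BB_swap j (fun y => f y + g y) f, BB_swap j (fun y => f y + g y) g,
      BB_add_left j hf hg, BB_add_left j hf hg, BB_swap j f g]
    simp only [HH, Complex.add_re, Complex.conj_re]
    ring
  have h2 := (Complex.re_le_norm _).trans (norm_BB_le j f g y)
  refine Real.sqrt_le_iff.2 ⟨add_nonneg (NN_nonneg _ _ _) (NN_nonneg _ _ _), ?_⟩
  rw [h1, add_sq, NN_sq, NN_sq]
  linarith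

theorem NN_const_mul (j : ℕ) (c : ℂ) {f : R12 → ℂ} (hf : ContDiff ℝ j f) (y : R12) :
    NN j (fun y => c * f y) y = ‖c‖ * NN j f y := by
  have h1 : HH j (fun y => c * f y) y = ‖c‖ ^ 2 * HH j f y := by
    rw [HH, BB_const_mul_left j c hf, BB_swap j (fun y => c * f y) f, BB_const_mul_left j c hf,
      BB_self, map_mul, Complex.conj_ofReal, ← mul_assoc, Complex.mul_conj,
      ← Complex.ofReal_mul, Complex.ofReal_re, Complex.normSq_eq_norm_sq]
  rw [NN, h1, Real.sqrt_mul (sq_nonneg _), Real.sqrt_sq (norm_nonneg _), NN]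

theorem NN_conj (j : ℕ) (f : R12 → ℂ) (y : R12) : NN j (fun y => conj (f y)) y = NN j f y := by
  have h : ∀ f : R12 → ℂ, HH j (fun y => conj (f y)) y = HH j f y := by
    induction j with
    | zero => intro f; simp only [HH_zero, Complex.norm_conj]
    | succ j ih => intro f; simp only [HH_succ, h93_pd_conj, ih]
  rw [NN, h, NN]

theorem NN_pd_le (j : ℕ) (f : R12 → ℂ) (l : Fin 12) (y : R12) : NN j (pd l f) y ≤ NN (j + 1) f y := by
  refine Real.sqrt_le_sqrt ?_
  rw [HH_succ]
  exact Finset.single_le_sum (f := fun i => HH j (pd i f) y) (fun i _ => HH_nonneg _ _ _)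
    (Finset.mem_univ l)

theorem contDiff_BB (j m : ℕ) {f g : R12 → ℂ} (hf : ContDiff ℝ (j + m : ℕ) f) (hg : ContDiff ℝ (j + m : ℕ) g) :
    ContDiff ℝ m (BB j f g) := by
  induction j generalizing f g with
  | zero =>
    rw [zero_add] at hf hg
    exact hf.mul (Complex.conjCLE.contDiff.comp hg)
  | succ j ih =>
    rw [Nat.add_right_comm] at hf hg
    exact ContDiff.sum fun i _ => ih (contDiff_pd hf i) (contDiff_pd hg i)

theorem continuous_NN (j : ℕ) {f : R12 → ℂ} (hf : ContDiff ℝ j f) : Continuous (NN j f) :=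
  (Complex.continuous_re.comp (contDiff_BB j 0 hf hf).continuous).sqrt

theorem continuous_XN (h θ : ℝ) {τ : ℝ} (hτ : 0 < τ) (j : ℕ) {f : R12 → ℂ} (hf : ContDiff ℝ j f) :
    Continuous (XN h τ θ j f) := by
  refine (continuous_const.mul ?_).mul (continuous_NN j hf)
  exact (continuous_const.add ((contDiff_PP h).continuous.div_const τ)).rpow_const
    fun y => Or.inl (zero_lt_one.trans_le (one_le_rho h hτ y)).ne'

theorem XN_nonneg (h θ : ℝ) {τ : ℝ} (hτ : 0 < τ) (j : ℕ) (f : R12 → ℂ) (y : R12) : 0 ≤ XN h τ θ j f y :=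
  mul_nonneg (mul_nonneg (by positivity) (Real.rpow_nonneg (zero_le_one.trans (one_le_rho h hτ y)) _))
    (NN_nonneg _ _ _)

theorem XN_sq (h θ : ℝ) {τ : ℝ} (hτ : 0 < τ) (j : ℕ) (f : R12 → ℂ) (y : R12) :
    XN h τ θ j f y ^ 2 = τ ^ j * (1 + PP h y / τ) ^ (2 * θ) * HH j f y := by
  rw [XN, mul_pow, mul_pow, NN_sq, ← pow_mul, mul_comm j 2, pow_mul, Real.sq_sqrt hτ.le,
    mul_comm 2 θ, Real.rpow_mul (zero_le_one.trans (one_le_rho h hτ y)), Real.rpow_two]

theorem XN_mono (h : ℝ) {θ θ' : ℝ} (hθ : θ ≤ θ') {τ : ℝ} (hτ : 0 < τ) (j : ℕ) (f : R12 → ℂ) (y : R12) :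
    XN h τ θ j f y ≤ XN h τ θ' j f y :=
  mul_le_mul_of_nonneg_right (mul_le_mul_of_nonneg_left
    (Real.rpow_le_rpow_of_exponent_le (one_le_rho h hτ y) hθ) (by positivity)) (NN_nonneg _ _ _)

/-- if f vanishes outside a ball, so do the forms -/
theorem BB_eq_zero_of_out (j : ℕ) {R : ℝ} (f : R12 → ℂ) {g : R12 → ℂ} (hg : ∀ y, R < ‖y‖ → g y = 0) :
    ∀ y, R < ‖y‖ → BB j f g y = 0 := by
  induction j generalizing f g with
  | zero => intro y hy; simp only [BB, hg y hy, map_zero, mul_zero]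
  | succ j ih =>
    intro y hy
    refine Finset.sum_eq_zero fun i _ => ih _ (fun z hz => ?_) y hy
    have h : g =ᶠ[𝓝 z] fun _ => 0 :=
      ((isOpen_lt continuous_const continuous_norm).eventually_mem hz).mono fun w hw => hg w hw
    simp only [pd, h.fderiv_eq, fderiv_fun_const, Pi.zero_apply, zero_apply]

end

end Crest.Agent.R086.E
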