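import Crest.Agent.R086.E.HHa

open MeasureTheory Set Filter Topology
open scoped ContDiff ComplexConjugate ENNReal
open Crest.AnalysisR.PDE.NLS

namespace Crest.Agent.R086.E

noncomputable section

/-! # Comparison of `NN` with the operator norm; Leibniz with the top term separated -/

/-- induction with `norm_iteratedFDeriv_pd_le` -/
theorem NN_le (j : ℕ) {f : R12 → ℂ} (hf : ContDiff ℝ j f) (y : R12) :
    NN j f y ≤ 12 ^ j * ‖iteratedFDeriv ℝ j f y‖ := by
  induction j generalizing f with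
  | zero => rw [NN_zero, norm_iteratedFDeriv_zero, pow_zero, one_mul]
  | succ j ih =>
    have hN := norm_nonneg (iteratedFDeriv ℝ (j + 1) f y)
    have hp : (0 : ℝ) < 12 ^ j := by positivity
    refine Real.sqrt_le_iff.2 ⟨by positivity, ?_⟩
    rw [HH_succ]
    have h1 : ∀ i ∈ (Finset.univ : Finset (Fin 12)),
        HH j (pd i f) y ≤ (12 ^ j * ‖iteratedFDeriv ℝ (j + 1) f y‖) ^ 2 := fun i _ => by
      rw [← NN_sq]
      exact pow_le_pow_left₀ (NN_nonneg _ _ _) ((ih (contDiff_pd hf i)).trans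
        (mul_le_mul_of_nonneg_left (norm_iteratedFDeriv_pd_le hf i y) hp.le)) 2
    refine (Finset.sum_le_card_nsmul _ _ _ h1).trans ?_
    rw [Finset.card_univ, Fintype.card_fin, nsmul_eq_mul, pow_succ (12 : ℝ) j]
    push_cast
    nlinarith [sq_nonneg (12 ^ j * ‖iteratedFDeriv ℝ (j + 1) f y‖)]

/-- induction with `norm_iteratedFDeriv_succ_le`, `NN_pd_le` -/
theorem norm_le_NN (j : ℕ) {f : R12 → ℂ} (hf : ContDiff ℝ j f) (y : R12) :
    ‖iteratedFDeriv ℝ j f y‖ ≤ 12 ^ j * NN j f y := by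
  induction j generalizing f with
  | zero => rw [NN_zero, norm_iteratedFDeriv_zero, pow_zero, one_mul]
  | succ j ih =>
    have hp : (0 : ℝ) < 12 ^ j := by positivity
    refine (norm_iteratedFDeriv_succ_le hf y).trans ?_
    have h1 : ∀ i ∈ (Finset.univ : Finset (Fin 12)),
        ‖iteratedFDeriv ℝ j (pd i f) y‖ ≤ 12 ^ j * NN (j + 1) f y := fun i _ =>
      (ih (contDiff_pd hf i)).trans (mul_le_mul_of_nonneg_left (NN_pd_le j f i y) hp.le)
    refine (Finset.sum_le_card_nsmul _ _ _ h1).trans (le_of_eq ?_)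
    rw [Finset.card_univ, Fintype.card_fin, nsmul_eq_mul, pow_succ (12 : ℝ) j]
    push_cast
    ring

theorem hhb_NN_sum_le (j : ℕ) {α : Type} (s : Finset α) {f : α → R12 → ℂ}
    (hf : ∀ a ∈ s, ContDiff ℝ j (f a)) (y : R12) :
    NN j (fun y => ∑ a ∈ s, f a y) y ≤ ∑ a ∈ s, NN j (f a) y := by
  classical
  induction s using Finset.induction_on with
  | empty =>
    simp only [Finset.sum_empty]
    have := NN_le j (f := fun _ => (0 : ℂ)) contDiff_const y
    simpa using this
  | insert a s ha ih =>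
    simp only [Finset.sum_insert ha]
    have h1 : ∀ b ∈ s, ContDiff ℝ j (f b) := fun b hb => hf b (Finset.mem_insert_of_mem hb)
    exact (NN_add_le j (hf a (Finset.mem_insert_self _ _)) (ContDiff.sum h1) y).trans
      (add_le_add le_rfl (ih h1))

theorem hhb_lap {j : ℕ} {f : R12 → ℂ} (hf : ContDiff ℝ (j + 2 : ℕ) f) :
    lap f = fun y => ∑ i : Fin 12, pd i (pd i f) y :=
  funext (lap_eq (hf.of_le (by exact_mod_cast Nat.le_add_left 2 j)))

/-- `lap f = Σ pd i (pd i f)` (`lap_eq`), triangle inequality, `NN_pd_le` twice -/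
theorem NN_lap_le (j : ℕ) {f : R12 → ℂ} (hf : ContDiff ℝ (j + 2 : ℕ) f) (y : R12) :
    NN j (lap f) y ≤ 12 * NN (j + 2) f y := by
  rw [hhb_lap hf]
  refine (hhb_NN_sum_le j _ (fun i _ => contDiff_pd (contDiff_pd (k := j + 1) hf i) i) y).trans ?_
  have h1 : ∀ i ∈ (Finset.univ : Finset (Fin 12)), NN j (pd i (pd i f)) y ≤ NN (j + 2) f y :=
    fun i _ => (NN_pd_le j _ i y).trans (NN_pd_le (j + 1) f i y)
  refine (Finset.sum_le_card_nsmul _ _ _ h1).trans (le_of_eq ?_)
  rw [Finset.card_univ, Fintype.card_fin, nsmul_eq_mul]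
  push_cast
  ring

theorem hhb_norm_sub_const {m : ℕ} (hm : 0 < m) (A : R12 → ℂ) (c : ℂ) (y : R12) :
    ‖iteratedFDeriv ℝ m (fun z => A z - c) y‖ = ‖iteratedFDeriv ℝ m A y‖ := by
  obtain ⟨m, rfl⟩ := Nat.exists_eq_succ_of_ne_zero hm.ne'
  rw [← norm_iteratedFDeriv_fderiv, ← norm_iteratedFDeriv_fderiv,
    show fderiv ℝ (fun z => A z - c) = fderiv ℝ A from funext fun z => fderiv_sub_const c]

/-- A f = A(y) f + (A - A(y)) f; for the second term `NN_le`, `norm_iteratedFDeriv_mul_le` (the term with no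
derivative on A - A(y) vanishes at y), `norm_le_NN` -/
theorem NN_mul_le (k : ℕ) : ∃ K : ℝ, 0 < K ∧ ∀ j : ℕ, j ≤ k → ∀ (A f : R12 → ℂ), ContDiff ℝ j A →
    ContDiff ℝ j f → ∀ y, NN j (fun y => A y * f y) y ≤ ‖A y‖ * NN j f y +
      K * ∑ i ∈ Finset.range j, ‖iteratedFDeriv ℝ (j - i) A y‖ * NN i f y := by
  refine ⟨12 ^ k * (2 ^ k * 12 ^ k), by positivity, fun j hj A f hA hf y => ?_⟩
  have hA' : ContDiff ℝ j (fun z => A z - A y) := hA.sub contDiff_const
  have e : (fun z => A z * f z) = fun z => A y * f z + f z * (A z - A y) := by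
    funext z; ring
  rw [e]
  refine (NN_add_le j (contDiff_const.mul hf) (hf.mul hA') y).trans ?_
  rw [NN_const_mul j _ hf]
  refine add_le_add le_rfl ((NN_le j (hf.mul hA') y).trans ?_)
  have h1 := norm_iteratedFDeriv_mul_le hf hA' y (n := j) le_rfl
  rw [Finset.sum_range_succ, Nat.sub_self, norm_iteratedFDeriv_zero, sub_self, norm_zero, mul_zero,
    add_zero] at h1
  rw [mul_assoc]
  refine mul_le_mul (pow_le_pow_right₀ (by norm_num) hj) (h1.trans ?_) (norm_nonneg _)
    (by positivity)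
  rw [Finset.mul_sum]
  refine Finset.sum_le_sum fun i hi => ?_
  have hi' := Finset.mem_range.1 hi
  rw [hhb_norm_sub_const (Nat.sub_pos_of_lt hi')]
  have h2 : (j.choose i : ℝ) ≤ 2 ^ k :=
    le_trans (by exact_mod_cast Nat.choose_le_two_pow j i) (pow_le_pow_right₀ (by norm_num) hj)
  have h3 : ‖iteratedFDeriv ℝ i f y‖ ≤ 12 ^ k * NN i f y :=
    (norm_le_NN i (hf.of_le (by exact_mod_cast hi'.le)) y).trans (mul_le_mul_of_nonneg_right
      (pow_le_pow_right₀ (by norm_num) (hi'.le.trans hj)) (NN_nonneg _ _ _))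
  have h4 := mul_le_mul_of_nonneg_right (mul_le_mul h2 h3 (norm_nonneg _) (by positivity))
    (norm_nonneg (iteratedFDeriv ℝ (j - i) A y))
  linarith

theorem hhb_pd_conj (g : R12 → ℂ) (l : Fin 12) (y : R12) :
    pd l (fun y => conj (g y)) y = conj (pd l g y) := by
  have := Complex.conjCLE.comp_fderiv (f := g) (x := y)
  exact congrArg (fun L : R12 →L[ℝ] ℂ => L (ee l)) this

/-- product rule (uses `pd_comm`) -/
theorem pd_BB (j : ℕ) {f g : R12 → ℂ} (hf : ContDiff ℝ (j + 1 : ℕ) f) (hg : ContDiff ℝ (j + 1 : ℕ) g)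
    (l : Fin 12) (y : R12) : pd l (BB j f g) y = BB j (pd l f) g y + BB j f (pd l g) y := by
  induction j generalizing f g with
  | zero =>
    have hf' : Differentiable ℝ f := hf.differentiable (by simp)
    have hg' : Differentiable ℝ (fun y => conj (g y)) :=
      Complex.conjCLE.differentiable.comp (hg.differentiable (by simp))
    simp only [BB]
    rw [pd_mul hf' hg']
    simp only [hhb_pd_conj]
  | succ j ih =>
    have hf2 : ContDiff ℝ 2 f := hf.of_le (by exact_mod_cast Nat.le_add_left 2 j)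
    have hg2 : ContDiff ℝ 2 g := hg.of_le (by exact_mod_cast Nat.le_add_left 2 j)
    have hd : ∀ i ∈ (Finset.univ : Finset (Fin 12)),
        DifferentiableAt ℝ (BB j (pd i f) (pd i g)) y := fun i _ =>
      (contDiff_BB j 1 (contDiff_pd hf i) (contDiff_pd hg i)).differentiable (by simp) y
    simp only [BB]
    rw [← Finset.sum_add_distrib, pd, fderiv_fun_sum hd, ContinuousLinearMap.sum_apply]
    refine Finset.sum_congr rfl fun i _ => ?_
    have := ih (contDiff_pd hf i) (contDiff_pd hg i)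
    rw [pd_comm hf2 l i, pd_comm hg2 l i] at this
    exact this

/-- **the divergence identity** -/
theorem sum_pd_BB (j : ℕ) {f : R12 → ℂ} (hf : ContDiff ℝ (j + 2 : ℕ) f) (y : R12) :
    ∑ l : Fin 12, pd l (BB j (pd l f) f) y = BB j (lap f) f y + (HH (j + 1) f y : ℂ) := by
  have hf1 : ContDiff ℝ (j + 1 : ℕ) f := hf.of_le (by exact_mod_cast Nat.le_succ (j + 1))
  rw [← BB_self, hhb_lap hf,
    BB_sum_left j _ (fun i _ => contDiff_pd (contDiff_pd (k := j + 1) hf i) i)]
  simp only [BB]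
  rw [← Finset.sum_add_distrib]
  exact Finset.sum_congr rfl fun l _ => pd_BB j (contDiff_pd (k := j + 1) hf l) hf1 l y

end

end Crest.Agent.R086.E
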