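import Crest.Agent.R086.E.Alg
import Crest.Agent.R086.E.UUa

open MeasureTheory Set Filter Topology
open scoped ContDiff ComplexConjugate ENNReal
open Crest.AnalysisR.PDE.NLS

namespace Crest.Agent.R086.E

noncomputable section

/-! # E4 -/

/-- second-order Taylor remainder of (u+z)^m conj(u+z)^l -/
def TR (m l : ℕ) (u z : ℂ) : ℂ :=
  (u + z) ^ m * conj (u + z) ^ l - u ^ m * conj u ^ l - TL m l u z
where
  /-- the linear part -/
  TL (m l : ℕ) (u z : ℂ) : ℂ :=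
    (m : ℂ) * (u ^ (m - 1) * conj u ^ l) * z + (l : ℂ) * (u ^ m * conj u ^ (l - 1)) * conj z

theorem TR_zero (u z : ℂ) : TR 0 0 u z = 0 := by
  simp [TR, TR.TL]

theorem TR_succ_left (m l : ℕ) (u z : ℂ) :
    TR (m + 1) l u z = TR m l u z * u + TR m l u z * z + TR.TL m l u z * z := by
  cases m <;> simp only [TR, TR.TL, Nat.add_sub_cancel] <;> push_cast <;> ring

theorem TR_succ_right (m l : ℕ) (u z : ℂ) :
    TR m (l + 1) u z = TR m l u z * conj u + TR m l u z * conj z + TR.TL m l u z * conj z := by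
  cases l <;> simp only [TR, TR.TL, Nat.add_sub_cancel, map_add] <;> push_cast <;> ring

theorem Quad_eq (n : ℕ) (u z : ℂ) : Quad n u z = TR (n + 1) n u z := by
  simp only [Quad, NL, V1, V2, TR, TR.TL, Nat.add_sub_cancel]
  push_cast
  ring

theorem Quad_conj {k : ℕ} {f : R12 → ℂ} (hf : ContDiff ℝ k f) : ContDiff ℝ k fun y => conj (f y) :=
  Complex.conjCLE.contDiff.comp hf

theorem Quad_TL_diff {k : ℕ} {u f : R12 → ℂ} (hu : ContDiff ℝ k u) (hf : ContDiff ℝ k f)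
    (m l : ℕ) : ContDiff ℝ k fun y => TR.TL m l (u y) (f y) :=
  ((contDiff_const.mul ((hu.pow _).mul ((Quad_conj hu).pow _))).mul hf).add
    ((contDiff_const.mul ((hu.pow _).mul ((Quad_conj hu).pow _))).mul (Quad_conj hf))

theorem Quad_TR_diff {k : ℕ} {u f : R12 → ℂ} (hu : ContDiff ℝ k u) (hf : ContDiff ℝ k f)
    (m l : ℕ) : ContDiff ℝ k fun y => TR m l (u y) (f y) :=
  ((((hu.add hf).pow _).mul ((Quad_conj (hu.add hf)).pow _)).sub
    ((hu.pow _).mul ((Quad_conj hu).pow _))).sub (Quad_TL_diff hu hf m l)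

theorem Quad_U_diff {n : ℕ} {b : ℝ} {q : ℝ → ℂ} (hq : Prof n b q) (k : ℕ) (h : ℝ) :
    ContDiff ℝ k (UU n b q h 0) := (contDiff_UU hq h 0).of_le (by exact_mod_cast le_top)

theorem Quad_add {k : ℕ} {h a a' : ℝ} {f g : R12 → ℂ} (hf : ContDiff ℝ k f) (hg : ContDiff ℝ k g)
    (ha : 0 ≤ a) (ha' : 0 ≤ a') (h1 : nrm k h f ≤ ENNReal.ofReal a)
    (h2 : nrm k h g ≤ ENNReal.ofReal a') :
    nrm k h (fun y => f y + g y) ≤ ENNReal.ofReal (a + a') := by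
  rw [ENNReal.ofReal_add ha ha']
  exact (nrm_add_le h hf hg).trans (add_le_add h1 h2)

/-- `c U^m conj U^l` is a multiplier -/
theorem Quad_mul {n : ℕ} {b : ℝ} {q : ℝ → ℂ} (hq : Prof n b q) (k m l : ℕ) (c : ℂ) :
    ∃ C : ℝ, 0 < C ∧ ∀ h ∈ Icc (0 : ℝ) 1, ∀ (f : R12 → ℂ) (B : ℝ), 0 ≤ B → ContDiff ℝ k f →
      nrm k h f ≤ ENNReal.ofReal B →
      nrm k h (fun y => c * (UU n b q h 0 y ^ m * conj (UU n b q h 0 y) ^ l) * f y) ≤
        ENNReal.ofReal (C * B) := by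
  have hU : Sy (fun i : Icc (0 : ℝ) 1 => (i : ℝ)) (fun _ => 1) 0 fun i => UU n b q i 0 :=
    (sy_UU hq fun i : Icc (0 : ℝ) 1 => i.2).mono_order (by linarith [aa_pos hq.npos])
  have hS := ((hU.pow m).mul_one (hU.conj.pow l)).cmul_bdd (c := fun _ => c) fun _ => le_rfl
  obtain ⟨M, hM, hb⟩ := hS.bound_le k
  obtain ⟨C, hC, H⟩ := nrm_mul_le k
  refine ⟨C * M, mul_pos hC hM, fun h hh f B hB hf hfB => H h _ f M B hM.le hB
    ((hS.smooth ⟨h, hh⟩).of_le (by exact_mod_cast le_top)) hf (fun j hj y => ?_) hfB⟩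
  have := hb ⟨h, hh⟩ j hj y
  rwa [mul_one, mul_zero, mul_zero, add_zero, zero_sub, ← neg_div] at this

/-- the linear part: `nrm_mul_le` with the symbols of order ≤ 0 `U^m conj U^l` (`sy_UU`, `Sy.pow`,
`Sy.mono_order`, `Sy.bound_le`; index type `Icc 0 1`) -/
theorem nrm_TL_le {n : ℕ} {b : ℝ} {q : ℝ → ℂ} (hq : Prof n b q) (k m l : ℕ) : ∃ C : ℝ, 0 < C ∧
    ∀ h ∈ Icc (0 : ℝ) 1, ∀ (f : R12 → ℂ) (B : ℝ), 0 ≤ B → ContDiff ℝ k f →
      nrm k h f ≤ ENNReal.ofReal B →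
      nrm k h (fun y => TR.TL m l (UU n b q h 0 y) (f y)) ≤ ENNReal.ofReal (C * B) := by
  obtain ⟨C₁, hC₁, H₁⟩ := Quad_mul hq k (m - 1) l m
  obtain ⟨C₂, hC₂, H₂⟩ := Quad_mul hq k m (l - 1) l
  refine ⟨C₁ + C₂, add_pos hC₁ hC₂, fun h hh f B hB hf hfB => ?_⟩
  have hu := Quad_U_diff hq k h
  rw [add_mul]
  exact Quad_add ((contDiff_const.mul ((hu.pow _).mul ((Quad_conj hu).pow _))).mul hf)
    ((contDiff_const.mul ((hu.pow _).mul ((Quad_conj hu).pow _))).mul (Quad_conj hf))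
    (mul_nonneg hC₁.le hB) (mul_nonneg hC₂.le hB) (H₁ h hh f B hB hf hfB)
    (H₂ h hh _ B hB (Quad_conj hf) ((nrm_conj k h f).trans_le hfB))

theorem Quad_step {n : ℕ} {b : ℝ} {q : ℝ → ℂ} (hq : Prof n b q) {k : ℕ} (hk : 80 ≤ k)
    (m l a a' : ℕ)
    (ih : ∃ C : ℝ, 0 < C ∧ ∀ h ∈ Icc (0 : ℝ) 1, ∀ (f : R12 → ℂ) (B : ℝ), 0 ≤ B → B ≤ 1 →
      ContDiff ℝ k f → Per h f → nrm k h f ≤ ENNReal.ofReal B →
      nrm k h (fun y => TR m l (UU n b q h 0 y) (f y)) ≤ ENNReal.ofReal (C * B ^ 2)) :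
    ∃ C : ℝ, 0 < C ∧ ∀ h ∈ Icc (0 : ℝ) 1, ∀ (f g : R12 → ℂ) (B : ℝ), 0 ≤ B → B ≤ 1 →
      ContDiff ℝ k f → Per h f → nrm k h f ≤ ENNReal.ofReal B →
      ContDiff ℝ k g → Per h g → nrm k h g ≤ ENNReal.ofReal B →
      nrm k h (fun y => 1 * (UU n b q h 0 y ^ a * conj (UU n b q h 0 y) ^ a') *
          TR m l (UU n b q h 0 y) (f y) + TR m l (UU n b q h 0 y) (f y) * g y +
          TR.TL m l (UU n b q h 0 y) (f y) * g y) ≤ ENNReal.ofReal (C * B ^ 2) := by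
  obtain ⟨C₀, hC₀, H₀⟩ := ih
  obtain ⟨C₁, hC₁, H₁⟩ := Quad_mul hq k a a' 1
  obtain ⟨C₂, hC₂, H₂⟩ := nrm_mul_mul hk
  obtain ⟨C₃, hC₃, H₃⟩ := nrm_TL_le hq k m l
  refine ⟨C₁ * C₀ + C₂ * C₀ + C₂ * C₃, by positivity,
    fun h hh f g B hB hB1 hf hpf hfB hg hpg hgB => ?_⟩
  have hu := Quad_U_diff hq k h
  have hR := Quad_TR_diff hu hf m l
  have hL := Quad_TL_diff hu hf m l
  have h0 := H₀ h hh f B hB hB1 hf hpf hfB
  have pR : Per h fun y => TR m l (UU n b q h 0 y) (f y) := fun h0 y i => by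
    simp only [per_UU n b q h 0 h0 y i, hpf h0 y i]
  have pL : Per h fun y => TR.TL m l (UU n b q h 0 y) (f y) := fun h0 y i => by
    simp only [per_UU n b q h 0 h0 y i, hpf h0 y i]
  have hA := (contDiff_const (c := (1 : ℂ)).mul ((hu.pow a).mul ((Quad_conj hu).pow a'))).mul hR
  refine (Quad_add (hA.add (hR.mul hg)) (hL.mul hg) (by positivity) (by positivity)
    (Quad_add hA (hR.mul hg) (by positivity) (by positivity)
      (H₁ h hh _ _ (by positivity) hR h0)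
      (H₂ h hh _ g _ B (by positivity) hB hR hg pR hpg h0 hgB))
    (H₂ h hh _ g _ B (by positivity) hB hL hg pL hpg (H₃ h hh f B hB hf hfB) hgB)).trans
    (ENNReal.ofReal_le_ofReal ?_)
  have := mul_le_of_le_one_right (by positivity : 0 ≤ C₂ * (C₀ * B ^ 2)) hB1
  linarith

/-- double induction with `TR_succ_left/right`, `nrm_mul_le`, `nrm_mul_mul`, `nrm_add_le`, B ≤ 1 -/
theorem nrm_TR_le {n : ℕ} {b : ℝ} {q : ℝ → ℂ} (hq : Prof n b q) {k : ℕ} (hk : 80 ≤ k) (m l : ℕ) :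
    ∃ C : ℝ, 0 < C ∧ ∀ h ∈ Icc (0 : ℝ) 1, ∀ (f : R12 → ℂ) (B : ℝ), 0 ≤ B → B ≤ 1 → ContDiff ℝ k f →
      Per h f → nrm k h f ≤ ENNReal.ofReal B →
      nrm k h (fun y => TR m l (UU n b q h 0 y) (f y)) ≤ ENNReal.ofReal (C * B ^ 2) := by
  induction m with
  | zero =>
    induction l with
    | zero =>
      refine ⟨1, one_pos, fun h hh f B hB hB1 hf hpf hfB => ?_⟩
      simp only [TR_zero, nrm_zero, zero_le]
    | succ l ih =>
      obtain ⟨C, hC, H⟩ := Quad_step hq hk 0 l 0 1 ih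
      refine ⟨C, hC, fun h hh f B hB hB1 hf hpf hfB => le_of_eq_of_le ?_
        (H h hh f (fun y => conj (f y)) B hB hB1 hf hpf hfB (Quad_conj hf)
          (fun h0 y i => by simp only [hpf h0 y i]) ((nrm_conj k h f).trans_le hfB))⟩
      congr 1
      funext y
      rw [TR_succ_right]
      ring
  | succ m ih =>
    obtain ⟨C, hC, H⟩ := Quad_step hq hk m l 1 0 ih
    refine ⟨C, hC, fun h hh f B hB hB1 hf hpf hfB => le_of_eq_of_le ?_
      (H h hh f f B hB hB1 hf hpf hfB hf hpf hfB)⟩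
    congr 1
    funext y
    rw [TR_succ_left]
    ring

theorem quad : QuadStmt := by
  intro n b q hq k hk
  simp only [Quad_eq]
  exact nrm_TR_le hq hk (n + 1) n

end

end Crest.Agent.R086.E
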