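import Crest.Agent.R086.E.RecA
import Crest.Agent.R086.E.UUa
import Crest.Agent.R086.E.CkB
import Crest.Agent.R086.E.SymNrm

open MeasureTheory Set Filter Topology
open scoped ContDiff ComplexConjugate ENNReal
open Crest.AnalysisR.PDE.NLS

namespace Crest.Agent.R086.E

noncomputable section

/-! # E5, second half -/

/-- the parameters -/
structure RP where
  h : ℝ
  T : ℝ
  x : R12
  ϑ : ℝ
  ε : ℝ
  hh : h ∈ Icc (0 : ℝ) (1 / 2)
  hε : ε ≤ 1 / 2
  hT : |T - 1| ≤ ε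
  hx : ‖x‖ ≤ ε
  hϑ : |ϑ| ≤ ε

/-- the new period parameter -/
def RP.h' (p : RP) : ℝ := p.h * Real.sqrt p.T
/-- argument of q in the re-centred profile -/
def RP.A (p : RP) (y : R12) : ℝ := p.T * PP p.h' (y + (Real.sqrt p.T)⁻¹ • p.x) / 4
/-- argument of q in the profile -/
def RP.B (p : RP) (y : R12) : ℝ := PP p.h' y / 4

private theorem recB_T (p : RP) : 1 / 2 ≤ p.T ∧ p.T ≤ 2 := by
  have h1 := abs_le.1 p.hT
  have h2 := p.hε
  constructor <;> linarith [h1.1, h1.2]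

private theorem recB_sqrt (p : RP) : 1 / 2 ≤ Real.sqrt p.T ∧ Real.sqrt p.T ≤ 2 := by
  have h := recB_T p
  constructor
  · exact Real.le_sqrt_of_sq_le (by linarith [h.1])
  · exact Real.sqrt_le_iff.2 ⟨by norm_num, by linarith [h.2]⟩

private theorem recB_x (p : RP) : ‖(Real.sqrt p.T)⁻¹ • p.x‖ ≤ 2 * p.ε := by
  have h := (recB_sqrt p).1
  have h0 : 0 < Real.sqrt p.T := by linarith
  rw [norm_smul, norm_inv, Real.norm_of_nonneg h0.le]
  refine mul_le_mul ?_ p.hx (norm_nonneg _) (by norm_num)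
  rw [inv_le_comm₀ h0 (by norm_num)]
  linarith

private theorem recB_x1 (p : RP) : ‖(Real.sqrt p.T)⁻¹ • p.x‖ ≤ 1 := by
  linarith [recB_x p, p.hε]

theorem RP.h'_mem (p : RP) : p.h' ∈ Icc (0 : ℝ) 1 := by
  have h1 := recB_sqrt p
  have h2 := p.hh
  refine ⟨mul_nonneg h2.1 (Real.sqrt_nonneg _), ?_⟩
  unfold RP.h'
  nlinarith [h1.1, h1.2, h2.1, h2.2]

theorem RP.ε_nonneg (p : RP) : 0 ≤ p.ε := (norm_nonneg _).trans p.hx

theorem RP.Zs_eq (n : ℕ) (b : ℝ) (q : ℝ → ℂ) (p : RP) (y : R12) :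
    Zs n b p.T p.x p.ϑ (UU n b q p.h 0) y =
      Complex.exp (-Complex.I * p.ϑ) * cp p.T ((aa n : ℂ) - Complex.I * b) * q (p.A y) := by
  have h0 : 0 < Real.sqrt p.T := by linarith [(recB_sqrt p).1]
  have hT : 0 < p.T := by linarith [(recB_T p).1]
  unfold Zs RP.A RP.h'
  rw [UU_zero_time, PP_scale _ _ h0.ne', smul_add, smul_smul, mul_inv_cancel₀ h0.ne', one_smul,
    Real.sq_sqrt hT.le, add_comm p.x, mul_div_cancel₀ _ hT.ne']

/-- mean value inequality (`hasDerivAt_cp`, `norm_cp`; ‖exp(-iϑ) - 1‖ ≤ |ϑ|) -/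
theorem RP.factor_le (n : ℕ) (b : ℝ) : ∃ C : ℝ, ∀ p : RP,
    ‖Complex.exp (-Complex.I * p.ϑ) * cp p.T ((aa n : ℂ) - Complex.I * b) - 1‖ ≤ C * p.ε := by
  obtain ⟨s, hs⟩ : ∃ s : ℂ, s = (aa n : ℂ) - Complex.I * b := ⟨_, rfl⟩
  rw [← hs]
  have hsub : Icc (1 / 2 : ℝ) 2 ⊆ Ioi 0 := fun σ hσ => lt_of_lt_of_le (by norm_num) hσ.1
  obtain ⟨M, hM⟩ := isCompact_Icc.exists_bound_of_continuousOn
    (f := fun σ => s * cp σ (s - 1))
    (continuousOn_const.mul ((contDiffOn_cp (s - 1)).continuousOn.mono hsub))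
  refine ⟨|M| + 1, fun p => ?_⟩
  have h1 : ‖cp p.T s - cp 1 s‖ ≤ M * ‖p.T - 1‖ :=
    (convex_Icc (1 / 2 : ℝ) 2).norm_image_sub_le_of_norm_hasDerivWithin_le
      (f := fun σ => cp σ s) (fun σ hσ => (hasDerivAt_cp (hsub hσ) s).hasDerivWithinAt) hM
      ⟨by norm_num, by norm_num⟩ (recB_T p)
  rw [cp_one_left, Real.norm_eq_abs] at h1
  have h2 : ‖cp p.T s - 1‖ ≤ |M| * p.ε :=
    h1.trans (mul_le_mul (le_abs_self M) p.hT (abs_nonneg _) (abs_nonneg _))
  have e : -Complex.I * p.ϑ = Complex.I * ((-p.ϑ : ℝ) : ℂ) := by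
    push_cast
    ring
  have h3 : ‖Complex.exp (-Complex.I * p.ϑ) - 1‖ ≤ p.ε := by
    rw [e]
    refine Real.norm_exp_I_mul_ofReal_sub_one_le.trans ?_
    rw [norm_neg, Real.norm_eq_abs]
    exact p.hϑ
  have h4 : ‖Complex.exp (-Complex.I * p.ϑ)‖ = 1 := by
    rw [e, Complex.norm_exp_I_mul_ofReal]
  have e2 : Complex.exp (-Complex.I * p.ϑ) * cp p.T s - 1
      = Complex.exp (-Complex.I * p.ϑ) * (cp p.T s - 1)
        + (Complex.exp (-Complex.I * p.ϑ) - 1) := by ring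
  rw [e2]
  refine (norm_add_le _ _).trans ?_
  rw [norm_mul, h4]
  linarith

private theorem recB_sy : Sy RP.h' (fun _ => 1) 1
    (fun p y => PP p.h' (y + (Real.sqrt p.T)⁻¹ • p.x)) :=
  (sy_PP RP.h'_mem).translate recB_x1

theorem sy_RP_A : Sy RP.h' (fun _ => 1) 1 RP.A := by
  refine (recB_sy.smul_bdd (c := fun p => p.T / 4) (C := 1) fun p => ?_).congr fun p y => ?_
  · have h := recB_T p
    rw [abs_le]
    constructor <;> linarith [h.1, h.2]
  · simp only [RP.A, smul_eq_mul]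
    ring

theorem sy_RP_B : Sy RP.h' (fun _ => 1) 1 RP.B := by
  refine ((sy_PP RP.h'_mem).smul_bdd (c := fun _ => 1 / 4) (C := 1) fun p => ?_).congr
    fun p y => ?_
  · norm_num [abs_le]
  · simp only [RP.B, smul_eq_mul]
    ring

/-- A - B = (T-1) P(y+x')/4 + (P(y+x') - P y)/4; `Sy.translate`, `Sy.translate_sub`, `Sy.smul` -/
theorem sy_RP_sub : Sy RP.h' RP.ε 1 (fun p y => p.A y - p.B y) := by
  have h1 := recB_sy.smul (κ' := RP.ε) (c := fun p => (p.T - 1) / 4) (C := 1) RP.ε_nonneg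
    (fun p => by
      have := p.hT
      have := p.ε_nonneg
      rw [abs_div, abs_of_pos (by norm_num : (0 : ℝ) < 4)]
      linarith)
  simp only [mul_one] at h1
  have h2 := ((sy_PP RP.h'_mem).translate_sub recB_x1 RP.ε_nonneg recB_x).mono_order
    (m' := 1) (by norm_num)
  have h3 := h2.smul_bdd (c := fun _ => 1 / 4) (C := 1) (fun _ => by norm_num [abs_le])
  refine (h1.add h3).congr fun p y => ?_
  simp only [RP.A, RP.B, smul_eq_mul]
  ring

/-- `PP_add_le` -/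
theorem RP.lower (p : RP) (y : R12) : 0 ≤ p.A y ∧ 0 ≤ p.B y ∧
    (1 / 32 : ℝ) * (1 + PP p.h' y) ≤ 1 + p.A y ∧ (1 / 32 : ℝ) * (1 + PP p.h' y) ≤ 1 + p.B y := by
  have hT := (recB_T p).1
  have h1 := PP_nonneg p.h' y
  have h2 := PP_nonneg p.h' (y + (Real.sqrt p.T)⁻¹ • p.x)
  have h3 := PP_add_le p.h' (y + (Real.sqrt p.T)⁻¹ • p.x) (-((Real.sqrt p.T)⁻¹ • p.x))
  rw [add_neg_cancel_right, norm_neg] at h3
  have h4 : ‖(Real.sqrt p.T)⁻¹ • p.x‖ ^ 2 ≤ 1 := pow_le_one₀ (norm_nonneg _) (recB_x1 p)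
  have h5 := mul_le_mul_of_nonneg_right hT h2
  unfold RP.A RP.B
  refine ⟨by linarith, by linarith, by linarith, by linarith⟩

/-- `sy_path` with z p s y = q (B + s (A - B)), G p s y = (A - B) q' (B + s (A - B)); `sy_q` with j₀ = 1 -/
theorem sy_RP_q {n : ℕ} {b : ℝ} {q : ℝ → ℂ} (hq : Prof n b q) :
    Sy RP.h' RP.ε (-(aa n)) (fun p y => q (p.A y) - q (p.B y)) := by
  have hA := sy_RP_A.smooth
  have hB := sy_RP_B.smooth
  have hq' : ContDiff ℝ ∞ (deriv q) := (contDiff_infty_iff_deriv.1 hq.smooth).2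
  have hΦ : Sy (ι := RP × Icc (0 : ℝ) 1) (fun r => r.1.h') (fun _ => 1) 1
      (fun r y => r.1.B y + (r.2 : ℝ) * (r.1.A y - r.1.B y)) :=
    (sy_RP_B.reindex Prod.fst).add (((sy_RP_A.sub sy_RP_B).reindex Prod.fst).smul_bdd
      (c := fun r : RP × Icc (0 : ℝ) 1 => (r.2 : ℝ)) (C := 1)
      (fun r => abs_le.2 ⟨by linarith [r.2.2.1], r.2.2.2⟩))
  have h1 := sy_q hq 1 hΦ (fun r y => by
      obtain ⟨h1, h2, -, -⟩ := r.1.lower y
      have h3 := r.2.2.1
      have h4 := r.2.2.2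
      nlinarith) (c := 1 / 32) (by norm_num) (fun r y => by
      obtain ⟨-, -, h1, h2⟩ := r.1.lower y
      have h3 := r.2.2.1
      have h4 := r.2.2.2
      nlinarith)
  have h2 := (sy_RP_sub.ofReal.reindex (Prod.fst : RP × Icc (0 : ℝ) 1 → RP)).mul_one h1
  have e : (1 : ℝ) + (-(aa n) - (1 : ℕ)) = -(aa n) := by
    push_cast
    ring
  rw [e, iteratedDeriv_one] at h2
  have h3 := sy_path (hh := RP.h') (κ := RP.ε) (m := -(aa n))
    (z := fun p s y => q (p.B y + s * (p.A y - p.B y)))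
    (G := fun p s y => ((p.A y - p.B y : ℝ) : ℂ) * deriv q (p.B y + s * (p.A y - p.B y)))
    (fun p s => hq.smooth.comp ((hB p).add (contDiff_const.mul ((hA p).sub (hB p)))))
    (fun p => (Complex.ofRealCLM.contDiff.comp
        (((hA p).sub (hB p)).comp contDiff_snd)).mul
      (hq'.comp (((hB p).comp contDiff_snd).add
        (contDiff_fst.mul (((hA p).sub (hB p)).comp contDiff_snd)))))
    (fun p s y => by
      have h4 : HasDerivAt (fun s : ℝ => p.B y + s * (p.A y - p.B y)) (p.A y - p.B y) s := by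
        simpa using ((hasDerivAt_id s).mul_const (p.A y - p.B y)).const_add (p.B y)
      have h5 := (hq.smooth.differentiable (by simp) _).hasDerivAt.scomp s h4
      rwa [Complex.real_smul] at h5) h2
  refine h3.congr fun p y => ?_
  simp

/-- the difference is (c - 1) q(A) + (q(A) - q(B)); `Sy.nrm_le`; first half `nrm_Zs_le` -/
theorem recn : RecStmt := by
  intro n b q hq k
  obtain ⟨C₁, hC₁, h₁⟩ := nrm_Zs_le n b k
  obtain ⟨C₀, hC₀⟩ := RP.factor_le n b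
  have hA := sy_q hq 0 sy_RP_A (fun p y => (p.lower y).1) (c := 1 / 32) (by norm_num)
    (fun p y => (p.lower y).2.2.1)
  simp only [Nat.cast_zero, sub_zero, iteratedDeriv_zero] at hA
  have h2 := hA.cmul RP.ε_nonneg hC₀
  simp only [mul_one] at h2
  obtain ⟨C₂, hC₂, h₂⟩ := (h2.add (sy_RP_q hq)).nrm_le (neg_lt_zero.2 (aa_pos hq.npos)) k
  refine ⟨C₁ + C₂, by positivity, fun h hh T x ϑ ε hε hT hx hϑ => ?_⟩
  let p : RP := ⟨h, T, x, ϑ, ε, hh, hε, hT, hx, hϑ⟩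
  refine ⟨fun f B hB hf hp hn => ?_, ?_⟩
  · refine (h₁ h T x ϑ hh.1 (recB_T p) (by linarith) f B hB hf hp hn).trans
      (ENNReal.ofReal_le_ofReal ?_)
    nlinarith
  · have e : (fun y => Zs n b T x ϑ (UU n b q h 0) y - UU n b q (h * Real.sqrt T) 0 y)
        = fun y => (Complex.exp (-Complex.I * p.ϑ) * cp p.T ((aa n : ℂ) - Complex.I * b) - 1)
          * q (p.A y) + (q (p.A y) - q (p.B y)) := by
      funext y
      have h3 := RP.Zs_eq n b q p y
      change Zs n b T x ϑ (UU n b q h 0) y = _ at h3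
      rw [h3, UU_zero_time]
      change _ - q (p.B y) = _
      ring
    rw [e]
    refine (h₂ p).trans (ENNReal.ofReal_le_ofReal ?_)
    have h4 : 0 ≤ ε := p.ε_nonneg
    change C₂ * ε ≤ _
    nlinarith

end

end Crest.Agent.R086.E
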