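import Crest.Agent.R086.E.Nrm
import Crest.Agent.R086.E.HHt

open MeasureTheory Set Filter Topology
open scoped ContDiff ComplexConjugate ENNReal
open Crest.AnalysisR.PDE.NLS

namespace Crest.Agent.R086.E

noncomputable section

/-! # E8 -/

theorem torus_lint_sq {D : Set R12} (hD : Bornology.IsBounded D) {g : R12 → ℝ} (hg : Continuous g) :
    (∫⁻ y in D, ENNReal.ofReal (g y ^ 2)) ^ (1 / 2 : ℝ) =
      ENNReal.ofReal (Real.sqrt (∫ y in D, g y ^ 2)) := by
  rw [← ofReal_integral_eq_lintegral_ofReal (f := fun y => g y ^ 2)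
    (integrableOn_of_continuous hD (hg.pow 2)) (Eventually.of_forall fun y => sq_nonneg _),
    ENNReal.ofReal_rpow_of_nonneg (integral_nonneg fun y => sq_nonneg _) (by norm_num),
    Real.sqrt_eq_rpow]

theorem torus_bdd_periodCell : Bornology.IsBounded periodCell := by
  refine (Metric.isBounded_closedBall (x := (0 : R12)) (r := 24 * Real.pi)).subset fun y hy =>
    mem_closedBall_zero_iff.2 ?_
  have hp := Real.pi_pos
  have h1 : ‖y‖ ^ 2 ≤ 12 * (2 * Real.pi) ^ 2 := by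
    rw [EuclideanSpace.real_norm_sq_eq]
    refine (Finset.sum_le_card_nsmul _ _ ((2 * Real.pi) ^ 2) fun i _ => ?_).trans (by simp)
    exact sq_le_sq' (by linarith [(hy i).1]) (hy i).2.le
  refine (abs_le.1 (abs_le_of_sq_le_sq (h1.trans ?_) (by positivity))).2
  nlinarith [sq_nonneg Real.pi]

theorem torus_rho_pos (h : ℝ) {τ : ℝ} (hτ : 0 < τ) (x : R12) : 0 < 1 + PP h x / τ := by
  have := div_nonneg (PP_nonneg h x) hτ.le
  linarith

theorem torus_wn_le {τ : ℝ} (hτ : 0 < τ) {θ : ℝ} (hθ : θ ≤ 17) {j : ℕ} {f : R12 → ℂ}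
    (hf : ContDiff ℝ j f) (hp : PerG 1 f) :
    wn 1 τ θ j f ≤ ENNReal.ofReal ((1 + 48 / τ) ^ (17 : ℝ) *
      Real.sqrt (∫ x in periodCell, ‖iteratedFDeriv ℝ j f x‖ ^ 2)) := by
  have hW : 0 ≤ (1 + 48 / τ) ^ (17 : ℝ) := by positivity
  have h1 : wn 1 τ θ j f ≤ eLpNorm (((1 + 48 / τ) ^ (17 : ℝ)) • iteratedFDeriv ℝ j f) 2
      (volume.restrict (cell 1)) := by
    refine eLpNorm_mono fun x => ?_
    rw [Pi.smul_apply, norm_smul, norm_smul,
      Real.norm_of_nonneg (Real.rpow_nonneg (torus_rho_pos 1 hτ x).le _), Real.norm_of_nonneg hW]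
    refine mul_le_mul_of_nonneg_right ?_ (norm_nonneg _)
    have h2 : 1 ≤ 1 + PP 1 x / τ := by
      have := div_nonneg (PP_nonneg 1 x) hτ.le
      linarith
    have h3 : PP 1 x ≤ 48 := by simpa using sq_mul_PP_le 1 x
    refine (Real.rpow_le_rpow_of_exponent_le h2 hθ).trans ?_
    refine Real.rpow_le_rpow (by linarith) ?_ (by norm_num)
    have := div_le_div_of_nonneg_right h3 hτ.le
    linarith
  refine h1.trans (le_of_eq ?_)
  have hG : PerG 1 (fun y => ENNReal.ofReal (‖iteratedFDeriv ℝ j f y‖ ^ 2)) := fun h0 y i => by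
    simp only [perG_iteratedFDeriv hp j h0 y i]
  rw [eLpNorm_const_smul, Real.enorm_eq_ofReal hW, eLpNorm_two_eq, ← lintegral_periodCell hG,
    torus_lint_sq torus_bdd_periodCell (hf.continuous_iteratedFDeriv le_rfl).norm,
    ENNReal.ofReal_mul hW]

/-- `nrm_Zs_eq` with h = 1; the weights (1 + PP 1 x/τ)^θ are bounded (1 ≤ ρ ≤ 1 + 48/τ, |e_j| ≤ 34);
`lintegral_periodCell`; `ofReal_integral_eq_lintegral_ofReal` on the bounded set `periodCell` -/
theorem torus_a (n : ℕ) (b : ℝ) (k : ℕ) {τ : ℝ} (hτ : 0 < τ) : ∃ C : ℝ, 0 < C ∧ ∀ v w : R12 → ℂ,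
    IsSmoothPeriodic v → IsSmoothPeriodic w →
    nrm k (Real.sqrt τ) (Zs n b τ 0 0 (fun y => v y - w y))
      ≤ ENNReal.ofReal (C * Real.sqrt (sobolevDistSq k v w)) := by
  have hs : 0 < Real.sqrt τ := Real.sqrt_pos.2 hτ
  have hW : 0 < (1 + 48 / τ) ^ (17 : ℝ) := by positivity
  refine ⟨∑ j ∈ Finset.range (k + 1), τ ^ (aa n - 3) * Real.sqrt τ ^ j * (1 + 48 / τ) ^ (17 : ℝ),
    Finset.sum_pos (fun j _ => by positivity) ⟨0, by simp⟩, fun v w hv hw => ?_⟩
  have hf : ContDiff ℝ ∞ (fun y => v y - w y) := hv.1.sub hw.1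
  have hp : PerG 1 (fun y => v y - w y) := fun _ y i => by
    simp only [div_one, hv.2 y i, hw.2 y i]
  have h1 := nrm_Zs_eq n b 1 hτ (k := k) (hf.of_le (by exact_mod_cast le_top))
  rw [one_mul] at h1
  rw [h1, Finset.sum_mul, ENNReal.ofReal_sum_of_nonneg fun j _ => by positivity]
  refine Finset.sum_le_sum fun j hj => ?_
  have h2 := torus_wn_le hτ (θ := ew j / 2) (by linarith [(ew_bounds j).2]) (j := j)
    (hf.of_le (by exact_mod_cast le_top)) hp
  refine (mul_le_mul_right h2 _).trans ?_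
  rw [← ENNReal.ofReal_mul (by positivity), ← mul_assoc]
  refine ENNReal.ofReal_le_ofReal (mul_le_mul_of_nonneg_left (Real.sqrt_le_sqrt ?_) (by positivity))
  exact Finset.single_le_sum (f := fun j => ∫ x in periodCell,
    ‖iteratedFDeriv ℝ j (fun y => v y - w y) x‖ ^ 2)
    (fun i _ => integral_nonneg fun y => sq_nonneg _) hj

theorem wn_eq_ofReal {h : ℝ} (hh : 0 < h) {τ : ℝ} (hτ : 0 < τ) (θ : ℝ) {j : ℕ} {f : R12 → ℂ}
    (hf : ContDiff ℝ j f) : wn h τ θ j f = ENNReal.ofReal (Real.sqrt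
      (∫ x in cell h, ((1 + PP h x / τ) ^ θ * ‖iteratedFDeriv ℝ j f x‖) ^ 2)) := by
  have hc : Continuous fun x => (1 + PP h x / τ) ^ θ * ‖iteratedFDeriv ℝ j f x‖ :=
    ((continuous_const.add ((contDiff_PP h).continuous.div_const τ)).rpow_const
      fun y => Or.inl (torus_rho_pos h hτ y).ne').mul (hf.continuous_iteratedFDeriv le_rfl).norm
  rw [← torus_lint_sq (isBounded_cell hh) hc, wn, eLpNorm_two_eq]
  congr 1
  refine lintegral_congr fun y => ?_
  rw [norm_smul, Real.norm_of_nonneg (Real.rpow_nonneg (torus_rho_pos h hτ y).le _)]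

/-- `nrm_Zs_eq`, `wn_eq_ofReal`, `continuousOn_setIntegral` -/
theorem torus_b (n : ℕ) (b : ℝ) (k : ℕ) (h t₁ t₂ : ℝ) (z : ℝ → R12 → ℂ) (hh : 0 < h) (ht : t₂ < 1)
    (hz : Ck k (Icc t₁ t₂) z) : (∀ t ∈ Icc t₁ t₂, nrmT n b k h t (z t) ≠ ⊤) ∧
      ContinuousOn (fun t => (nrmT n b k h t (z t)).toReal) (Icc t₁ t₂) := by
  have hτ : ∀ t ∈ Icc t₁ t₂, 0 < 1 - t := fun t h => by linarith [h.2]
  have key : ∀ t ∈ Icc t₁ t₂, nrmT n b k h t (z t) = ENNReal.ofReal (∑ j ∈ Finset.range (k + 1),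
      (1 - t) ^ (aa n - 3) * Real.sqrt (1 - t) ^ j * Real.sqrt (∫ x in cell h,
        ((1 + PP h x / (1 - t)) ^ (ew j / 2) * ‖iteratedFDeriv ℝ j (z t) x‖) ^ 2)) := by
    intro t htm
    have h0 := hτ t htm
    rw [nrmT, nrm_Zs_eq n b h h0 (hz.diff t htm),
      ENNReal.ofReal_sum_of_nonneg fun j _ => by positivity]
    refine Finset.sum_congr rfl fun j hj => ?_
    rw [wn_eq_ofReal hh h0 _ ((hz.diff t htm).of_le
      (by exact_mod_cast Nat.lt_succ_iff.1 (Finset.mem_range.1 hj))),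
      ← ENNReal.ofReal_mul (by positivity)]
  refine ⟨fun t htm => by rw [key t htm]; exact ENNReal.ofReal_ne_top, ?_⟩
  refine ContinuousOn.congr (f := fun t => ∑ j ∈ Finset.range (k + 1),
      (1 - t) ^ (aa n - 3) * Real.sqrt (1 - t) ^ j * Real.sqrt (∫ x in cell h,
        ((1 + PP h x / (1 - t)) ^ (ew j / 2) * ‖iteratedFDeriv ℝ j (z t) x‖) ^ 2)) ?_ ?_
  · refine continuousOn_finsetSum _ fun j hj => ?_
    have hj' : j ≤ k := Nat.lt_succ_iff.1 (Finset.mem_range.1 hj)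
    refine (((continuous_const.sub continuous_id).continuousOn.rpow_const
      fun t htm => Or.inl (hτ t htm).ne').mul
      (((continuous_const.sub continuous_id).sqrt.pow j).continuousOn)).mul ?_
    refine ContinuousOn.sqrt (continuousOn_setIntegral (measurableSet_cell h) (isBounded_cell hh)
      (Φ := fun t x => ((1 + PP h x / (1 - t)) ^ (ew j / 2) * ‖iteratedFDeriv ℝ j (z t) x‖) ^ 2) ?_)
    refine ContinuousOn.pow (ContinuousOn.mul (ContinuousOn.rpow_const ?_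
      fun p hp => Or.inl (torus_rho_pos h (hτ p.1 hp.1) p.2).ne') (hz.cont j hj').norm) 2
    exact continuousOn_const.add (((contDiff_PP h).continuous.comp continuous_snd).continuousOn.div
      (continuous_const.sub continuous_fst).continuousOn fun p hp => (hτ p.1 hp.1).ne')
  · intro t htm
    have h0 := hτ t htm
    simp only [key t htm]
    exact ENNReal.toReal_ofReal (Finset.sum_nonneg fun j _ => by positivity)

theorem torus : TorusStmt :=
  ⟨fun n b k _ hτ => torus_a n b k hτ, fun n b k h t₁ t₂ z hh ht hz => torus_b n b k h t₁ t₂ z hh ht hz⟩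

end

end Crest.Agent.R086.E
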