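import Crest.Agent.R086.E.Sob
import Crest.Agent.R086.E.SymNrm
import Crest.Agent.R086.E.UUb
import Crest.Agent.R086.E.Quad
import Crest.Agent.R086.E.RecB
import Crest.Agent.R086.E.Fatou
import Crest.Agent.R086.E.Torus
import Crest.Agent.R086.E.Energy

open MeasureTheory Set Filter Topology
open scoped ContDiff ComplexConjugate ENNReal
open Crest.AnalysisR.PDE.NLS

namespace Crest.Agent.R086.E

noncomputable section

/-! # Part E: the delivered theorems -/

theorem all : SobStmt ∧ SymNrmStmt ∧ UUStmt ∧ QuadStmt ∧ RecStmt ∧ FatouStmt ∧ LowStmt ∧ TorusStmt ∧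
    EnergyStmt :=
  ⟨sob, symNrm, uu, quad, recn, fatou, lowS, torus, energy⟩

end

end Crest.Agent.R086.E
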