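import Crest.Agent.R086.E.GeoB

open MeasureTheory Set Filter Topology
open scoped ContDiff ComplexConjugate ENNReal
open Crest.AnalysisR.PDE.NLS

namespace Crest.Agent.R086.E

noncomputable section

/-! # Integrals of periodic functions over cells; the divergence theorem
For h > 0, `cell h` and its translates are fundamental domains (`IsAddFundamentalDomain`) of the lattice
spanned by the vectors (2π/h) e_i (`ZSpan.isAddFundamentalDomain`, `IsAddFundamentalDomain.vadd`,
`setLIntegral_eq`, `setIntegral_eq`); a `PerG` function is invariant under the whole lattice. -/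

/-- the period lattice -/
private def lat (L : ℝ) : AddSubgroup R12 where
  carrier := {g | ∀ i, ∃ n : ℤ, g i = n • L}
  add_mem' := fun {a b} ha hb i => by
    obtain ⟨n, hn⟩ := ha i
    obtain ⟨m, hm⟩ := hb i
    exact ⟨n + m, by rw [PiLp.add_apply, hn, hm, add_smul]⟩
  zero_mem' := fun i => ⟨0, by simp⟩
  neg_mem' := fun {a} ha i => by
    obtain ⟨n, hn⟩ := ha i
    exact ⟨-n, by rw [PiLp.neg_apply, hn, neg_smul]⟩

private theorem lat_countable (L : ℝ) : Countable (lat L) := by
  refine (Set.Countable.mono ?_ (countable_range fun n : Fin 12 → ℤ =>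
    (WithLp.toLp 2 fun i => n i • L : R12))).to_subtype
  intro g hg
  choose n hn using hg
  exact ⟨n, by ext i; exact (hn i).symm⟩

private theorem lat_fund {L : ℝ} (hL : 0 < L) (x : R12) :
    IsAddFundamentalDomain (lat L) (cube x L) volume := by
  refine IsAddFundamentalDomain.mk' (measurableSet_cube x L).nullMeasurableSet fun y => ?_
  choose n hn hu using fun i => existsUnique_add_zsmul_mem_Ico hL (y i) (x i)
  refine ⟨⟨WithLp.toLp 2 fun i => n i • L, fun i => ⟨n i, rfl⟩⟩, fun i => ?_, fun g hg => ?_⟩
  · have : y i + n i • L ∈ Ico (x i) (x i + L) := hn i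
    rwa [add_comm (y i)] at this
  · ext i
    obtain ⟨m, hm⟩ := g.2 i
    have h1 : (g : R12) i + y i ∈ Ico (x i) (x i + L) := hg i
    rw [hm, add_comm (m • L)] at h1
    rw [hm, hu i m h1]

private theorem lat_inv {α : Type} {h : ℝ} (hh : 0 < h) {f : R12 → α} (hf : PerG h f)
    (g : lat (2 * Real.pi / h)) (y : R12) : f (g +ᵥ y) = f y := by
  choose n hn using g.2
  have e : (g : R12) = ∑ i, n i • (EuclideanSpace.single i (2 * Real.pi / h) : R12) := by
    ext i
    rw [hn i]
    simp [Pi.single_apply]
  have hp : Function.Periodic f (g : R12) := by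
    rw [e]
    exact Finset.sum_induction _ (Function.Periodic f) (fun a b ha hb => ha.add_period hb)
      (Function.periodic_with_period_zero f)
      fun i _ => Function.Periodic.zsmul (fun y => hf hh.ne' y i) (n i)
  have := hp y
  rwa [add_comm] at this

private theorem cell_eq {h : ℝ} (hh : 0 < h) :
    cell h = cube (WithLp.toLp 2 fun _ => -(Real.pi / h)) (2 * Real.pi / h) := by
  have e : -(Real.pi / h) + 2 * Real.pi / h = Real.pi / h := by ring
  rw [cell, if_neg hh.ne', cube]
  simp only [e]

private theorem cube_pre (x c : R12) (L : ℝ) : (fun y => x + y) ⁻¹' cube (x + c) L = cube c L := by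
  ext y
  simp only [cube, mem_preimage, mem_ofPred_eq, PiLp.add_apply, mem_Ico, add_assoc,
    add_le_add_iff_left, add_lt_add_iff_left]

private theorem lint_cube {h : ℝ} (hh : 0 < h) {G : R12 → ℝ≥0∞} (hG : PerG h G) (x : R12) :
    ∫⁻ y in cube x (2 * Real.pi / h), G y = ∫⁻ y in cell h, G y := by
  have := lat_countable (2 * Real.pi / h)
  have hL : 0 < 2 * Real.pi / h := by positivity
  rw [cell_eq hh]
  exact (lat_fund hL _).setLIntegral_eq (lat_fund hL _) G (lat_inv hh hG)

private theorem int_cube {h : ℝ} (hh : 0 < h) {F : R12 → ℂ} (hF : PerG h F) (x : R12) :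
    ∫ y in cube x (2 * Real.pi / h), F y = ∫ y in cell h, F y := by
  have := lat_countable (2 * Real.pi / h)
  have hL : 0 < 2 * Real.pi / h := by positivity
  rw [cell_eq hh]
  exact (lat_fund hL _).setIntegral_eq (lat_fund hL _) (lat_inv hh hF)

theorem lintegral_cell_add {h : ℝ} (hh : 0 ≤ h) {G : R12 → ℝ≥0∞} (hG : PerG h G) (x : R12) :
    ∫⁻ y in cell h, G (x + y) = ∫⁻ y in cell h, G y := by
  rcases hh.eq_or_lt with rfl | hh
  · rw [cell_zero, Measure.restrict_univ, lintegral_add_left_eq_self]
  · rw [← lint_cube hh hG (x + WithLp.toLp 2 fun _ => -(Real.pi / h)), cell_eq hh, ← cube_pre x]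
    exact (measurePreserving_add_left volume x).setLIntegral_comp_preimage_emb
      (measurableEmbedding_addLeft x) G _

theorem integral_cell_add {h : ℝ} (hh : 0 < h) {F : R12 → ℂ} (hF : PerG h F) (x : R12) :
    ∫ y in cell h, F (x + y) = ∫ y in cell h, F y := by
  rw [← int_cube hh hF (x + WithLp.toLp 2 fun _ => -(Real.pi / h)), cell_eq hh, ← cube_pre x]
  exact (measurePreserving_add_left volume x).setIntegral_preimage_emb
    (measurableEmbedding_addLeft x) F _

/-- a cube of side at most the period lies in a translate of the cell -/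
theorem lintegral_cube_le {h r : ℝ} (hh : 0 ≤ h) (hr : h * r ≤ 2 * Real.pi) {G : R12 → ℝ≥0∞}
    (hG : PerG h G) (x : R12) : ∫⁻ y in cube x r, G y ≤ ∫⁻ y in cell h, G y := by
  rcases hh.eq_or_lt with rfl | hh
  · rw [cell_zero]
    exact lintegral_mono_set (subset_univ _)
  · rw [← lint_cube hh hG x]
    have h1 : r ≤ 2 * Real.pi / h := by rwa [le_div_iff₀ hh, mul_comm]
    exact lintegral_mono_set fun y hy i => ⟨(hy i).1, (hy i).2.trans_le (by linarith)⟩

theorem lintegral_periodCell {G : R12 → ℝ≥0∞} (hG : PerG 1 G) :
    ∫⁻ y in periodCell, G y = ∫⁻ y in cell 1, G y := by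
  rw [← lint_cube one_pos hG 0]
  congr 2
  ext y
  simp [periodCell, cube]

/-- differentiate `s ↦ ∫_{cell} F (s • e_l + y)` (constant by `integral_cell_add`) at s = 0 under the
integral sign (bounded cell, continuous derivative) -/
theorem integral_pd_cell {h : ℝ} (hh : 0 < h) {F : R12 → ℂ} (hF : ContDiff ℝ 1 F) (hp : PerG h F)
    (l : Fin 12) : ∫ y in cell h, pd l F y = 0 := by
  have hc : Continuous (pd l F) := (hF.continuous_fderiv one_ne_zero).clm_apply continuous_const
  obtain ⟨B, hB⟩ := (isCompact_closedBall (0 : R12) (1 + 12 * Real.pi / h)).exists_bound_of_continuousOn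
    hc.continuousOn
  obtain ⟨B', hB'⟩ := (isCompact_closedBall (0 : R12) (12 * Real.pi / h)).exists_bound_of_continuousOn
    hF.continuous.continuousOn
  have : IsFiniteMeasure (volume.restrict (cell h)) :=
    isFiniteMeasure_restrict.2 (isBounded_cell hh).measure_lt_top.ne
  have hder : ∀ (y : R12) (s : ℝ),
      HasDerivAt (fun s : ℝ => F (s • ee l + y)) (pd l F (s • ee l + y)) s := by
    intro y s
    have h1 : HasDerivAt (fun s : ℝ => s • ee l + y) (ee l) s := by
      simpa using ((hasDerivAt_id' s).smul_const (ee l)).add_const y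
    exact ((hF.differentiable one_ne_zero) _).hasFDerivAt.comp_hasDerivAt s h1
  have key := hasDerivAt_integral_of_dominated_loc_of_deriv_le (μ := volume.restrict (cell h))
    (F := fun (s : ℝ) y => F (s • ee l + y)) (F' := fun (s : ℝ) y => pd l F (s • ee l + y))
    (x₀ := (0 : ℝ)) (bound := fun _ => B) (s := Icc (-1) 1)
    (Icc_mem_nhds (by norm_num) (by norm_num))
    (Eventually.of_forall fun s =>
      (hF.continuous.comp (continuous_const.add continuous_id)).aestronglyMeasurable)
    (by
      simp only [zero_smul, zero_add]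
      refine Integrable.of_bound hF.continuous.aestronglyMeasurable B' ?_
      filter_upwards [ae_restrict_mem (measurableSet_cell h)] with y hy
      exact hB' y (mem_closedBall_zero_iff.2 (norm_le_of_mem_cell hh hy)))
    (hc.comp (continuous_const.add continuous_id)).aestronglyMeasurable
    (by
      filter_upwards [ae_restrict_mem (measurableSet_cell h)] with y hy s hs
      refine hB _ (mem_closedBall_zero_iff.2 ((norm_add_le _ _).trans
        (add_le_add ?_ (norm_le_of_mem_cell hh hy))))
      rw [norm_smul, norm_ee, mul_one, Real.norm_eq_abs]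
      exact abs_le.2 hs)
    (integrable_const B) (Eventually.of_forall fun y s _ => hder y s)
  have h2 := key.2
  simp only [integral_cell_add hh hp, zero_smul, zero_add] at h2
  exact h2.unique (hasDerivAt_const _ _)

/-- `integral_mul_fderiv_eq_neg_fderiv_mul_of_integrable` with one factor 1 -/
theorem integral_pd_ball {R : ℝ} {F : R12 → ℂ} (hF : ContDiff ℝ 1 F) (h0 : ∀ y, R < ‖y‖ → F y = 0)
    (l : Fin 12) : ∫ y in Metric.closedBall (0 : R12) R, pd l F y = 0 := by
  have hc : Continuous (pd l F) := (hF.continuous_fderiv one_ne_zero).clm_apply continuous_const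
  have h1 : ∀ y, y ∉ Metric.closedBall (0 : R12) R → F y = 0 := fun y hy =>
    h0 y (by simpa using hy)
  have h2 : ∀ y, y ∉ Metric.closedBall (0 : R12) R → pd l F y = 0 := fun y hy => by
    have h3 : F =ᶠ[𝓝 y] fun _ => 0 :=
      Filter.eventually_of_mem (Metric.isClosed_closedBall.isOpen_compl.mem_nhds hy) h1
    rw [pd, h3.fderiv_eq]
    simp
  have i1 : Integrable F :=
    hF.continuous.integrable_of_hasCompactSupport
      (HasCompactSupport.intro (isCompact_closedBall 0 R) h1)
  have i2 : Integrable (pd l F) :=
    hc.integrable_of_hasCompactSupport (HasCompactSupport.intro (isCompact_closedBall 0 R) h2)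
  rw [setIntegral_eq_integral_of_forall_compl_eq_zero h2]
  have key := integral_mul_fderiv_eq_neg_fderiv_mul_of_integrable (μ := volume)
    (f := fun _ : R12 => (1 : ℂ)) (g := F) (v := ee l) (by simp)
    (by simp only [one_mul]; exact i2) (by simpa only [one_mul] using i1)
    (fun _ _ => differentiableAt_const _) (fun x _ => hF.differentiable one_ne_zero x)
  simpa [pd] using key

end

end Crest.Agent.R086.E
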