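import Crest.Agent.R086.E.Nrm
import Crest.Agent.R086.E.SymB

open MeasureTheory Set Filter Topology
open scoped ContDiff ComplexConjugate ENNReal
open Crest.AnalysisR.PDE.NLS

namespace Crest.Agent.R086.E

noncomputable section

/-! # E5, first half -/

theorem recA_rpow {u v : ℝ} (hu : 0 < u) (hv : 0 < v) (h1 : u ≤ 6 * v) (h2 : v ≤ 6 * u) (θ : ℝ) :
    u ^ θ ≤ 6 ^ |θ| * v ^ θ := by
  rcases le_total 0 θ with h | h
  · rw [abs_of_nonneg h, ← Real.mul_rpow (by norm_num) hv.le]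
    exact Real.rpow_le_rpow hu.le h1 h
  · have e : (6 : ℝ) ^ |θ| * v ^ θ = (v / 6) ^ θ := by
      rw [abs_of_nonpos h, Real.rpow_neg (by norm_num), Real.div_rpow hv.le (by norm_num),
        div_eq_inv_mul]
    rw [e]
    exact Real.rpow_le_rpow_of_nonpos (by positivity) (by linarith) h

theorem recA_w (h : ℝ) {T : ℝ} (hT : T ∈ Icc (1 / 2 : ℝ) 2) {x : R12} (hx : ‖x‖ ≤ 1) (j : ℕ)
    (y : R12) : (1 + PP h y / T) ^ (ew j / 2) ≤ 6 ^ 17 * (1 + PP h (x + y)) ^ (ew j / 2) := by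
  have hT0 : 0 < T := by linarith [hT.1]
  have hx2 : ‖x‖ ^ 2 ≤ 1 := pow_le_one₀ (norm_nonneg _) hx
  have p0 := PP_nonneg h y
  have p1 := PP_add_le h y x
  have p2 := PP_add_le h (y + x) (-x)
  rw [add_neg_cancel_right, norm_neg, add_comm y x] at p2
  rw [add_comm y x] at p1
  have q1 : PP h y / T ≤ 2 * PP h y := by
    rw [div_le_iff₀ hT0]; nlinarith [hT.1]
  have q2 : PP h y ≤ 2 * (PP h y / T) := by
    rw [← mul_div_assoc, le_div_iff₀ hT0]; nlinarith [hT.2]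
  have p3 := PP_nonneg h (x + y)
  refine (recA_rpow (by linarith) (nrm_rho_pos h (x + y)) (by linarith) (by linarith) _).trans ?_
  refine mul_le_mul_of_nonneg_right ?_ (Real.rpow_nonneg (nrm_rho_pos h _).le _)
  have := ew_bounds j
  calc (6 : ℝ) ^ |ew j / 2| ≤ 6 ^ ((17 : ℕ) : ℝ) :=
        Real.rpow_le_rpow_of_exponent_le (by norm_num)
          (abs_le.2 ⟨by push_cast; linarith, by push_cast; linarith⟩)
    _ = 6 ^ 17 := Real.rpow_natCast _ _

theorem recA_wn {h T : ℝ} (hh : 0 ≤ h) (hT : T ∈ Icc (1 / 2 : ℝ) 2) {x : R12} (hx : ‖x‖ ≤ 1)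
    {j : ℕ} {f : R12 → ℂ} (hp : Per h f) :
    wn h T (ew j / 2) j (fun y => f (x + y)) ≤ ENNReal.ofReal (6 ^ 17) *
      eLpNorm (fun y => (1 + PP h y) ^ (ew j / 2) • iteratedFDeriv ℝ j f y) 2
        (volume.restrict (cell h)) := by
  have hT0 : 0 < T := by linarith [hT.1]
  have e : eLpNorm (fun y => (1 + PP h y) ^ (ew j / 2) • iteratedFDeriv ℝ j f y) 2
      (volume.restrict (cell h)) = eLpNorm (fun y => (1 + PP h (x + y)) ^ (ew j / 2) •
        iteratedFDeriv ℝ j f (x + y)) 2 (volume.restrict (cell h)) := by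
    rw [eLpNorm_two_eq, eLpNorm_two_eq]
    congr 1
    exact (lintegral_cell_add hh (perG_map₂ (perG_PP h) (perG_iteratedFDeriv hp j)
      fun p v => ENNReal.ofReal (‖(1 + p) ^ (ew j / 2) • v‖ ^ 2)) x).symm
  rw [e, wn]
  refine eLpNorm_le_mul_eLpNorm_of_ae_le_mul (Eventually.of_forall fun y => ?_) 2
  rw [iteratedFDeriv_comp_add_left, nrm_norm_smul, norm_smul, ← mul_assoc, Real.norm_eq_abs,
    abs_of_nonneg (Real.rpow_nonneg (zero_le_one.trans (one_le_rho h hT0 y)) _)]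
  exact mul_le_mul_of_nonneg_right (recA_w h hT hx j y) (norm_nonneg _)

/-- `norm_iteratedFDeriv_Zs`; 1 + PP (h√T) y = 1 + PP h (√T y)/T is comparable with 1 + PP h (x + √T y)
(`PP_scale`, `rho_add_rpow_le`); then `eLpNorm_two_eq`, `lintegral_cell_scale`, `lintegral_cell_add` -/
theorem nrm_Zs_le (n : ℕ) (b : ℝ) (k : ℕ) : ∃ C : ℝ, 0 < C ∧ ∀ (h T : ℝ) (x : R12) (ϑ : ℝ), 0 ≤ h →
    T ∈ Icc (1 / 2 : ℝ) 2 → ‖x‖ ≤ 1 → ∀ (f : R12 → ℂ) (B : ℝ), 0 ≤ B → ContDiff ℝ k f → Per h f →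
      nrm k h f ≤ ENNReal.ofReal B →
      nrm k (h * Real.sqrt T) (Zs n b T x ϑ f) ≤ ENNReal.ofReal (C * B) := by
  refine ⟨6 ^ |aa n - 3| * 2 ^ k * 6 ^ 17, by positivity,
    fun h T x ϑ hh hT hx f B hB hf hp hfB => ?_⟩
  have hT0 : 0 < T := by linarith [hT.1]
  have hg : ContDiff ℝ k fun y => f (x + y) := hf.comp (contDiff_const.add contDiff_id)
  have e : nrm k (h * Real.sqrt T) (Zs n b T x ϑ f) =
      nrm k (h * Real.sqrt T) (Zs n b T 0 0 fun y => f (x + y)) := by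
    refine nrm_congr_norm _ fun j hj y => ?_
    rw [norm_iteratedFDeriv_Zs n b hT0 x ϑ (hf.of_le (by exact_mod_cast hj)),
      norm_iteratedFDeriv_Zs n b hT0 0 0 (hg.of_le (by exact_mod_cast hj)), zero_add,
      iteratedFDeriv_comp_add_left]
  have hs : Real.sqrt T ≤ 2 := Real.sqrt_le_iff.2 ⟨by norm_num, by linarith [hT.2]⟩
  have h1 : T ^ (aa n - 3) ≤ 6 ^ |aa n - 3| := by
    simpa using recA_rpow hT0 one_pos (by linarith [hT.2]) (by linarith [hT.1]) (aa n - 3)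
  rw [e, nrm_Zs_eq n b h hT0 hg, ENNReal.ofReal_mul (by positivity)]
  refine le_trans ?_ (mul_le_mul_right hfB _)
  rw [nrm, Finset.mul_sum]
  refine Finset.sum_le_sum fun j hj => ?_
  have hj' : j ≤ k := Nat.lt_succ_iff.1 (Finset.mem_range.1 hj)
  rw [ENNReal.ofReal_mul (p := 6 ^ |aa n - 3| * 2 ^ k) (by positivity), mul_assoc]
  refine mul_le_mul' (ENNReal.ofReal_le_ofReal ?_) (recA_wn hh hT hx hp)
  exact mul_le_mul h1 ((pow_le_pow_left₀ (Real.sqrt_nonneg _) hs j).trans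
    (pow_le_pow_right₀ one_le_two hj')) (by positivity) (by positivity)

end

end Crest.Agent.R086.E
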