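import Crest.Agent.R086.E.PerInt

open MeasureTheory Set Filter Topology
open scoped ContDiff ComplexConjugate ENNReal
open Crest.AnalysisR.PDE.NLS

namespace Crest.Agent.R086.E

noncomputable section

/-! # Rescaling -/

theorem norm_cp {τ : ℝ} (hτ : 0 < τ) (s : ℂ) : ‖cp τ s‖ = τ ^ s.re := by
  rw [cp, Complex.norm_exp, Real.rpow_def_of_pos hτ]
  simp only [Complex.mul_re, Complex.ofReal_re, Complex.ofReal_im, mul_zero, sub_zero]
  rw [mul_comm]

theorem cp_add (τ : ℝ) (s s' : ℂ) : cp τ (s + s') = cp τ s * cp τ s' := by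
  rw [cp, cp, cp, add_mul, Complex.exp_add]

theorem cp_zero (τ : ℝ) : cp τ 0 = 1 := by
  simp [cp]

theorem cp_one_left (s : ℂ) : cp 1 s = 1 := by
  simp [cp]

theorem cp_one {τ : ℝ} (hτ : 0 < τ) : cp τ 1 = (τ : ℂ) := by
  rw [cp, one_mul, ← Complex.ofReal_exp, Real.exp_log hτ]

theorem cp_mul {τ σ : ℝ} (hτ : 0 < τ) (hσ : 0 < σ) (s : ℂ) : cp (τ * σ) s = cp τ s * cp σ s := by
  rw [cp, cp, cp, Real.log_mul hτ.ne' hσ.ne', Complex.ofReal_add, mul_add, Complex.exp_add]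

theorem cp_ne_zero (τ : ℝ) (s : ℂ) : cp τ s ≠ 0 := by
  exact Complex.exp_ne_zero _

theorem hasDerivAt_cp {τ : ℝ} (hτ : 0 < τ) (s : ℂ) : HasDerivAt (fun σ => cp σ s) (s * cp τ (s - 1)) τ := by
  have h1 := ((Real.hasDerivAt_log hτ.ne').ofReal_comp.const_mul s).cexp
  have h2 : cp τ s = cp τ (s - 1) * τ := by
    rw [← cp_one hτ, ← cp_add, sub_add_cancel]
  have h3 : (τ : ℂ) ≠ 0 := by exact_mod_cast hτ.ne'
  refine HasDerivAt.congr_deriv h1 ?_
  change cp τ s * _ = _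
  rw [h2]
  push_cast
  field_simp

theorem contDiffOn_cp (s : ℂ) : ContDiffOn ℝ ∞ (fun σ => cp σ s) (Ioi 0) := by
  unfold cp
  refine ContDiffOn.cexp (contDiffOn_const.mul ?_)
  exact Complex.ofRealCLM.contDiff.comp_contDiffOn
    (Real.contDiffOn_log.mono fun x hx => ne_of_gt hx)

theorem scale_iteratedFDeriv_affine {E : Type} [NormedAddCommGroup E] [NormedSpace ℝ E] {j : ℕ}
    {f : R12 → E} (hf : ContDiff ℝ j f) (l : ℝ) (x y : R12) :
    iteratedFDeriv ℝ j (fun y => f (x + l • y)) y = l ^ j • iteratedFDeriv ℝ j f (x + l • y) := by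
  have h1 : ContDiff ℝ j (fun z => f (x + z)) := hf.comp (contDiff_const.add contDiff_id)
  have h2 := congrFun (iteratedFDeriv_comp_const_smul l h1) y
  rw [iteratedFDeriv_comp_add_left] at h2
  exact h2

theorem scale_iteratedFDeriv_const_mul {j : ℕ} {f : R12 → ℂ} (hf : ContDiff ℝ j f) (c : ℂ)
    (y : R12) : iteratedFDeriv ℝ j (fun y => c * f y) y = c • iteratedFDeriv ℝ j f y :=
  iteratedFDeriv_const_smul_apply' (a := c) hf.contDiffAt

theorem scale_contDiff_affine {E : Type} [NormedAddCommGroup E] [NormedSpace ℝ E] {k : WithTop ℕ∞}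
    {f : R12 → E} (hf : ContDiff ℝ k f) (l : ℝ) (x : R12) :
    ContDiff ℝ k (fun y => f (x + l • y)) :=
  hf.comp (contDiff_const.add (contDiff_id.const_smul l))

theorem norm_iteratedFDeriv_affine {E : Type} [NormedAddCommGroup E] [NormedSpace ℝ E] {j : ℕ}
    {f : R12 → E} (hf : ContDiff ℝ j f) {l : ℝ} (hl : 0 < l) (x y : R12) :
    ‖iteratedFDeriv ℝ j (fun y => f (x + l • y)) y‖ = l ^ j * ‖iteratedFDeriv ℝ j f (x + l • y)‖ := by
  rw [scale_iteratedFDeriv_affine hf, norm_smul, norm_pow, Real.norm_of_nonneg hl.le]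

theorem norm_iteratedFDeriv_const_mul {j : ℕ} {f : R12 → ℂ} (hf : ContDiff ℝ j f) (c : ℂ) (y : R12) :
    ‖iteratedFDeriv ℝ j (fun y => c * f y) y‖ = ‖c‖ * ‖iteratedFDeriv ℝ j f y‖ := by
  rw [scale_iteratedFDeriv_const_mul hf, norm_smul]

theorem contDiff_Zs (n : ℕ) (b τ : ℝ) (x : R12) (ϑ : ℝ) {k : WithTop ℕ∞} {f : R12 → ℂ}
    (hf : ContDiff ℝ k f) : ContDiff ℝ k (Zs n b τ x ϑ f) := by
  exact contDiff_const.mul (scale_contDiff_affine hf _ x)

theorem per_Zs (n : ℕ) (b : ℝ) {τ : ℝ} (hτ : 0 < τ) (x : R12) (ϑ : ℝ) {h : ℝ} {f : R12 → ℂ}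
    (hf : Per h f) : Per (h * Real.sqrt τ) (Zs n b τ x ϑ f) := by
  intro hh y i
  have := perG_scale (Real.sqrt_pos.2 hτ) hf x hh y i
  simp only [Zs] at this ⊢
  rw [this]

theorem norm_iteratedFDeriv_Zs (n : ℕ) (b : ℝ) {τ : ℝ} (hτ : 0 < τ) (x : R12) (ϑ : ℝ) {j : ℕ}
    {f : R12 → ℂ} (hf : ContDiff ℝ j f) (y : R12) :
    ‖iteratedFDeriv ℝ j (Zs n b τ x ϑ f) y‖ =
      τ ^ aa n * Real.sqrt τ ^ j * ‖iteratedFDeriv ℝ j f (x + Real.sqrt τ • y)‖ := by
  have h1 := norm_iteratedFDeriv_const_mul (scale_contDiff_affine hf (Real.sqrt τ) x)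
    (Complex.exp (-Complex.I * ϑ) * cp τ ((aa n : ℂ) - Complex.I * b)) y
  rw [norm_iteratedFDeriv_affine hf (Real.sqrt_pos.2 hτ), norm_mul, norm_cp hτ,
    Complex.norm_exp] at h1
  refine h1.trans ?_
  simp [mul_assoc]

theorem pd_affine {f : R12 → ℂ} (hf : Differentiable ℝ f) (c : ℂ) (l : ℝ) (x : R12) (i : Fin 12) (y : R12) :
    pd i (fun y => c * f (x + l • y)) y = c * l * pd i f (x + l • y) := by
  have h0 : HasFDerivAt (fun y : R12 => x + l • y) (l • ContinuousLinearMap.id ℝ R12) y :=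
    ((hasFDerivAt_id y).const_smul l).const_add x
  have h1 := ((hf (x + l • y)).hasFDerivAt.comp y h0).const_mul c
  unfold pd
  refine (congrArg (fun L : R12 →L[ℝ] ℂ => L (ee i)) h1.fderiv).trans ?_
  simp [mul_assoc]

theorem lap_affine {f : R12 → ℂ} (hf : ContDiff ℝ 2 f) (c : ℂ) (l : ℝ) (x y : R12) :
    lap (fun y => c * f (x + l • y)) y = c * l ^ 2 * lap f (x + l • y) := by
  have hf' : ContDiff ℝ ((2 : ℕ) : WithTop ℕ∞) f := hf
  unfold lap
  rw [scale_iteratedFDeriv_const_mul (scale_contDiff_affine hf' l x),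
    scale_iteratedFDeriv_affine hf', Finset.mul_sum]
  refine Finset.sum_congr rfl fun i _ => ?_
  simp [mul_assoc]

/-- `Measure.map_addHaar_smul` / `lintegral_comp_smul`-type change of variables, `mem_cell_scale` -/
theorem lintegral_cell_scale (h : ℝ) {l : ℝ} (hl : 0 < l) (G : R12 → ℝ≥0∞) :
    ∫⁻ y in cell (h * l), G (l • y) = ENNReal.ofReal ((l ^ 12)⁻¹) * ∫⁻ y in cell h, G y := by
  have h1 := lintegral_map_equiv (μ := (volume : Measure R12)) ((cell h).indicator G)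
    (MeasurableEquiv.smul₀ l hl.ne')
  have h2 := Measure.map_addHaar_smul (volume : Measure R12) hl.ne'
  rw [MeasurableEquiv.coe_smul₀, h2, lintegral_smul_measure,
    lintegral_indicator (measurableSet_cell h)] at h1
  have h3 : |(l ^ Module.finrank ℝ R12)⁻¹| = (l ^ 12)⁻¹ := by
    rw [finrank_euclideanSpace_fin, abs_of_pos (by positivity)]
  rw [h3, smul_eq_mul] at h1
  rw [h1, ← lintegral_indicator (measurableSet_cell _)]
  refine lintegral_congr fun y => ?_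
  by_cases hy : y ∈ cell (h * l)
  · rw [indicator_of_mem hy, indicator_of_mem ((mem_cell_scale h hl y).1 hy)]
  · rw [indicator_of_notMem hy, indicator_of_notMem fun h' => hy ((mem_cell_scale h hl y).2 h')]

theorem eLpNorm_two_eq {E : Type} [NormedAddCommGroup E] (F : R12 → E) (μ : Measure R12) :
    eLpNorm F 2 μ = (∫⁻ y, ENNReal.ofReal (‖F y‖ ^ 2) ∂μ) ^ (1 / 2 : ℝ) := by
  rw [eLpNorm_eq_lintegral_rpow_enorm_toReal (by norm_num) (by norm_num)]
  simp only [ENNReal.toReal_ofNat]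
  congr 1
  refine lintegral_congr fun y => ?_
  rw [ENNReal.ofReal_pow (norm_nonneg _), ofReal_norm]
  exact_mod_cast ENNReal.rpow_natCast _ 2

/-- one term of `nrmT` in physical variables -/
theorem eLpNorm_Zs (n : ℕ) (b h θ : ℝ) {τ : ℝ} (hτ : 0 < τ) {j : ℕ} {f : R12 → ℂ} (hf : ContDiff ℝ j f) :
    eLpNorm (fun y => (1 + PP (h * Real.sqrt τ) y) ^ θ • iteratedFDeriv ℝ j (Zs n b τ 0 0 f) y) 2
        (volume.restrict (cell (h * Real.sqrt τ))) =
      ENNReal.ofReal (τ ^ (aa n - 3) * Real.sqrt τ ^ j) * wn h τ θ j f := by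
  have hs : 0 < Real.sqrt τ := Real.sqrt_pos.2 hτ
  have hc : 0 ≤ τ ^ aa n * Real.sqrt τ ^ j := by positivity
  have key : ∀ y : R12, ENNReal.ofReal
      (‖(1 + PP (h * Real.sqrt τ) y) ^ θ • iteratedFDeriv ℝ j (Zs n b τ 0 0 f) y‖ ^ 2) =
      ENNReal.ofReal ((τ ^ aa n * Real.sqrt τ ^ j) ^ 2) *
        (fun x : R12 => ENNReal.ofReal (‖(1 + PP h x / τ) ^ θ • iteratedFDeriv ℝ j f x‖ ^ 2))
          (Real.sqrt τ • y) := by
    intro y
    rw [← ENNReal.ofReal_mul (sq_nonneg _), norm_smul, norm_smul,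
      norm_iteratedFDeriv_Zs n b hτ 0 0 hf, PP_scale h y hs.ne', Real.sq_sqrt hτ.le, zero_add]
    congr 1
    ring
  rw [wn, eLpNorm_two_eq, eLpNorm_two_eq]
  simp only [key]
  rw [lintegral_const_mul' _ _ ENNReal.ofReal_ne_top,
    lintegral_cell_scale h hs
      (fun x : R12 => ENNReal.ofReal (‖(1 + PP h x / τ) ^ θ • iteratedFDeriv ℝ j f x‖ ^ 2)),
    ← mul_assoc, ← ENNReal.ofReal_mul (sq_nonneg _), ENNReal.mul_rpow_of_nonneg _ _ (by norm_num),
    ENNReal.ofReal_rpow_of_nonneg (by positivity) (by norm_num)]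
  congr 2
  have e1 : Real.sqrt τ ^ 12 = (τ ^ 3) ^ 2 := by
    rw [show (12 : ℕ) = 2 * 6 by norm_num, pow_mul, Real.sq_sqrt hτ.le]; ring
  have e2 : (τ ^ aa n * Real.sqrt τ ^ j) ^ 2 * (Real.sqrt τ ^ 12)⁻¹ =
      (τ ^ (aa n - 3) * Real.sqrt τ ^ j) ^ 2 := by
    rw [e1, Real.rpow_sub hτ, show (3 : ℝ) = ((3 : ℕ) : ℝ) by norm_num, Real.rpow_natCast]
    field_simp
  rw [e2, ← Real.sqrt_eq_rpow, Real.sqrt_sq (by positivity)]

theorem nrm_Zs_eq (n : ℕ) (b h : ℝ) {τ : ℝ} (hτ : 0 < τ) {k : ℕ} {f : R12 → ℂ} (hf : ContDiff ℝ k f) :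
    nrm k (h * Real.sqrt τ) (Zs n b τ 0 0 f) = ∑ j ∈ Finset.range (k + 1),
      ENNReal.ofReal (τ ^ (aa n - 3) * Real.sqrt τ ^ j) * wn h τ (ew j / 2) j f := by
  unfold nrm
  refine Finset.sum_congr rfl fun j hj => ?_
  exact eLpNorm_Zs n b h _ hτ
    (hf.of_le (by exact_mod_cast Nat.lt_succ_iff.1 (Finset.mem_range.1 hj)))

theorem low_Zs_eq (n : ℕ) (b h : ℝ) {τ : ℝ} (hτ : 0 < τ) {f : R12 → ℂ} (hf : Continuous f) :
    low (h * Real.sqrt τ) (Zs n b τ 0 0 f) = ENNReal.ofReal (τ ^ (aa n - 3)) * wn h τ (-7) 0 f := by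
  have hf' : ContDiff ℝ ((0 : ℕ) : WithTop ℕ∞) f := contDiff_zero.2 hf
  have h1 := eLpNorm_Zs n b h (-7) hτ hf'
  rw [pow_zero, mul_one] at h1
  rw [← h1, low]
  refine eLpNorm_congr_norm_ae (Eventually.of_forall fun y => ?_)
  rw [norm_smul, norm_smul, norm_iteratedFDeriv_zero]

end

end Crest.Agent.R086.E
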