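import Crest.Agent.R086.E.SobA
import Crest.Agent.R086.E.Nrm

open MeasureTheory Set Filter Topology
open scoped ContDiff ComplexConjugate ENNReal
open Crest.AnalysisR.PDE.NLS

namespace Crest.Agent.R086.E

noncomputable section

/-! # E1 -/

/-- a weighted term over a cube of side ≤ period is bounded by the norm (`lintegral_cube_le`,
`eLpNorm_two_eq`, `perG_iteratedFDeriv`, `perG_PP`) -/
theorem term_cube_le {k j : ℕ} (hj : j ≤ k) {h r : ℝ} (hh : 0 ≤ h) (hr : h * r ≤ 2 * Real.pi)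
    {f : R12 → ℂ} (hp : Per h f) (x : R12) :
    eLpNorm (fun y => (1 + PP h y) ^ (ew j / 2) • iteratedFDeriv ℝ j f y) 2 (volume.restrict (cube x r))
      ≤ nrm k h f := by
  refine le_trans ?_ (term_le_nrm hj h f)
  rw [eLpNorm_two_eq, eLpNorm_two_eq]
  exact ENNReal.rpow_le_rpow (lintegral_cube_le hh hr (perG_map₂ (perG_PP h)
    (perG_iteratedFDeriv (f := f) hp j)
    fun a b => ENNReal.ofReal (‖(1 + a) ^ (ew j / 2) • b‖ ^ 2)) x) (by norm_num)

/-- with r = √(1 + PP h x)/8 the weight is comparable on the cube (`PP_add_le` twice,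
`norm_sub_le_of_mem_cube`) -/
theorem rho_cube {h : ℝ} {x y : R12} (hy : y ∈ cube x (Real.sqrt (1 + PP h x) / 8)) :
    (1 + PP h x) / 4 ≤ 1 + PP h y ∧ 1 + PP h y ≤ 4 * (1 + PP h x) := by
  have h0 := PP_nonneg h x
  have h1 := norm_sub_le_of_mem_cube hy
  rw [div_pow, Real.sq_sqrt (by linarith)] at h1
  have h2 := PP_add_le h x (y - x)
  have h3 := PP_add_le h y (x - y)
  rw [add_sub_cancel] at h2 h3
  rw [norm_sub_rev] at h3
  constructor <;> linarith

theorem Sob_rpow {ρ σ a : ℝ} (hρ : 0 < ρ) (h1 : ρ / 4 ≤ σ) (h2 : σ ≤ 4 * ρ) (ha : -17 ≤ a)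
    (ha' : a ≤ 17) : ρ ^ a ≤ 4 ^ 17 * σ ^ a := by
  have hσ : 0 < σ := lt_of_lt_of_le (by positivity) h1
  have h17 : ∀ c : ℝ, c ≤ 17 → (4 : ℝ) ^ c ≤ 4 ^ 17 := fun c hc => by
    calc (4 : ℝ) ^ c ≤ 4 ^ ((17 : ℕ) : ℝ) :=
          Real.rpow_le_rpow_of_exponent_le (by norm_num) (by push_cast; linarith)
      _ = 4 ^ 17 := Real.rpow_natCast _ _
  rcases le_total 0 a with h | h
  · calc ρ ^ a ≤ (4 * σ) ^ a := Real.rpow_le_rpow hρ.le (by linarith) h
      _ = 4 ^ a * σ ^ a := Real.mul_rpow (by norm_num) hσ.le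
      _ ≤ 4 ^ 17 * σ ^ a := mul_le_mul_of_nonneg_right (h17 a ha') (by positivity)
  · calc ρ ^ a ≤ (σ / 4) ^ a := Real.rpow_le_rpow_of_nonpos (by positivity) (by linarith) h
      _ = 4 ^ (-a) * σ ^ a := by
          rw [Real.div_rpow hσ.le (by norm_num), Real.rpow_neg (by norm_num), div_eq_inv_mul]
      _ ≤ 4 ^ 17 * σ ^ a := mul_le_mul_of_nonneg_right (h17 _ (by linarith)) (by positivity)

theorem Sob_aux {k j : ℕ} (hj : j + 12 ≤ k) {h B : ℝ} (hh : 0 ≤ h) (hB : 0 ≤ B) {f : R12 → ℂ}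
    (hf : ContDiff ℝ k f) (hp : Per h f) (hn : nrm k h f ≤ ENNReal.ofReal B) (x : R12) {r : ℝ}
    (hr : 0 < r) (hr' : h * r ≤ 2 * Real.pi) {A : ℝ} (hA : 0 ≤ A)
    (H : ∀ i : ℕ, i ≤ 12 → ∀ y ∈ cube x r,
      2 ^ 12 * r ^ ((i : ℝ) - 6) ≤ A * (1 + PP h y) ^ (ew (j + i) / 2)) :
    ‖iteratedFDeriv ℝ j f x‖ ≤ 13 * A * B := by
  have h1 := sob_cube j (hf.of_le (by exact_mod_cast hj)) x hr
  have h2 : ∀ i ∈ Finset.range 13, ENNReal.ofReal (2 ^ 12 * r ^ ((i : ℝ) - 6)) *
      eLpNorm (iteratedFDeriv ℝ (j + i) f) 2 (volume.restrict (cube x r)) ≤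
      ENNReal.ofReal (A * B) := by
    intro i hi
    have hi' : i ≤ 12 := Nat.lt_succ_iff.1 (Finset.mem_range.1 hi)
    have hc : 0 ≤ 2 ^ 12 * r ^ ((i : ℝ) - 6) := by positivity
    calc ENNReal.ofReal (2 ^ 12 * r ^ ((i : ℝ) - 6)) *
          eLpNorm (iteratedFDeriv ℝ (j + i) f) 2 (volume.restrict (cube x r))
        = eLpNorm ((2 ^ 12 * r ^ ((i : ℝ) - 6)) • iteratedFDeriv ℝ (j + i) f) 2
            (volume.restrict (cube x r)) := by
          rw [eLpNorm_const_smul, Real.enorm_eq_ofReal hc]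
      _ ≤ eLpNorm (A • fun y => (1 + PP h y) ^ (ew (j + i) / 2) • iteratedFDeriv ℝ (j + i) f y) 2
            (volume.restrict (cube x r)) := by
          refine eLpNorm_mono_ae (ae_restrict_of_forall_mem (measurableSet_cube x r) fun y hy => ?_)
          have h3 : 0 ≤ (1 + PP h y) ^ (ew (j + i) / 2) :=
            Real.rpow_nonneg (by linarith [PP_nonneg h y]) _
          simp only [Pi.smul_apply, norm_smul, Real.norm_of_nonneg hc, Real.norm_of_nonneg hA,
            Real.norm_of_nonneg h3, ← mul_assoc]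
          exact mul_le_mul_of_nonneg_right (H i hi' y hy) (norm_nonneg _)
      _ ≤ ENNReal.ofReal A * ENNReal.ofReal B := by
          rw [eLpNorm_const_smul, Real.enorm_eq_ofReal hA]
          exact mul_le_mul_right ((term_cube_le (by omega) hh hr' hp x).trans hn) _
      _ = ENNReal.ofReal (A * B) := (ENNReal.ofReal_mul hA).symm
  have h3 := h1.trans (Finset.sum_le_card_nsmul _ _ _ h2)
  rw [Finset.card_range, ← ENNReal.ofReal_nsmul, nsmul_eq_mul,
    ENNReal.ofReal_le_ofReal_iff (by positivity)] at h3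
  push_cast at h3
  linarith

/-- j ≤ 28: `sob_cube` with r = √ρ/8 (h r ≤ 7/8), e_{j+i} = j+i-6;
28 < j ≤ k - 12: r = 1 and weights ≥ 1 (`ew_nonneg`); for j ≤ 28 the first claim follows from the second -/
theorem sob : SobStmt := by
  intro k hk
  refine ⟨13 * (2 ^ 12 * 8 ^ 6 * 4 ^ 17), by positivity, fun h hh f B hB hf hp hn j x => ?_⟩
  have hx0 := PP_nonneg h x
  have hρ : 0 < 1 + PP h x := by linarith
  have key : j ≤ 28 → ‖iteratedFDeriv ℝ j f x‖ ≤
      13 * (2 ^ 12 * 8 ^ 6 * 4 ^ 17) * B * (1 + PP h x) ^ (-(j : ℝ) / 2) := by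
    intro hj
    have hs : 0 < Real.sqrt (1 + PP h x) := Real.sqrt_pos.2 hρ
    have hr : h * (Real.sqrt (1 + PP h x) / 8) ≤ 2 * Real.pi := by
      have h1 : (h * Real.sqrt (1 + PP h x)) ^ 2 ≤ 7 ^ 2 := by
        rw [mul_pow, Real.sq_sqrt hρ.le]
        have h2 := sq_mul_PP_le h x
        have h3 : h ^ 2 ≤ 1 := pow_le_one₀ hh.1 hh.2
        linarith
      have h2 := (abs_le_of_sq_le_sq' h1 (by norm_num)).2
      linarith [Real.pi_gt_three]
    have h1 := Sob_aux (j := j) (by omega) hh.1 hB hf hp hn x (r := Real.sqrt (1 + PP h x) / 8)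
      (by positivity) hr (A := 2 ^ 12 * 8 ^ 6 * 4 ^ 17 * (1 + PP h x) ^ (-(j : ℝ) / 2))
      (by positivity) fun i hi y hy => by
        obtain ⟨h2, h3⟩ := rho_cube hy
        have hi' : (i : ℝ) ≤ 12 := by exact_mod_cast hi
        have hj' : (j : ℝ) ≤ 28 := by exact_mod_cast hj
        have hi0 : (0 : ℝ) ≤ i := Nat.cast_nonneg i
        have hj0 : (0 : ℝ) ≤ j := Nat.cast_nonneg j
        have h4 := Sob_rpow hρ h2 h3 (a := ((j : ℝ) + i - 6) / 2) (by linarith) (by linarith)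
        rw [ew_eq (by omega)]
        push_cast
        have h5 : (Real.sqrt (1 + PP h x) / 8) ^ ((i : ℝ) - 6) ≤
            8 ^ 6 * (1 + PP h x) ^ (((i : ℝ) - 6) / 2) := by
          rw [Real.div_rpow hs.le (by norm_num), Real.sqrt_eq_rpow, ← Real.rpow_mul hρ.le,
            show 1 / 2 * ((i : ℝ) - 6) = ((i : ℝ) - 6) / 2 by ring, div_eq_inv_mul,
            ← Real.rpow_neg (by norm_num)]
          refine mul_le_mul_of_nonneg_right ?_ (by positivity)
          calc (8 : ℝ) ^ (-((i : ℝ) - 6)) ≤ 8 ^ ((6 : ℕ) : ℝ) :=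
                Real.rpow_le_rpow_of_exponent_le (by norm_num) (by push_cast; linarith)
            _ = 8 ^ 6 := Real.rpow_natCast _ _
        have h6 : (1 + PP h x) ^ (((i : ℝ) - 6) / 2) =
            (1 + PP h x) ^ (-(j : ℝ) / 2) * (1 + PP h x) ^ (((j : ℝ) + i - 6) / 2) := by
          rw [← Real.rpow_add hρ]
          congr 1
          ring
        rw [h6] at h5
        have h7 : 0 ≤ (1 + PP h x) ^ (-(j : ℝ) / 2) := by positivity
        have h8 := mul_le_mul_of_nonneg_left h4 h7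
        linarith
    linarith
  refine ⟨fun hj => ?_, key⟩
  by_cases hj' : j ≤ 28
  · refine (key hj').trans (mul_le_of_le_one_right (by positivity) ?_)
    refine Real.rpow_le_one_of_one_le_of_nonpos (by linarith) ?_
    have : (0 : ℝ) ≤ j := Nat.cast_nonneg j
    linarith
  · have h1 := Sob_aux hj hh.1 hB hf hp hn x (r := 1) one_pos
      (by linarith [Real.pi_gt_three, hh.2]) (A := 2 ^ 12) (by positivity) fun i _ y _ => by
        rw [Real.one_rpow]
        refine mul_le_mul_of_nonneg_left (Real.one_le_rpow (by linarith [PP_nonneg h y]) ?_)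
          (by positivity)
        have := ew_nonneg (j := j + i) (by omega)
        linarith
    linarith

end

end Crest.Agent.R086.E
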