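import Crest.Agent.R086.E.Scale

open MeasureTheory Set Filter Topology
open scoped ContDiff ComplexConjugate ENNReal
open Crest.AnalysisR.PDE.NLS

namespace Crest.Agent.R086.E

noncomputable section

/-! # Sobolev inequality on a cube -/

/-- φ a = φ t - ∫_a^t φ'; average over t ∈ [a, a+r) -/
theorem sob_1d {E : Type} [NormedAddCommGroup E] [NormedSpace ℝ E] [CompleteSpace E] {φ φ' : ℝ → E}
    (hφ : ∀ t, HasDerivAt φ (φ' t) t) (hc : Continuous φ') (a : ℝ) {r : ℝ} (hr : 0 < r) :
    ‖φ a‖ₑ ≤ ∫⁻ t in Ico a (a + r), (ENNReal.ofReal r⁻¹ * ‖φ t‖ₑ + ‖φ' t‖ₑ) := by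
  set I := ∫⁻ t in Ico a (a + r), ‖φ' t‖ₑ with hI
  have h1 : ∀ t ∈ Ico a (a + r), ‖φ a‖ₑ ≤ ‖φ t‖ₑ + I := by
    intro t ht
    have e : ∫ s in a..t, φ' s = φ t - φ a :=
      intervalIntegral.integral_eq_sub_of_hasDerivAt (fun s _ => hφ s) (hc.intervalIntegrable _ _)
    have e2 : φ a = φ t - ∫ s in a..t, φ' s := by rw [e]; abel
    rw [e2]
    refine (enorm_sub_le).trans (add_le_add_right ?_ _)
    rw [intervalIntegral.integral_of_le ht.1]
    exact (enorm_integral_le_lintegral_enorm _).trans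
      (lintegral_mono_set fun s hs => ⟨hs.1.le, hs.2.trans_lt ht.2⟩)
  have hv : ENNReal.ofReal r⁻¹ * volume (Ico a (a + r)) = 1 := by
    rw [Real.volume_Ico, add_sub_cancel_left, ← ENNReal.ofReal_mul (inv_pos.2 hr).le,
      inv_mul_cancel₀ hr.ne', ENNReal.ofReal_one]
  have hconst : ∀ c : ℝ≥0∞, ∫⁻ _ in Ico a (a + r), ENNReal.ofReal r⁻¹ * c = c := fun c => by
    rw [setLIntegral_const, mul_right_comm, hv, one_mul]
  calc ‖φ a‖ₑ = ∫⁻ _ in Ico a (a + r), ENNReal.ofReal r⁻¹ * ‖φ a‖ₑ := (hconst _).symm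
    _ ≤ ∫⁻ t in Ico a (a + r), (ENNReal.ofReal r⁻¹ * ‖φ t‖ₑ + ENNReal.ofReal r⁻¹ * I) := by
      refine setLIntegral_mono' measurableSet_Ico fun t ht => ?_
      rw [← mul_add]
      exact mul_le_mul_right (h1 t ht) _
    _ = (∫⁻ t in Ico a (a + r), ENNReal.ofReal r⁻¹ * ‖φ t‖ₑ) + I := by
      rw [lintegral_add_right _ measurable_const, hconst]
    _ = _ := by rw [lintegral_add_right _ hc.enorm.measurable]

private theorem h75_marg {δ : Type} [DecidableEq δ] (μ : δ → Measure ℝ) [∀ i, SigmaFinite (μ i)]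
    (x : δ → ℝ) (c : ℝ≥0∞) (N : ℕ) (F : ℕ → (δ → ℝ) → ℝ≥0∞) (hm : ∀ j ≤ N, Measurable (F j))
    (hs : ∀ j, j + 1 ≤ N → ∀ l, ∀ y : δ → ℝ, y l = x l →
      F j y ≤ ∫⁻ t, (c * F j (Function.update y l t) + F (j + 1) (Function.update y l t)) ∂μ l)
    (s : Finset δ) : ∀ j, j + s.card ≤ N → ∀ y : δ → ℝ, (∀ l ∈ s, y l = x l) →
      F j y ≤ ∑ i ∈ Finset.range (s.card + 1),
        2 ^ s.card * c ^ (s.card - i) * (∫⋯∫⁻_s, F (j + i) ∂μ) y := by
  induction s using Finset.induction_on with
  | empty => intro j _ y _; simp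
  | insert l s hl ih =>
    intro j hj y hy
    rw [Finset.card_insert_of_notMem hl] at hj ⊢
    set n := s.card with hn
    have hy' : ∀ t, ∀ l' ∈ s, Function.update y l t l' = x l' := fun t l' hl' => by
      rw [Function.update_of_ne (fun e : l' = l => hl (e ▸ hl'))]
      exact hy l' (Finset.mem_insert_of_mem hl')
    have hG : ∀ k ≤ N, Measurable fun t => (∫⋯∫⁻_s, F k ∂μ) (Function.update y l t) :=
      fun k hk => ((hm k hk).lmarginal μ).comp (measurable_update y)
    have hsum : ∀ k, k + n ≤ N → ∫⁻ t, ∑ i ∈ Finset.range (n + 1),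
        2 ^ n * c ^ (n - i) * (∫⋯∫⁻_s, F (k + i) ∂μ) (Function.update y l t) ∂μ l =
        ∑ i ∈ Finset.range (n + 1), 2 ^ n * c ^ (n - i) * (∫⋯∫⁻_insert l s, F (k + i) ∂μ) y := by
      intro k hk
      rw [lintegral_finsetSum _ fun i hi =>
        (hG _ (by have := Finset.mem_range.1 hi; omega)).const_mul _]
      refine Finset.sum_congr rfl fun i hi => ?_
      have hi' : k + i ≤ N := by have := Finset.mem_range.1 hi; omega
      rw [lintegral_const_mul _ (hG _ hi'), lmarginal_insert _ (hm _ hi') hl]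
    have hms : ∀ k, k + n ≤ N → Measurable fun t => ∑ i ∈ Finset.range (n + 1),
        2 ^ n * c ^ (n - i) * (∫⋯∫⁻_s, F (k + i) ∂μ) (Function.update y l t) := fun k hk =>
      Finset.measurable_sum _ fun i hi =>
        (hG _ (by have := Finset.mem_range.1 hi; omega)).const_mul _
    set T : ℕ → ℝ≥0∞ := fun i => 2 ^ n * c ^ (n + 1 - i) * (∫⋯∫⁻_insert l s, F (j + i) ∂μ) y
      with hT
    calc F j y ≤ _ := hs j (by omega) l y (hy l (Finset.mem_insert_self _ _))
      _ ≤ ∫⁻ t, (c * ∑ i ∈ Finset.range (n + 1),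
          2 ^ n * c ^ (n - i) * (∫⋯∫⁻_s, F (j + i) ∂μ) (Function.update y l t) +
          ∑ i ∈ Finset.range (n + 1),
          2 ^ n * c ^ (n - i) * (∫⋯∫⁻_s, F (j + 1 + i) ∂μ) (Function.update y l t)) ∂μ l :=
        lintegral_mono fun t => add_le_add (mul_le_mul_right (ih j (by omega) _ (hy' t)) _)
          (ih (j + 1) (by omega) _ (hy' t))
      _ = ∑ i ∈ Finset.range (n + 1), T i + ∑ i ∈ Finset.range (n + 1), T (i + 1) := by
        rw [lintegral_add_right _ (hms _ (by omega)), lintegral_const_mul _ (hms _ (by omega)),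
          hsum _ (by omega), hsum _ (by omega), Finset.mul_sum]
        congr 1
        · refine Finset.sum_congr rfl fun i hi => ?_
          have e : n + 1 - i = n - i + 1 := by have := Finset.mem_range.1 hi; omega
          simp only [hT, e, pow_succ]
          ring
        · refine Finset.sum_congr rfl fun i _ => ?_
          simp only [hT, Nat.add_sub_add_right, add_assoc, add_comm 1 i]
      _ ≤ ∑ i ∈ Finset.range (n + 1 + 1), T i + ∑ i ∈ Finset.range (n + 1 + 1), T i := by
        refine add_le_add ?_ ?_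
        · rw [Finset.sum_range_succ _ (n + 1)]
          exact le_self_add
        · rw [Finset.sum_range_succ' _ (n + 1)]
          exact le_self_add
      _ = _ := by
        rw [← Finset.sum_add_distrib]
        refine Finset.sum_congr rfl fun i _ => ?_
        simp only [hT, pow_succ]
        ring

private theorem h75_pre (x : R12) (r : ℝ) :
    (WithLp.toLp 2 : (Fin 12 → ℝ) → R12) ⁻¹' cube x r = univ.pi fun i => Ico (x i) (x i + r) := by
  ext y
  simp [cube]

private theorem h75_line (y : Fin 12 → ℝ) (l : Fin 12) (t : ℝ) :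
    HasDerivAt (fun t => (WithLp.toLp 2 (Function.update y l t) : R12))
      (EuclideanSpace.single l (1 : ℝ)) t := by
  have e : (fun t => (WithLp.toLp 2 (Function.update y l t) : R12)) =
      fun t => WithLp.toLp 2 y + (t - y l) • EuclideanSpace.single l (1 : ℝ) := by
    funext t
    ext i
    by_cases h : i = l
    · subst h; simp
    · simp [h]
  rw [e]
  simpa using (((hasDerivAt_id t).sub_const (y l)).smul_const
    (EuclideanSpace.single l (1 : ℝ) : R12)).const_add (WithLp.toLp 2 y)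

/-- Induction over finsets `s` of coordinates with `MeasureTheory.lmarginal` for the measures
`volume.restrict (Ico (x i) (x i + r))` on `Fin 12 → ℝ`:
‖D^j f x‖ ≤ Σ_{i ≤ |s|} C(|s|,i) r^{i-|s|} (∫⋯∫⁻_s ‖D^{j+i} f‖) x; the step is `sob_1d` for
`t ↦ D^{j+i} f (update y l t)` whose derivative has norm ≤ ‖D^{j+i+1} f‖ (`norm_fderiv_iteratedFDeriv`).
Finally `lintegral_eq_lmarginal_univ`, `Measure.restrict_pi_pi`/`Measure.pi` and
`PiLp.volume_preserving_toLp`. -/
theorem sob_L1 (j : ℕ) {f : R12 → ℂ} (hf : ContDiff ℝ (j + 12 : ℕ) f) (x : R12) {r : ℝ} (hr : 0 < r) :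
    ‖iteratedFDeriv ℝ j f x‖ₑ ≤ ∑ i ∈ Finset.range 13,
      ENNReal.ofReal (2 ^ 12 * r ^ ((i : ℝ) - 12)) * ∫⁻ y in cube x r, ‖iteratedFDeriv ℝ (j + i) f y‖ₑ := by
  have hc : ∀ k ≤ j + 12, Continuous (iteratedFDeriv ℝ k f) := fun k hk =>
    hf.continuous_iteratedFDeriv (by exact_mod_cast hk)
  have hL : Continuous (WithLp.toLp 2 : (Fin 12 → ℝ) → R12) := PiLp.continuous_toLp 2 _
  have key := h75_marg (fun i : Fin 12 => volume.restrict (Ico (x i) (x i + r))) (fun i => x i)
    (ENNReal.ofReal r⁻¹) (j + 12) (fun k y => ‖iteratedFDeriv ℝ k f (WithLp.toLp 2 y)‖ₑ)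
    (fun k hk => ((hc k hk).comp hL).enorm.measurable) (fun k hk l y hy => ?_) Finset.univ j
    (by simp) (fun i => x i) (fun _ _ => rfl)
  · refine key.trans (le_of_eq ?_)
    simp only [Finset.card_univ, Fintype.card_fin]
    refine Finset.sum_congr rfl fun i hi => ?_
    have hi' : i ≤ 12 := by have := Finset.mem_range.1 hi; omega
    congr 1
    · rw [ENNReal.ofReal_mul (by positivity), ← ENNReal.ofReal_pow (inv_pos.2 hr).le]
      congr 1
      · rw [ENNReal.ofReal_pow (by norm_num)]; simp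
      · congr 1
        rw [inv_pow, ← Real.rpow_natCast, ← Real.rpow_neg hr.le, Nat.cast_sub hi']
        congr 1
        push_cast
        ring
    · rw [← lintegral_eq_lmarginal_univ, ← Measure.restrict_pi_pi, ← h75_pre, ← volume_pi]
      exact (PiLp.volume_preserving_toLp (Fin 12)).setLIntegral_comp_preimage
        (measurableSet_cube x r) (hc _ (by omega)).enorm.measurable
  · have hd : Differentiable ℝ (iteratedFDeriv ℝ k f) :=
      hf.differentiable_iteratedFDeriv (by exact_mod_cast (by omega : k < j + 12))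
    have hc2 : Continuous (fderiv ℝ (iteratedFDeriv ℝ k f)) :=
      (hf.iteratedFDeriv_right (m := 1) (i := k) (by exact_mod_cast (by omega : 1 + k ≤ j + 12))
        ).continuous_fderiv one_ne_zero
    have hl : Continuous fun t => (WithLp.toLp 2 (Function.update y l t) : R12) :=
      continuous_iff_continuousAt.2 fun t => (h75_line y l t).continuousAt
    have h1 := sob_1d (φ := fun t => iteratedFDeriv ℝ k f (WithLp.toLp 2 (Function.update y l t)))
      (fun t => (hd _).hasFDerivAt.comp_hasDerivAt t (h75_line y l t))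
      ((hc2.comp hl).clm_apply continuous_const) (x l) hr
    simp only [← hy, Function.update_eq_self] at h1 ⊢
    refine h1.trans (lintegral_mono fun t => add_le_add_right ?_ _)
    rw [← ofReal_norm, ← ofReal_norm, ← norm_fderiv_iteratedFDeriv]
    refine ENNReal.ofReal_le_ofReal ((ContinuousLinearMap.le_opNorm _ _).trans ?_)
    simp

theorem volume_cube (x : R12) {r : ℝ} (hr : 0 < r) : volume (cube x r) = ENNReal.ofReal (r ^ 12) := by
  rw [← (PiLp.volume_preserving_toLp (Fin 12)).measure_preimage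
    (measurableSet_cube x r).nullMeasurableSet, h75_pre, volume_pi, Measure.pi_pi]
  simp [ENNReal.ofReal_pow hr.le]

/-- Cauchy–Schwarz (`eLpNorm_le_eLpNorm_mul_rpow_measure_univ`) -/
theorem sob_cube (j : ℕ) {f : R12 → ℂ} (hf : ContDiff ℝ (j + 12 : ℕ) f) (x : R12) {r : ℝ} (hr : 0 < r) :
    ENNReal.ofReal ‖iteratedFDeriv ℝ j f x‖ ≤ ∑ i ∈ Finset.range 13,
      ENNReal.ofReal (2 ^ 12 * r ^ ((i : ℝ) - 6)) *
        eLpNorm (iteratedFDeriv ℝ (j + i) f) 2 (volume.restrict (cube x r)) := by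
  rw [ofReal_norm]
  refine (sob_L1 j hf x hr).trans (Finset.sum_le_sum fun i hi => ?_)
  have hi' : i ≤ 12 := by have := Finset.mem_range.1 hi; omega
  have hc : Continuous (iteratedFDeriv ℝ (j + i) f) :=
    hf.continuous_iteratedFDeriv (by exact_mod_cast (by omega : j + i ≤ j + 12))
  have h1 := eLpNorm_le_eLpNorm_mul_rpow_measure_univ (μ := volume.restrict (cube x r))
    (by norm_num : (1 : ℝ≥0∞) ≤ 2) hc.aestronglyMeasurable
  rw [eLpNorm_one_eq_lintegral_enorm, Measure.restrict_apply_univ, volume_cube x hr,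
    ENNReal.ofReal_rpow_of_pos (pow_pos hr _)] at h1
  refine (mul_le_mul_right h1 _).trans (le_of_eq ?_)
  rw [mul_comm (eLpNorm _ _ _), ← mul_assoc, ← ENNReal.ofReal_mul (by positivity)]
  congr 2
  rw [mul_assoc, ← Real.rpow_natCast r 12, ← Real.rpow_mul hr.le, ← Real.rpow_add hr]
  congr 2
  norm_num
  ring

end

end Crest.Agent.R086.E
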